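import Vale.Agent.P073Y.Zn.Bas

/-!
# Zones: the choice of all centres
-/

open Set Metric Topology Filter MeasureTheory
open scoped NNReal ENNReal

namespace P073.Zn

open P073.Top

variable {N : ℕ} {t : ℝ}

theorem nrm_add (u v : E3) : nrm N t (u + v) = nrm N t u + nrm N t v := by
  funext i
  fin_cases i <;> simp [nrm] <;> ring

theorem nrm_cont (N : ℕ) (t : ℝ) : Continuous (nrm N t) :=
  continuous_pi fun i => by fin_cases i <;> simp [nrm] <;> fun_prop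

theorem norm_nrm_le (hN : 1 ≤ N) (ht : 0 < t) {K : ℝ} {w : E3} (h0 : 2 * |w 0| ≤ K * N)
    (h1 : 2 * |w 1| ≤ K * N) (h2 : |w 2| ≤ K * t) : ‖nrm N t w‖ ≤ K := by
  have hN' : (0 : ℝ) < N := by exact_mod_cast hN
  have hK : 0 ≤ K := le_of_mul_le_mul_right (by linarith [abs_nonneg (w 2)]) ht
  refine (pi_norm_le_iff_of_nonneg hK).2 fun i => ?_
  fin_cases i
  · simpa [nrm, abs_div, abs_mul, div_le_iff₀ hN'] using h0
  · simpa [nrm, abs_div, abs_mul, div_le_iff₀ hN'] using h1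
  · simpa [nrm, abs_div, abs_of_pos ht, div_le_iff₀ ht] using h2

/-- the normalisation has the Lipschitz constant `1 / t` -/
theorem nrm_lip (hN : 1 ≤ N) (ht : 0 < t) (ht' : t ≤ 1 / 4) (w : E3) :
    ‖nrm N t w‖ ≤ ‖w‖ / t := by
  have hN' : (1 : ℝ) ≤ N := by exact_mod_cast hN
  have h1 : 2 * ‖w‖ ≤ ‖w‖ / t * N := by
    have : 2 * ‖w‖ ≤ ‖w‖ / t := by
      rw [le_div_iff₀ ht]
      nlinarith [norm_nonneg w]
    nlinarith [norm_nonneg w]
  refine norm_nrm_le hN ht ?_ ?_ ?_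
  · linarith [norm_le_pi_norm w 0, Real.norm_eq_abs (w 0)]
  · linarith [norm_le_pi_norm w 1, Real.norm_eq_abs (w 1)]
  · rw [div_mul_cancel₀ _ ht.ne']
    exact norm_le_pi_norm w 2

theorem lbox_sub {z : Fin 3 → ℤ} {y c : E3} (hy : y ∈ lbox N 0 z) (hc : c ∈ lbox N 0 z)
    (i : Fin 3) : |(y - c) i| ≤ wd N i := by
  have h1 := mem_lbox.1 hy i
  have h2 := mem_lbox.1 hc i
  rw [Pi.sub_apply, abs_le]
  constructor <;> linarith [h1.1, h1.2, h2.1, h2.2]

theorem nrm_slab (hN : 1 ≤ N) (ht : 0 < t) {z : Fin 3 → ℤ} {y c : E3} (hy : y ∈ lbox N 0 z)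
    (hc : c ∈ lbox N 0 z) (h : |y 2 - c 2| ≤ 2 * t) : ‖nrm N t (y - c)‖ ≤ 2 :=
  norm_nrm_le hN ht (by simpa [wd] using lbox_sub hy hc 0) (by simpa [wd] using lbox_sub hy hc 1)
    h

theorem nrm_box (hN : 1 ≤ N) (ht : 0 < t) (ht' : t ≤ 1 / 4) {z : Fin 3 → ℤ} {y c : E3}
    (hy : y ∈ lbox N 0 z) (hc : c ∈ lbox N 0 z) : ‖nrm N t (y - c)‖ ≤ 1 / t := by
  have h4 : 2 ≤ 1 / t := by
    rw [le_div_iff₀ ht]
    linarith
  have hN' : (0 : ℝ) ≤ N := Nat.cast_nonneg N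
  have h0 : |(y - c) 0| ≤ N := by simpa [wd] using lbox_sub hy hc 0
  have h1 : |(y - c) 1| ≤ N := by simpa [wd] using lbox_sub hy hc 1
  refine norm_nrm_le hN ht (by nlinarith) (by nlinarith) ?_
  rw [one_div_mul_cancel ht.ne']
  simpa [wd] using lbox_sub hy hc 2

/-- a small displacement at most doubles the normalised distance -/
theorem nrm_near (hN : 1 ≤ N) (ht : 0 < t) (ht' : t ≤ 1 / 4) {y y' c : E3} {o β : ℝ}
    (ho : o ≤ t) (hβ : 0 ≤ β) (h : dist y y' ≤ o * max ‖nrm N t (y - c)‖ β) :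
    ‖nrm N t (y' - c)‖ ≤ 2 * max ‖nrm N t (y - c)‖ β := by
  have e : y' - c = (y - c) + (y' - y) := by abel
  have h1 := nrm_lip hN ht ht' (y' - y)
  have h2 : 0 ≤ max ‖nrm N t (y - c)‖ β := le_max_of_le_right hβ
  have h3 : ‖y' - y‖ / t ≤ max ‖nrm N t (y - c)‖ β := by
    rw [div_le_iff₀ ht, ← dist_eq_norm, dist_comm]
    nlinarith
  rw [e, nrm_add]
  linarith [norm_add_le (nrm N t (y - c)) (nrm N t (y' - y)), le_max_left ‖nrm N t (y - c)‖ β]

theorem ofReal_le_inv {r M k : ℝ} (hM : 0 < M) (hk : 0 < k) (h : r ≤ k * M) :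
    ENNReal.ofReal (1 / M) ≤ ENNReal.ofReal k * (ENNReal.ofReal r)⁻¹ := by
  have h1 : (ENNReal.ofReal (k * M))⁻¹ ≤ (ENNReal.ofReal r)⁻¹ :=
    ENNReal.inv_le_inv.2 (ENNReal.ofReal_le_ofReal h)
  refine le_trans (le_of_eq ?_) (mul_le_mul_right h1 _)
  rw [← ENNReal.ofReal_inv_of_pos (mul_pos hk hM), ← ENNReal.ofReal_mul hk.le]
  congr 1
  field_simp

theorem lint_dirac {κ : Type} (a : κ → ℝ≥0∞) (y : κ → E3) {U : Set E3} (hU : MeasurableSet U)
    (f : E3 → ℝ≥0∞) : ∫⁻ u in U, f u ∂(Measure.sum fun φ => a φ • Measure.dirac (y φ)) =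
      tot {φ | y φ ∈ U} fun φ => a φ * f (y φ) := by
  classical
  rw [Measure.restrict_sum _ hU, lintegral_sum_measure, tot]
  refine tsum_congr fun φ => ?_
  rw [Measure.restrict_smul, lintegral_smul_measure, setLIntegral_dirac, smul_eq_mul]
  split_ifs with h
  · rw [indicator_of_mem (s := {φ | y φ ∈ U}) h]
  · rw [indicator_of_notMem (s := {φ | y φ ∈ U}) h, mul_zero]

theorem cent_of {p : ℝ} (hp : 0 < p) (hC : CHOOSE p) : CENT p := by
  obtain ⟨C, hC⟩ := hC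
  refine ⟨6 ^ p * (C * 64 * 27), ?_⟩
  intro Ω Λ S g N t B X β o ι _ m hN ht ht' hB ho hot hβ H
  choose y₀ hy₀ using S.Q.cell_nonempty
  set y : S.Q.ι → E3 := fun φ => g.toFun (y₀ φ) with hy
  have key := fun z (hz : z ∈ nbr 1 B) => hC N t z (fun i : ι => Measure.sum fun φ =>
    (hit S g.toFun (lbox N 0 z)).indicator (m i) φ • Measure.dirac (y φ)) (fun _ => 4) X hN ht ht'
    (fun _ => ⟨by norm_num, le_rfl⟩) (H z hz).2.2
  choose! c hc hcX hI using key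
  refine ⟨c, fun z hz => ⟨hc z hz, hcX z hz⟩, fun i => ?_⟩
  have hGO : ∀ z ∈ nbr 1 B, ∀ φ, ∀ x ∈ S.Q.cell φ, g.toFun x ∈ lbox N 0 z → ∀ x' ∈ S.Q.cell φ,
      dist (g.toFun x) (g.toFun x') ≤ o * max ‖nrm N t (g.toFun x - c z)‖ (β z (c z)) :=
    fun z hz φ x hx hb x' hx' => (H z hz).2.1 (c z) ⟨hc z hz, hcX z hz⟩ φ
      ⟨_, ⟨x, hx, rfl⟩, lbox_mono N (by norm_num) z hb⟩ x hx x' hx'
  set a : (Fin 3 → ℤ) → S.Q.ι → ℝ≥0∞ := fun z φ => (‖nrm N t (y φ - c z)‖ₑ)⁻¹ with ha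
  set A : (Fin 3 → ℤ) → Set S.Q.ι := fun z => {φ | z ∈ nbr 1 B ∧ ∃ x ∈ S.Q.cell φ,
    g.toFun x ∈ lbox N 0 z ∧ |g.toFun x 2 - c z 2| ≤ 2 * t} with hA
  have h2 : ∀ z ∈ nbr 1 B, ∀ φ, ∀ x ∈ S.Q.cell φ, g.toFun x ∈ lbox N 0 z →
      ‖nrm N t (y φ - c z)‖ ≤ 2 * max ‖nrm N t (g.toFun x - c z)‖ (β z (c z)) :=
    fun z hz φ x hx hb => nrm_near hN ht ht' (by linarith) (hβ z _).1.le
      (hGO z hz φ x hx hb _ (hy₀ φ))
  have h4 : ∀ z, ∀ φ ∈ A z, ‖nrm N t (y φ - c z)‖ ≤ 4 := by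
    rintro z φ ⟨hz, x, hx, hb, hs⟩
    have e1 := nrm_slab hN ht hb (mid_sub z (hc z hz)) hs
    have e2 : max ‖nrm N t (g.toFun x - c z)‖ (β z (c z)) ≤ 2 :=
      max_le e1 (by linarith [(hβ z (c z)).2])
    linarith [h2 z hz φ x hx hb]
  have hmag : ∀ φ ∈ hit S g.toFun (slabs N t B c), ∃ z, φ ∈ A z ∧
      mag N t (nbr 1 B) c (fun z => β z (c z)) g.toFun (S.Q.cell φ) ≤ 6 * a z φ := by
    intro φ hφ
    obtain ⟨x, hx, z₀, hz₀, hb, hs⟩ := mem_hit.1 hφ
    obtain ⟨z, hz, hmax⟩ := exists_max_image {z | φ ∈ A z} (fun z => a z φ)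
      ((nbr_finite hB 1).subset fun z hz => hz.1) ⟨z₀, hz₀, x, hx, hb, hs⟩
    refine ⟨z, hz, ?_⟩
    have e1 : 1 ≤ 4 * a z φ := by
      have := ofReal_le_inv (r := ‖nrm N t (y φ - c z)‖) (M := 1) (k := 4) one_pos (by norm_num)
        (by linarith [h4 z φ hz])
      simpa [ha] using this
    have e2 : ⨆ (x ∈ S.Q.cell φ) (z ∈ nbr 1 B), kern N t z (c z) (β z (c z)) (g.toFun x) ≤
        2 * a z φ := by
      refine iSup₂_le fun x hx => iSup₂_le fun z' hz' => ?_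
      unfold kern
      split_ifs with hk
      · have e3 := ofReal_le_inv (lt_max_of_lt_right (hβ z' (c z')).1) two_pos
          (h2 z' hz' φ x hx hk.1)
        have e4 := hmax z' ⟨hz', x, hx, hk.1, by linarith [hk.2]⟩
        refine e3.trans ?_
        rw [ENNReal.ofReal_ofNat, ofReal_norm]
        exact mul_le_mul_right e4 _
      · exact zero_le
    calc _ ≤ 4 * a z φ + 2 * a z φ := add_le_add e1 e2
      _ = 6 * a z φ := by ring
  set D : (Fin 3 → ℤ) → Set S.Q.ι := fun z => {φ | z ∈ nbr 1 B ∧ φ ∈ hit S g.toFun (lbox N 0 z)}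
    with hD
  have hz : ∀ z, tot (A z) (fun φ => m i φ * a z φ ^ p) ≤
      Fintype.card ι * (C * 64) * ENNReal.ofReal t * tot (D z) (m i) := by
    intro z
    by_cases hz : z ∈ nbr 1 B
    swap
    · rw [show A z = ∅ from eq_empty_of_forall_notMem fun φ h => hz h.1, tot_empty]
      exact zero_le
    have e1 := hI z hz i
    have hU : MeasurableSet {u : E3 | ‖nrm N t (u - c z)‖ ≤ 4} := measurableSet_le
      ((nrm_cont N t).comp (continuous_id.sub continuous_const)).norm.measurable measurable_const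
    rw [lint_dirac _ _ hU, Measure.sum_apply _ MeasurableSet.univ] at e1
    simp only [Measure.smul_apply, measure_univ, smul_eq_mul, mul_one] at e1
    have e2 : (4 : ℝ) ^ (3 - p) ≤ 64 :=
      (Real.rpow_le_rpow_of_exponent_le (by norm_num) (show 3 - p ≤ (3 : ℕ) by
        push_cast; linarith)).trans (by rw [Real.rpow_natCast]; norm_num)
    have e3 : ENNReal.ofReal (t * 4 ^ (3 - p)) ≤ 64 * ENNReal.ofReal t := by
      rw [← ENNReal.ofReal_ofNat, ← ENNReal.ofReal_mul (by norm_num)]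
      exact ENNReal.ofReal_le_ofReal (by nlinarith)
    have e4 : D z = hit S g.toFun (lbox N 0 z) := Set.ext fun φ => and_iff_right hz
    refine le_trans (tot_mono (h4 z) fun φ hφ => ?_) (e1.trans ?_)
    · obtain ⟨-, x, hx, hb, -⟩ := hφ
      rw [indicator_of_mem (mem_hit.2 ⟨x, hx, hb⟩)]
    · rw [e4, tot]
      calc _ ≤ Fintype.card ι * C * (64 * ENNReal.ofReal t) * _ := by gcongr
        _ = _ := by ring
  have hov : ∑' z, tot (D z) (m i) ≤
      27 * tot (hit S g.toFun (⋃ z ∈ nbr 1 B, lbox N 0 z)) (m i) := by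
    have := tsum_tot_le_mul (A := D) (B := hit S g.toFun (⋃ z ∈ nbr 1 B, lbox N 0 z)) (n := 27)
      (fun z φ hφ => hit_mono (subset_biUnion_of_mem (u := fun z => lbox N 0 z) hφ.1) hφ.2)
      (fun φ hφ => by
        obtain ⟨x, hx, hb⟩ := mem_hit.1 hφ
        obtain ⟨z, hz, hb⟩ := mem_iUnion₂.1 hb
        refine (encard_le_encard fun z' hz' => ?_).trans (encard_nbr_one z).le
        obtain ⟨x', hx', hb'⟩ := mem_hit.1 hz'.2
        have e1 := hGO z hz φ x hx hb x' hx'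
        have e2 : max ‖nrm N t (g.toFun x - c z)‖ (β z (c z)) ≤ 1 / t :=
          max_le (nrm_box hN ht ht' hb (mid_sub z (hc z hz))) (by
            rw [le_div_iff₀ ht]
            nlinarith [(hβ z (c z)).1, (hβ z (c z)).2])
        have e3 : o * (1 / t) ≤ 1 / 100 := by
          rw [mul_one_div, div_le_iff₀ ht]
          linarith
        have e4 : dist (g.toFun x') (g.toFun x) ≤ 1 / 100 := by
          rw [dist_comm]
          exact e1.trans ((mul_le_mul_of_nonneg_left e2 ho).trans e3)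
        exact near_of_mem hN (by norm_num) hb' (lbox_dist hb e4)) (m i)
    simpa using this
  have h6 : ((6 ^ p : ℝ≥0) : ℝ≥0∞) = 6 ^ p := by
    rw [ENNReal.coe_rpow_of_nonneg _ hp.le]
    rfl
  calc _ ≤ tot univ fun φ => 6 ^ p * ∑' z, (A z).indicator (fun φ => m i φ * a z φ ^ p) φ := by
        refine tot_mono (subset_univ _) fun φ hφ => ?_
        obtain ⟨z, hz, hm⟩ := hmag φ hφ
        calc _ ≤ m i φ * (6 * a z φ) ^ p := by gcongr
          _ = 6 ^ p * (A z).indicator (fun φ => m i φ * a z φ ^ p) φ := by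
            rw [indicator_of_mem hz, ENNReal.mul_rpow_of_nonneg _ _ hp.le, mul_left_comm]
          _ ≤ _ := mul_le_mul_right (ENNReal.le_tsum
            (f := fun z => (A z).indicator (fun φ => m i φ * a z φ ^ p) φ) z) _
    _ = 6 ^ p * ∑' z, tot (A z) (fun φ => m i φ * a z φ ^ p) := by
        rw [tot_mul, tot_tsum]
        simp only [tot_indicator, univ_inter]
    _ ≤ 6 ^ p * (Fintype.card ι * (C * 64) * ENNReal.ofReal t * ∑' z, tot (D z) (m i)) := by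
        exact mul_le_mul_right ((ENNReal.tsum_le_tsum hz).trans_eq ENNReal.tsum_mul_left) _
    _ ≤ 6 ^ p * (Fintype.card ι * (C * 64) * ENNReal.ofReal t *
          (27 * tot (hit S g.toFun (⋃ z ∈ nbr 1 B, lbox N 0 z)) (m i))) := by gcongr
    _ = _ := by
        push_cast
        rw [h6]
        ring

end P073.Zn
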