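import Vale.Agent.P073Y.Zn.Sk
import Vale.Agent.P073Z.EN.B
import Vale.Agent.P073Z.RCX

/-!
# Zones: elementary facts on lattice boxes, sums over sets of cells, and locality
-/

open Set Metric Topology Filter MeasureTheory
open scoped NNReal ENNReal

namespace P073.Zn

open P073.Top

/-! ### lattice boxes -/

theorem nbr_finite {B : Set (Fin 3 → ℤ)} (hB : B.Finite) (k : ℕ) : (nbr k B).Finite :=
  (hB.biUnion fun z _ => finite_Icc (fun i => z i - k) fun i => z i + k).subset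
    fun z ⟨z', h1, h2⟩ => mem_biUnion h1 ⟨fun i => by
      have := (abs_le.1 (h2 i)).1; simp only; omega, fun i => by
      have := (abs_le.1 (h2 i)).2; simp only; omega⟩

theorem sub_nbr (k : ℕ) (B : Set (Fin 3 → ℤ)) : B ⊆ nbr k B :=
  fun z hz => ⟨z, hz, fun i => by simp⟩

theorem nbr_mono {k k' : ℕ} {B B' : Set (Fin 3 → ℤ)} (hk : k ≤ k') (hB : B ⊆ B') :
    nbr k B ⊆ nbr k' B' :=
  fun _ ⟨z', h1, h2⟩ => ⟨z', hB h1, fun i => (h2 i).trans (by exact_mod_cast hk)⟩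

theorem nbr_nbr {k l : ℕ} {B : Set (Fin 3 → ℤ)} : nbr k (nbr l B) ⊆ nbr (k + l) B := by
  rintro z ⟨z', ⟨z'', h1, h2⟩, h3⟩
  refine ⟨z'', h1, fun i => ?_⟩
  have a := abs_le.1 (h2 i)
  have b := abs_le.1 (h3 i)
  push_cast
  exact abs_le.2 ⟨by linarith, by linarith⟩

theorem one_le_wd {N : ℕ} (hN : 1 ≤ N) (i : Fin 3) : 1 ≤ wd N i := by
  have : (1 : ℝ) ≤ N := by exact_mod_cast hN
  fin_cases i <;> simp [wd, this]

theorem mem_lbox {N : ℕ} {κ : ℝ} {z : Fin 3 → ℤ} {y : E3} :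
    y ∈ lbox N κ z ↔ ∀ i, z i * wd N i + κ ≤ y i ∧ y i ≤ (z i + 1) * wd N i - κ := by
  simp only [lbox, mem_Icc, Pi.le_def]
  exact forall_and.symm

theorem lbox_mono (N : ℕ) {κ κ' : ℝ} (h : κ' ≤ κ) (z : Fin 3 → ℤ) : lbox N κ z ⊆ lbox N κ' z :=
  fun _ hy => mem_lbox.2 fun i =>
    ⟨by linarith [(mem_lbox.1 hy i).1], by linarith [(mem_lbox.1 hy i).2]⟩

theorem isCompact_lbox (N : ℕ) (κ : ℝ) (z : Fin 3 → ℤ) : IsCompact (lbox N κ z) := isCompact_Icc

theorem convex_lbox (N : ℕ) (κ : ℝ) (z : Fin 3 → ℤ) : Convex ℝ (lbox N κ z) := convex_Icc _ _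

theorem exists_lbox {N : ℕ} (hN : 1 ≤ N) (y : E3) : ∃ z, y ∈ lbox N 0 z := by
  refine ⟨fun i => ⌊y i / wd N i⌋, mem_lbox.2 fun i => ?_⟩
  have h0 : 0 < wd N i := lt_of_lt_of_le one_pos (one_le_wd hN i)
  have h1 := Int.floor_le (y i / wd N i)
  have h2 := (Int.lt_floor_add_one (y i / wd N i)).le
  rw [le_div_iff₀ h0] at h1
  rw [div_le_iff₀ h0] at h2
  exact ⟨by linarith, by linarith⟩

/-- a point near a box lies in the enlarged box -/
theorem lbox_dist {N : ℕ} {κ d : ℝ} {z : Fin 3 → ℤ} {y y' : E3} (h : y ∈ lbox N κ z)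
    (hd : dist y' y ≤ d) : y' ∈ lbox N (κ - d) z := mem_lbox.2 fun i => by
  have h1 := mem_lbox.1 h i
  have h2 := abs_le.1 ((Real.dist_eq _ _).ge.trans ((dist_le_pi_dist y' y i).trans hd))
  exact ⟨by linarith [h1.1, h2.1], by linarith [h1.2, h2.2]⟩

/-- two boxes whose slightly enlarged versions meet are neighbours -/
theorem near_of_mem {N : ℕ} (hN : 1 ≤ N) {κ κ' : ℝ} (h : -1 < κ + κ') {z z' : Fin 3 → ℤ}
    {y : E3} (h1 : y ∈ lbox N κ z) (h2 : y ∈ lbox N κ' z') : z ∈ nbr 1 {z'} := by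
  refine ⟨z', rfl, fun i => ?_⟩
  have a := mem_lbox.1 h1 i
  have b := mem_lbox.1 h2 i
  have c := one_le_wd hN i
  have d : ((z i : ℝ) - z' i) < 2 := by
    by_contra hn
    nlinarith [a.1, b.2, not_lt.1 hn]
  have e : ((z' i : ℝ) - z i) < 2 := by
    by_contra hn
    nlinarith [a.2, b.1, not_lt.1 hn]
  have d' : z i - z' i < 2 := by exact_mod_cast d
  have e' : z' i - z i < 2 := by exact_mod_cast e
  exact abs_le.2 ⟨by push_cast; omega, by push_cast; omega⟩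

theorem nbr_one_eq (z : Fin 3 → ℤ) :
    nbr 1 {z} = ↑(Fintype.piFinset fun i => Finset.Icc (z i - 1) (z i + 1)) := by
  ext w
  simp only [nbr, mem_singleton_iff, exists_eq_left, mem_ofPred_eq, Finset.mem_coe,
    Fintype.mem_piFinset, Finset.mem_Icc, abs_le]
  refine forall_congr' fun i => ?_
  push_cast
  omega

theorem encard_nbr_one (z : Fin 3 → ℤ) : (nbr 1 {z}).encard = 27 := by
  rw [nbr_one_eq, encard_coe_eq_coe_finsetCard, Fintype.card_piFinset]
  have : ∀ i, (Finset.Icc (z i - 1) (z i + 1)).card = 3 := fun i => by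
    rw [Int.card_Icc]; omega
  simp [this]

theorem mid_sub {N : ℕ} (z : Fin 3 → ℤ) : mid N z ⊆ lbox N 0 z := fun y hy =>
  mem_lbox.2 fun i => by
    have h1 := hy.1 i
    have h2 := hy.2 i
    have h0 : 0 ≤ wd N i := by fin_cases i <;> simp [wd]
    dsimp only at h1 h2
    split_ifs at h1 h2 <;> constructor <;> nlinarith

/-! ### sums over sets of indices -/

section tot

variable {ι : Type} {A B : Set ι} {a b : ι → ℝ≥0∞}

theorem tot_mono (hA : A ⊆ B) (h : ∀ i ∈ A, a i ≤ b i) : tot A a ≤ tot B b :=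
  ENNReal.tsum_le_tsum fun i => by
    by_cases hi : i ∈ A
    · rw [indicator_of_mem hi, indicator_of_mem (hA hi)]
      exact h i hi
    · rw [indicator_of_notMem hi]
      exact zero_le

theorem tot_subset (hA : A ⊆ B) (a : ι → ℝ≥0∞) : tot A a ≤ tot B a :=
  tot_mono hA fun _ _ => le_rfl

theorem tot_le (h : ∀ i ∈ A, a i ≤ b i) : tot A a ≤ tot A b := tot_mono Subset.rfl h

theorem tot_congr (h : ∀ i ∈ A, a i = b i) : tot A a = tot A b :=
  le_antisymm (tot_le fun i hi => (h i hi).le) (tot_le fun i hi => (h i hi).ge)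

theorem tot_empty (a : ι → ℝ≥0∞) : tot ∅ a = 0 := by simp [tot]

theorem tot_univ (a : ι → ℝ≥0∞) : tot univ a = ∑' i, a i := by simp [tot]

theorem tot_zero (A : Set ι) : tot A (fun _ => 0) = 0 := by simp [tot]

theorem le_tot {i : ι} (hi : i ∈ A) (a : ι → ℝ≥0∞) : a i ≤ tot A a :=
  (indicator_of_mem hi a).ge.trans (ENNReal.le_tsum i)

theorem tot_eq_subtype (A : Set ι) (a : ι → ℝ≥0∞) : tot A a = ∑' i : A, a i :=
  (tsum_subtype A a).symm

theorem tot_finset (s : Finset ι) (a : ι → ℝ≥0∞) : tot (↑s) a = ∑ i ∈ s, a i := by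
  rw [tot, tsum_eq_sum (s := s) fun i hi => indicator_of_notMem (by simpa using hi) _]
  exact Finset.sum_congr rfl fun i hi => indicator_of_mem (by simpa using hi) _

theorem tot_add (A : Set ι) (a b : ι → ℝ≥0∞) :
    tot A (fun i => a i + b i) = tot A a + tot A b := by
  simp only [tot_eq_subtype, ENNReal.tsum_add]

theorem tot_mul (A : Set ι) (c : ℝ≥0∞) (a : ι → ℝ≥0∞) :
    tot A (fun i => c * a i) = c * tot A a := by
  simp only [tot_eq_subtype, ENNReal.tsum_mul_left]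

theorem tot_mul' (A : Set ι) (c : ℝ≥0∞) (a : ι → ℝ≥0∞) :
    tot A (fun i => a i * c) = tot A a * c := by
  simp only [tot_eq_subtype, ENNReal.tsum_mul_right]

theorem tot_indicator (A B : Set ι) (a : ι → ℝ≥0∞) : tot A (B.indicator a) = tot (A ∩ B) a := by
  simp only [tot, indicator_indicator]

theorem tot_tsum {κ : Type} (A : Set ι) (a : κ → ι → ℝ≥0∞) :
    tot A (fun i => ∑' k, a k i) = ∑' k, tot A (a k) := by
  simp only [tot_eq_subtype]
  exact ENNReal.tsum_comm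

theorem tot_sum {κ : Type} (s : Finset κ) (A : Set ι) (a : κ → ι → ℝ≥0∞) :
    tot A (fun i => ∑ k ∈ s, a k i) = ∑ k ∈ s, tot A (a k) := by
  simp only [tot_eq_subtype]
  exact Summable.tsum_finsetSum fun _ _ => ENNReal.summable

theorem tot_union_disj (h : Disjoint A B) (a : ι → ℝ≥0∞) :
    tot (A ∪ B) a = tot A a + tot B a := by
  simp only [tot, indicator_union_of_disjoint h, ENNReal.tsum_add]

theorem tot_split (A B : Set ι) (a : ι → ℝ≥0∞) : tot A a = tot (A ∩ B) a + tot (A \ B) a := by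
  rw [← tot_union_disj (disjoint_sdiff_right.mono_left inter_subset_right), inter_union_sdiff]

theorem tot_union (A B : Set ι) (a : ι → ℝ≥0∞) : tot (A ∪ B) a ≤ tot A a + tot B a := by
  rw [tot_split (A ∪ B) A]
  exact add_le_add (tot_subset inter_subset_right a)
    (tot_subset (fun i hi => hi.1.resolve_left hi.2) a)

theorem tot_iUnion {κ : Type} (A : κ → Set ι) (a : ι → ℝ≥0∞) :
    tot (⋃ k, A k) a ≤ ∑' k, tot (A k) a := by
  simp only [tot]
  rw [ENNReal.tsum_comm]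
  refine ENNReal.tsum_le_tsum fun i => ?_
  by_cases hi : i ∈ ⋃ k, A k
  · obtain ⟨k, hk⟩ := mem_iUnion.1 hi
    rw [indicator_of_mem hi]
    exact (indicator_of_mem hk a).ge.trans (ENNReal.le_tsum (f := fun k => (A k).indicator a i) k)
  · rw [indicator_of_notMem hi]
    exact zero_le

/-- bounded overlap -/
theorem tsum_tot_le_mul {κ : Type} {A : κ → Set ι} {n : ℕ∞} (h : ∀ k, A k ⊆ B)
    (hn : ∀ i ∈ B, {k | i ∈ A k}.encard ≤ n) (a : ι → ℝ≥0∞) :
    ∑' k, tot (A k) a ≤ (n : ℝ≥0∞) * tot B a := by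
  rw [← tot_mul]
  simp only [tot]
  rw [ENNReal.tsum_comm]
  refine ENNReal.tsum_le_tsum fun i => ?_
  by_cases hi : i ∈ B
  · rw [indicator_of_mem hi]
    have e : ∀ k, (A k).indicator a i = {k | i ∈ A k}.indicator (fun _ => a i) k := fun k => by
      by_cases hk : i ∈ A k
      · rw [indicator_of_mem hk, indicator_of_mem (s := {k | i ∈ A k}) hk]
      · rw [indicator_of_notMem hk, indicator_of_notMem (s := {k | i ∈ A k}) hk]
    simp only [e]
    rw [← tsum_subtype, ENNReal.tsum_set_const]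
    exact mul_le_mul_left (ENat.toENNReal_le.2 (hn i hi)) _
  · have e : ∀ k, (A k).indicator a i = 0 := fun k => indicator_of_notMem (fun o => hi (h k o)) _
    simp [e]

/-- disjoint families -/
theorem tsum_tot_le {κ : Type} {A : κ → Set ι} (h : ∀ k, A k ⊆ B)
    (hd : ∀ k l, k ≠ l → Disjoint (A k) (A l)) (a : ι → ℝ≥0∞) :
    ∑' k, tot (A k) a ≤ tot B a := by
  have := tsum_tot_le_mul (n := 1) h (fun i _ => encard_le_one_iff.2 fun k l hk hl => by
    by_contra hne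
    exact disjoint_left.1 (hd k l hne) hk hl) a
  simpa using this

theorem tot_const_le {c : ℝ≥0∞} (h : ∀ i ∈ A, a i ≤ c) : tot A a ≤ (A.encard : ℝ≥0∞) * c := by
  rw [← ENNReal.tsum_set_const, ← tot_eq_subtype A fun _ => c]
  exact tot_le h

theorem tot_ne_top (hA : A.Finite) (h : ∀ i ∈ A, a i ≠ ⊤) : tot A a ≠ ⊤ := by
  rw [← hA.coe_toFinset, tot_finset]
  exact ENNReal.sum_ne_top.2 fun i hi => h i (hA.mem_toFinset.1 hi)

end tot

/-! ### cells which are hit -/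

variable {Ω : Set E3} {S : Src Ω} {g h : E3 → E3} {Y Y' : Set E3} {φ : S.Q.ι}

theorem mem_hit : φ ∈ hit S g Y ↔ ∃ x ∈ S.Q.cell φ, g x ∈ Y :=
  ⟨fun ⟨_, ⟨x, hx, e⟩, hy⟩ => ⟨x, hx, e ▸ hy⟩, fun ⟨x, hx, hy⟩ => ⟨_, ⟨x, hx, rfl⟩, hy⟩⟩

theorem hit_mono (h : Y ⊆ Y') : hit S g Y ⊆ hit S g Y' :=
  fun _ hφ => hφ.mono (inter_subset_inter_right _ h)

theorem hit_congr (e : EqOn g h (S.Q.cell φ)) : φ ∈ hit S g Y ↔ φ ∈ hit S h Y := by
  simp only [mem_hit]
  exact exists_congr fun x => and_congr_right fun hx => by rw [e hx]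

theorem hit_comp (T : E3 → E3) : hit S (T ∘ g) Y = hit S g (T ⁻¹' Y) := by
  ext φ
  simp only [mem_hit, Function.comp, mem_preimage]

theorem hit_iUnion {κ : Sort _} (Y : κ → Set E3) : hit S g (⋃ k, Y k) = ⋃ k, hit S g (Y k) := by
  ext φ
  simp only [mem_hit, mem_iUnion]
  exact ⟨fun ⟨x, hx, k, hk⟩ => ⟨k, x, hx, hk⟩, fun ⟨k, x, hx, hk⟩ => ⟨x, hx, k, hk⟩⟩

theorem hit_union : hit S g (Y ∪ Y') = hit S g Y ∪ hit S g Y' := by
  ext φ
  simp only [hit, mem_ofPred_eq, inter_union_distrib_left, union_nonempty, mem_union]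

theorem hit_face {φ' : S.Q.ι} (hs : S.Q.cell φ' ⊆ S.Q.cell φ) (hφ : φ' ∈ hit S g Y) :
    φ ∈ hit S g Y := hφ.mono (inter_subset_inter_left _ (image_mono hs))

theorem cell_sub (φ : S.Q.ι) : S.Q.cell φ ⊆ Ω := by
  have := subset_iUnion S.Q.cell φ
  rwa [show ⋃ i, S.Q.cell i = Ω from S.carrier] at this

/-- finitely many cells meet a compact set -/
theorem finite_meet (S : Src Ω) {K : Set E3} (hK : IsCompact K) (hs : K ⊆ Ω) :
    {φ | (S.Q.cell φ ∩ K).Nonempty}.Finite := by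
  have hl : ∀ x ∈ K, ∃ U ∈ 𝓝 x, {i | (S.Q.cell i ∩ U).Nonempty}.Finite := fun x hx =>
    S.Q.lf x (by rw [show ⋃ i, S.Q.cell i = Ω from S.carrier]; exact hs hx)
  choose! U hU hf using hl
  obtain ⟨T, hT, hc⟩ := hK.elim_nhds_subcover U hU
  refine (T.finite_toSet.biUnion fun x hx => hf x (hT x hx)).subset fun φ ⟨y, h1, h2⟩ => ?_
  obtain ⟨x, hx, hy⟩ := mem_iUnion₂.1 (hc h2)
  exact mem_biUnion hx ⟨y, h1, hy⟩

theorem hit_finite {Λ : Set E3} (S : Src Ω) (g : ConHomeo Ω Λ) (hY : IsCompact Y) (hs : Y ⊆ Λ) :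
    (hit S g.toFun Y).Finite := by
  refine (finite_meet S (hY.image_of_continuousOn (g.cont_inv.mono hs))
    ((g.mapsTo_inv.mono_left hs).image_subset)).subset fun φ hφ => ?_
  obtain ⟨x, hx, hy⟩ := mem_hit.1 hφ
  exact ⟨x, hx, _, hy, g.left_inv (cell_sub φ hx)⟩

/-! ### locality -/

theorem lipc_congr {X : Set E3} (e : EqOn g h X) : lipc g X = lipc h X :=
  iSup_congr fun x => iSup_congr fun hx => iSup_congr fun y => iSup_congr fun hy => by
    rw [e hx, e hy]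

theorem A_congr (e : EqOn g h (S.Q.cell φ)) : S.A g φ = S.A h φ :=
  tsum_congr fun w => by
    split_ifs with hw
    · exact lipc_congr (e.mono hw.2)
    · rfl

theorem W_congr {p : ℝ} (e : EqOn g h (S.Q.cell φ)) : S.W p g φ = S.W p h φ := by
  rw [Src.W, Src.W, A_congr e]

theorem E_congr {p : ℝ} (e : EqOn g h (S.Q.cell φ)) : S.E p g φ = S.E p h φ :=
  EN.en_congr (S.Q.isClosed_cell φ).measurableSet e

theorem dd_congr {p : ℝ} {Ct Ct' : Set S.Q.ι} (e : EqOn g h (S.Q.cell φ))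
    (hc : φ ∈ Ct ↔ φ ∈ Ct') : dd S p g Ct φ = dd S p h Ct' φ := by
  rw [dd, dd, W_congr e]
  by_cases hφ : φ ∈ Ct
  · rw [indicator_of_mem hφ, indicator_of_mem (hc.1 hφ), E_congr e]
  · rw [indicator_of_notMem hφ, indicator_of_notMem (mt hc.2 hφ)]

theorem dd_mono {p : ℝ} {Ct Ct' : Set S.Q.ι} (hc : φ ∈ Ct → φ ∈ Ct') :
    dd S p g Ct φ ≤ dd S p g Ct' φ := by
  refine add_le_add le_rfl ?_
  by_cases hφ : φ ∈ Ct
  · rw [indicator_of_mem hφ, indicator_of_mem (hc hφ)]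
  · rw [indicator_of_notMem hφ]
    exact zero_le

theorem dd_of_mem {p : ℝ} {Ct : Set S.Q.ι} (hc : φ ∈ Ct) :
    dd S p g Ct φ = S.W p g φ + S.E p g φ := by rw [dd, indicator_of_mem hc]

theorem dd_of_notMem {p : ℝ} {Ct : Set S.Q.ι} (hc : φ ∉ Ct) : dd S p g Ct φ = S.W p g φ := by
  rw [dd, indicator_of_notMem hc, add_zero]

theorem pot_eq_dd {p : ℝ} : pot S p g Y φ = dd S p g {φ | S.Q.cell φ ⊆ Y} φ := by
  rw [pot, dd]
  by_cases hφ : S.Q.cell φ ⊆ Y
  · rw [if_pos hφ, indicator_of_mem (s := {φ | S.Q.cell φ ⊆ Y}) hφ]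
  · rw [if_neg hφ, indicator_of_notMem (s := {φ | S.Q.cell φ ⊆ Y}) hφ]

end P073.Zn
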