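import Vale.Agent.P073Y.Zn.Pl
import Vale.Agent.P073Y.Zn.Bas

/-!
# The third stage, the open shells and the consequences of the closeness
-/

open Set Metric Topology Filter MeasureTheory
open scoped NNReal ENNReal

namespace P073.Zn

open P073.Top

namespace ClA

theorem supp_marg (Z : Zone) : Z.supp ⊆ Z.marg 2 := fun y hy => by
  obtain ⟨z, hz, h⟩ := mem_iUnion₂.1 hy
  exact mem_iUnion₂.2 ⟨z, hz, lbox_mono _ (by norm_num) z h⟩

theorem dk_pos {d₀ : ℝ} (h : 0 < d₀) (n : ℕ) : 0 < dk d₀ n := by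
  unfold dk; positivity

theorem dk_zero (d₀ : ℝ) : dk d₀ 0 = d₀ := by simp [dk]

theorem dk_le {d₀ : ℝ} (h : 0 < d₀) {n n' : ℕ} (hn : n ≤ n' + 1) : dk d₀ n' ≤ 2 * dk d₀ n := by
  have h1 : (2⁻¹ : ℝ) ^ (n' + 1) ≤ 2⁻¹ ^ n := pow_le_pow_of_le_one (by norm_num) (by norm_num) hn
  rw [pow_succ] at h1
  unfold dk
  nlinarith

theorem exists_cell {Ω : Set E3} (S : Src Ω) {u : E3} (hu : u ∈ Ω) : ∃ c, u ∈ S.Q.cell c :=
  mem_iUnion.1 (show u ∈ ⋃ i, S.Q.cell i by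
    rw [show ⋃ i, S.Q.cell i = Ω from S.carrier]; exact hu)

theorem cubes_mono (P : Set E3) {r r' : ℝ} (h : r ≤ r') : cubes P r ⊆ cubes P r' :=
  iUnion₂_mono fun _ _ => closedBall_subset_closedBall h

variable {k : Cst} {J : Type} {B : Base J} {A : St1 k B} {s b θ e : ℝ}
  {A₂ : St2 A s b θ e} {P : Set E3} {κ : ℝ}

theorem O_sub (A : St1 k B) (n : ℕ) :
    A.O n ⊆ B.f ⁻¹' shl B.Λ A.d₀ n (35 / 100) (12 / 10) :=
  fun _ hx => ⟨hx.2.1.le, fun h => (hx.2.2 h).le⟩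

theorem O_open (A : St1 k B) (n : ℕ) : IsOpen (A.O n) := by
  have h : IsOpen {y : E3 | 35 / 100 * dk A.d₀ n < infDist y B.Λᶜ ∧
      (n ≠ 0 → infDist y B.Λᶜ < 12 / 10 * dk A.d₀ n)} := by
    refine (isOpen_lt continuous_const (continuous_infDist_pt _)).and ?_
    by_cases hn : n = 0
    · simp only [hn, ne_eq, not_true, IsEmpty.forall_iff, ofPred_true, isOpen_univ]
    · simp only [hn, ne_eq, not_false_iff, forall_true_left]
      exact isOpen_lt (continuous_infDist_pt _) continuous_const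
  exact B.hom.cont.isOpen_inter_preimage B.opn h

theorem ks_pos (A₃ : St3 A₂ P κ) : 0 < κ * s := mul_pos A₃.κ_pos A₂.s_pos

theorem ks_le (A₃ : St3 A₂ P κ) : 1000000 * (κ * s) ≤ A.s₀ := by
  have h1 := A₃.κ₁
  have h2 := ks_pos A₃
  have hb := A₂.b_ge
  have h3 : 1 ≤ b ^ 2 := one_le_pow₀ hb
  have h4 : A₂.l 0 ≤ s / 100 := by
    rw [A₂.l_zero, div_le_div_iff₀ (by positivity) (by norm_num)]
    have := A₂.s_pos
    have := A₂.θ_le
    nlinarith [mul_le_mul_of_nonneg_right A₂.θ_le A₂.s_pos.le,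
      mul_le_mul_of_nonneg_left hb A₂.s_pos.le]
  nlinarith [A₂.s_le, mul_le_mul_of_nonneg_right h3 h2.le]

theorem cube_mem (A₃ : St3 A₂ P κ) {u : E3} (hu : u ∈ cubes P (3 * s / 2)) :
    u ∈ B.Ω₀ ∧ ∀ j, u ∉ (B.Y j).G := by
  obtain ⟨q, hq, h⟩ := mem_iUnion₂.1 hu
  exact ⟨(A₃.cores.sub q hq).1 h, fun j hj =>
    disjoint_left.1 (A₃.cores.sub q hq).2 h (mem_iUnion.2 ⟨j, hj⟩)⟩

theorem cube_sub (A₂ : St2 A s b θ e) (P : Set E3) :
    cubes P (3 * s / 4) ⊆ cubes P (3 * s / 2) :=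
  cubes_mono P (by linarith [A₂.s_pos])

theorem sep (A₃ : St3 A₂ P κ) {u : E3} (hu : u ∈ cubes P (3 * s / 2)) {y : E3}
    (hy : dist y (B.f u) ≤ A.s₀) (i : J ⊕ ℕ) : y ∉ (A.Z i).marg 2 :=
  A.sep u (cube_mem A₃ hu).1 (cube_mem A₃ hu).2 y hy i

variable {S : Src B.Ω} {g : E3 → E3}

theorem ff (H : App A₂ P κ S g) {c : S.Q.ι} {x y : E3} (hx : x ∈ S.Q.cell c)
    (hy : y ∈ S.Q.cell c) : dist (B.f x) (B.f y) ≤ 2 * (κ * s) := by
  linarith [dist_triangle_left (B.f x) (B.f y) (g x), H.all c x hx x hx, H.all c x hx y hy]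

theorem apx (A₃ : St3 A₂ P κ) (H : App A₂ P κ S g) (n : ℕ) (R : Set E3)
    (hR : R ⊆ shl B.Λ A.d₀ n (3 / 10) (13 / 10))
    (hd : ∀ v ∈ cubes P (3 * s / 4), ∀ y ∈ R, 2 * (κ * s) < dist y (B.f v)) :
    Apx S B.f g R (A₂.o n) := fun c hc => by
  refine H.shell n c (disjoint_left.2 fun v hv hv' => ?_)
    (hc.imp (·.mono (inter_subset_inter_right _ hR)) (·.mono (inter_subset_inter_right _ hR)))
  rcases hc with ⟨_, ⟨x, hx, rfl⟩, h⟩ | ⟨_, ⟨x, hx, rfl⟩, h⟩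
  · linarith [hd v hv' _ h, H.all c x hx v hv, ks_pos A₃]
  · linarith [hd v hv' _ h, ff H hx hv]

theorem apx₁ (A₃ : St3 A₂ P κ) (H : App A₂ P κ S g) (i : J ⊕ ℕ) :
    Apx S B.f g ((A.Z i).marg 2) (A₂.o (lev i)) :=
  apx A₃ H _ _ ((A.marg i).trans (A.sh.mono (by norm_num) (by norm_num))) fun v hv y hy =>
    lt_of_not_ge fun h => sep A₃ (cube_sub A₂ P hv)
      (h.trans (by linarith [ks_le A₃, ks_pos A₃])) i hy

theorem close (A₃ : St3 A₂ P κ) (H : App A₂ P κ S g) (n : ℕ) {u : E3} (hu : u ∈ B.Ω)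
    (h : g u ∈ shl B.Λ A.d₀ n (4 / 10) (12 / 10) ∨ B.f u ∈ shl B.Λ A.d₀ n (4 / 10) (12 / 10)) :
    dist (g u) (B.f u) ≤ dk A.d₀ n / 1000 := by
  obtain ⟨c, hc⟩ := exists_cell S hu
  have hm : shl B.Λ A.d₀ n (4 / 10) (12 / 10) ⊆ shl B.Λ A.d₀ n (3 / 10) (13 / 10) :=
    A.sh.mono (by norm_num) (by norm_num)
  by_cases hd : Disjoint (S.Q.cell c) (cubes P (3 * s / 4))
  · exact (H.shell n c hd (h.imp (fun h => ⟨_, ⟨u, hc, rfl⟩, hm h⟩)
      fun h => ⟨_, ⟨u, hc, rfl⟩, hm h⟩) u hc u hc).trans (A₂.o_d n)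
  obtain ⟨v, hv, hv'⟩ := not_disjoint_iff.1 hd
  have hf := A.far v (cube_mem A₃ (cube_sub A₂ P hv')).1
  have h1 := ks_le A₃
  have h2 := ks_pos A₃
  have h3 := A.s₀_d
  have key : ∀ y, dist y (B.f v) ≤ 2 * (κ * s) →
      y ∈ shl B.Λ A.d₀ n (4 / 10) (12 / 10) → n = 0 := fun y hy hn => by
    by_contra h0
    refine disjoint_left.1 (A.sh.disj₀ (a := 2 - 1) (b := 0 + 1) h0 (by norm_num) (by norm_num))
      (A.sh.move hf ?_) hn
    rw [dk_zero]
    linarith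
  obtain rfl : n = 0 := h.elim (key _ (by linarith [H.all c u hc v hv])) (key _ (ff H hc hv))
  rw [dk_zero]
  linarith [H.all c u hc u hc]

theorem move {h : E3 → E3} (L : Lay k B.Ω A.Z A₂.δ g h) {x : E3} (hx : x ∈ B.Ω) :
    dist (h x) (g x) ≤ B.ε / 10 ∧
    ∀ n, (h x ∈ shl B.Λ A.d₀ n (4 / 10) (11 / 10) ∨ g x ∈ shl B.Λ A.d₀ n (4 / 10) (11 / 10)) →
      dist (h x) (g x) ≤ dk A.d₀ n / 100 := by
  by_cases ho : ∀ i, g x ∉ (A.Z i).supp
  · rw [L.off x hx ho, dist_self]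
    exact ⟨by linarith [B.ε_pos], fun n _ => by linarith [dk_pos A.d_pos n]⟩
  obtain ⟨i, hi⟩ := not_forall_not.1 ho
  obtain ⟨z, hz, hg⟩ := mem_iUnion₂.1 hi
  have hk := (L.geo i).keep x ⟨hx, fun j hj h' =>
    disjoint_left.1 (A.disj j i hj) (supp_marg _ h') (supp_marg _ hi)⟩ z hg
  have ht := A.tiny i z (h x) (g x) (lbox_mono _ (by linarith [(A₂.δ_mem i).2]) z hk)
    (lbox_mono _ (by norm_num) z hg)
  refine ⟨ht.trans (min_le_left _ _), fun n hn => ?_⟩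
  have hl : n ≤ lev i + 1 := by
    by_contra hc
    have hd := disjoint_left.1 (A.sh.disj (k := lev i) (k' := n) (a := 49 / 100) (b := 101 / 100)
      (a' := 4 / 10) (b' := 11 / 10) (by omega) (by norm_num) (by norm_num))
    exact hn.elim (hd (A.marg i (supp_marg _ ((L.mem i x hx).2 hi))))
      (hd (A.marg i (supp_marg _ hi)))
  linarith [ht.trans (min_le_right _ _), dk_le A.d_pos hl]

end ClA

open ClA

open Classical in
theorem st3_of (H : STDZ) : ST3 := by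
  intro k J B A s b θ e A₂ P hP
  have hb := A₂.b_ge
  have hθ := A₂.θ_pos
  have hs := A₂.s_pos
  choose Z hT hC hN ht hB hc hy hm using fun m => H (A₂.cov P m) (A₂.l m)
    (B.bdd.subset (sdiff_subset.trans (A.sh.sub (by norm_num)))) (A₂.l_pos m)
  have h4 : 1 / (1000 * b ^ 2) ≤ 1 / 4 :=
    one_div_le_one_div_of_le (by norm_num) (by nlinarith [one_le_pow₀ (n := 2) hb])
  let Z' : ℕ → ZD := fun m =>
    { toZone := Z m
      θ := 1 / 1000
      ϑ := 1 / 1000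
      L := 1
      X := A₂.X m
      β := fun z _ => if A₂.NC P m z then 1 / (1000 * b ^ 2) else A₂.β m
      β₀ := min (1 / (1000 * b ^ 2)) (A₂.β m)
      θ_pos := by norm_num
      θ_le := le_rfl
      ϑ_pos := by norm_num
      ϑ_le := le_rfl
      cond := hC m
      β₀_pos := lt_min (by positivity) (A₂.β_mem m).1
      β₀_le := (min_le_left _ _).trans h4
      β_mem := fun z _ => by
        split_ifs
        exacts [⟨min_le_left _ _, h4⟩, ⟨min_le_right _ _, (A₂.β_mem m).2⟩]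
      vol := fun z _ => by rw [hN]; exact A₂.vol m z }
  have ho : (Z' 0).o k (1 / 100) =
      1 / 100 * (1 / 4) / (k.K (1 / 1000) (1 / 1000) 1 (1 / 4) + 1) := by
    show 1 / 100 * (Z 0).t / (k.K (1 / 1000) (1 / 1000) (Z 0).N (Z 0).t + 1) = _
    rw [hN, ht]
  obtain ⟨c, hc0, hc1, hc2⟩ : ∃ c : ℝ, 0 < c ∧ c ≤ 1 ∧
      1 / 100 * (1 / 4) / ((k.K (1 / 1000) (1 / 1000) 1 (1 / 4) : ℝ) + 1) = c := by
    have h0 := (k.K (1 / 1000) (1 / 1000) 1 (1 / 4)).coe_nonneg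
    exact ⟨_, by positivity, (div_le_one (by positivity)).2 (by linarith), rfl⟩
  have hk : kap k b θ = θ * c / (1000000 * b ^ 3) := by rw [kap, hc2]
  have hw : 0 < θ * s / b ^ 3 := by positivity
  refine ⟨{ Z := Z'
            r := fun m z => if A₂.NC P m z then A₂.l 0 / (100 * b) else A₂.r m
            cores := hP
            κ_pos := by rw [hk]; positivity
            κ₁ := ?_
            κ₂ := ?_
            T_eq := hT
            std := fun m => ⟨hN m, ht m, rfl, rfl, rfl⟩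
            B_eq := hB
            X_eq := fun _ => rfl
            core := hc
            tiny := hy
            marg := hm
            nc := fun m z h => ⟨fun _ => if_pos h, if_pos h⟩
            wild := fun m z h => ⟨fun _ => if_neg h, if_neg h⟩ }⟩
  · rw [hk, A₂.l_zero]
    calc 10000 * b ^ 2 * (θ * c / (1000000 * b ^ 3) * s) = c * (θ * s / (100 * b)) := by
          field_simp
          norm_num
      _ ≤ _ := mul_le_of_le_one_left (by positivity) hc1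
  · rw [ho, hc2, hk, A₂.l_zero]
    have e1 : 2 * (θ * c / (1000000 * b ^ 3) * s) = c * (θ * s / b ^ 3) / 500000 := by
      field_simp
      norm_num
    have e2 : c * (1 / (1000 * b ^ 2)) * (θ * s / (100 * b)) = c * (θ * s / b ^ 3) / 100000 := by
      field_simp
      norm_num
    rw [e1, e2]
    linarith [mul_pos hc0 hw]

theorem og_of (H : GAUGE3) : OG := by
  intro k J B A s b θ e A₂ κ hκ
  refine ⟨fun n => ⟨O_open A n, fun _ hx => hx.1⟩, fun x hx => ?_, fun n n' h => ?_, ?_⟩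
  · obtain ⟨U, hU, hf⟩ := A.sh.lf (35 / 100) (12 / 10) _ (B.hom.mapsTo hx)
    exact ⟨B.f ⁻¹' U, (B.hom.cont.continuousAt (B.opn.mem_nhds hx)).preimage_mem_nhds hU,
      hf.subset fun n ⟨y, h1, h2⟩ => ⟨B.f y, O_sub A n h1, h2⟩⟩
  · exact ((A.sh.disj h (by norm_num) (by norm_num)).preimage B.f).mono (O_sub A n) (O_sub A n')
  obtain ⟨γ, hγ, ha, hg⟩ := H (fun n => shl B.Λ A.d₀ n (3 / 10) (13 / 10)) A₂.o (κ * s)
    B.hom.cont B.hom.mapsTo (A.sh.lf _ _) A₂.o_pos (mul_pos hκ A₂.s_pos)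
  refine ⟨γ, hγ, fun P S g h => ⟨fun c x hx y hy => ?_, fun n c hd => ?_⟩⟩
  · exact (h c x hx y hy).elim (·.trans (ha y)) (·.2)
  · exact hg _ g (cell_sub c) (fun x hx y hy => (h c x hx y hy).resolve_right fun h' =>
      not_disjoint_iff_nonempty_inter.2 h'.1 hd) n

theorem cl : CL := by
  intro k J B A s b θ e A₂ P κ A₃ S g H
  refine
    { app := H
      close := fun n u hu => close A₃ H n hu
      closeε := fun u hu => ?_
      apx := apx A₃ H
      sep := fun u hu y hy => sep A₃ hu hy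
      apx₁ := apx₁ A₃ H
      near := fun j u hu => ?_
      move := fun h L x hx => move L hx
      same := fun h L u hu x hx hd => L.off x hx fun i hi => ?_
      marg₂ := fun m y hy => ?_ }
  · obtain ⟨c, hc⟩ := exists_cell S hu
    linarith [H.all c u hc u hc, ks_le A₃, ks_pos A₃, A.s₀_ε]
  · obtain ⟨c, hc⟩ := exists_cell S hu.2
    obtain ⟨z, hz, hf⟩ := A₂.near j u hu.1 (B.f u) (by rw [dist_self]; exact (A₂.o_pos 0).le)
    exact A₂.near j u hu.1 (g u) (apx₁ A₃ H (.inl j) c (.inr ⟨_, ⟨u, hc, rfl⟩, supp_marg _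
      (mem_iUnion₂.2 ⟨z, sub_nbr 1 _ (hz (sub_nbr 1 _ rfl)), hf⟩)⟩) u hc u hc)
  · exact hd.elim (fun h' => sep A₃ hu h' i (supp_marg _ ((L.mem i x hx).2 hi)))
      fun h' => sep A₃ hu h' i (supp_marg _ hi)
  · obtain ⟨y', h1, h2⟩ := A₃.marg m y hy
    refine A.sh.mono (by norm_num) (by norm_num) (A.sh.move (c := 1 / 100) h1.1 ?_)
    linarith [A₂.l_d m, dk_pos A.d_pos (2 * m)]

end P073.Zn
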