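import Vale.Agent.P073Y.Zn.Sk
import Vale.Agent.P073Z.AVG
import Vale.Agent.P073Z.A7a.Cvx

/-!
# The choice of the free cubes
-/

open Set Metric Topology Filter MeasureTheory
open scoped NNReal ENNReal

namespace P073.Zn

open P073.Top

namespace Cub

theorem tot_disj {ι κ : Type} {A : κ → Set ι} {B : Set ι} (a : ι → ℝ≥0∞)
    (hd : ∀ k l i, i ∈ A k → i ∈ A l → k = l) (hs : ∀ k, A k ⊆ B) :
    ∑' k, tot (A k) a ≤ tot B a := by
  unfold tot
  rw [ENNReal.tsum_comm]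
  refine ENNReal.tsum_le_tsum fun i => ?_
  by_cases h : ∃ k, i ∈ A k
  · obtain ⟨k, hk⟩ := h
    rw [tsum_eq_single k fun l hl => indicator_of_notMem (fun h' => hl (hd _ _ _ h' hk)) _,
      indicator_of_mem hk, indicator_of_mem (hs k hk)]
  · rw [tsum_congr fun k => indicator_of_notMem (fun h' => h ⟨k, h'⟩) a, tsum_zero]
    exact zero_le

theorem card_Icc_le {u v : ℝ} (h : u ≤ v) (h0 : 0 ≤ v) :
    ((Finset.Icc ⌈u⌉₊ ⌊v⌋₊).card : ℝ) ≤ v - u + 1 := by
  rw [Nat.card_Icc]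
  rcases le_total ⌈u⌉₊ (⌊v⌋₊ + 1) with e | e
  · rw [Nat.cast_sub e, Nat.cast_succ]
    linarith [Nat.floor_le h0, Nat.le_ceil u]
  · rw [Nat.sub_eq_zero_of_le e, Nat.cast_zero]
    linarith

/-- many integers avoid a few short intervals -/
theorem count {B : Type} (F : Finset B) (u v : B → ℝ) {R : ℝ} (hR : 100 ≤ R)
    (huv : ∀ b ∈ F, u b ≤ v b ∧ 0 ≤ v b) (hs : ∑ b ∈ F, (v b - u b + 1) ≤ 3 / 100 * R) :
    ∃ G : Finset ℕ, R ≤ 3 * G.card ∧
      ∀ i ∈ G, R / 2 + 1 ≤ i ∧ i ≤ R - 1 ∧ ∀ b ∈ F, i < u b ∨ v b < i := by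
  classical
  refine ⟨Finset.Icc ⌈R / 2 + 1⌉₊ ⌊R - 1⌋₊ \ F.biUnion fun b => Finset.Icc ⌈u b⌉₊ ⌊v b⌋₊, ?_,
    fun i hi => ?_⟩
  · have h1 := Finset.card_le_card_sdiff_add_card (s := Finset.Icc ⌈R / 2 + 1⌉₊ ⌊R - 1⌋₊)
      (t := F.biUnion fun b => Finset.Icc ⌈u b⌉₊ ⌊v b⌋₊)
    have h2 : ((F.biUnion fun b => Finset.Icc ⌈u b⌉₊ ⌊v b⌋₊).card : ℝ) ≤ 3 / 100 * R := by
      refine (Nat.cast_le.2 Finset.card_biUnion_le).trans (le_trans ?_ hs)
      rw [Nat.cast_sum]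
      exact Finset.sum_le_sum fun b hb => card_Icc_le (huv b hb).1 (huv b hb).2
    rw [Nat.card_Icc, tsub_le_iff_right, ← Nat.cast_le (α := ℝ)] at h1
    push_cast at h1
    linarith [Nat.lt_floor_add_one (R - 1), Nat.ceil_lt_add_one (show 0 ≤ R / 2 + 1 by linarith)]
  · obtain ⟨h1, h2⟩ := Finset.mem_sdiff.1 hi
    rw [Finset.mem_Icc, Nat.ceil_le, Nat.le_floor_iff (by linarith)] at h1
    refine ⟨h1.1, h1.2, fun b hb => by_contra fun hn => h2 (Finset.mem_biUnion.2 ⟨b, hb, ?_⟩)⟩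
    rw [not_or, not_lt, not_lt] at hn
    exact Finset.mem_Icc.2 ⟨Nat.ceil_le.2 hn.1, Nat.le_floor hn.2⟩

theorem sub_sphere {K : RCx E3} (hK : K.Cvx) {q : E3} {s : ℝ} (hs : 0 < s)
    (h : K.Sub (closedBall q s)) : K.Sub (sphere q s) := fun x hx => by
  obtain ⟨i, h1, h2⟩ := h.exists_ocell (sphere_subset_closedBall hx)
  refine ⟨i, h1.1, fun y hy => (mem_closedBall.1 (h2 hy)).eq_or_lt.resolve_right fun hlt => ?_⟩
  obtain ⟨t, ht, hz⟩ := exists_beyond hy (hK.ocell_eq i ▸ h1)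
  have h3 := (convex_closedBall q s).combo_interior_self_mem_interior
    (by rwa [interior_closedBall q hs.ne'] : y ∈ interior (closedBall q s)) (h2 hz)
    (a := 1 - t⁻¹) (b := t⁻¹) (sub_pos.2 (inv_lt_one_of_one_lt₀ ht)) (by positivity) (by ring)
  rw [interior_closedBall q hs.ne', AffineMap.lineMap_apply_module, smul_add, smul_smul, smul_smul,
    inv_mul_cancel₀ (by positivity), one_smul, ← add_assoc, ← add_smul,
    show 1 - t⁻¹ + t⁻¹ * (1 - t) = 0 by field_simp; ring, zero_smul, zero_add] at h3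
  exact h3.ne hx

theorem dim_sphere {K : RCx E3} (hK : K.Cvx) {q : E3} {s : ℝ} (hs : 0 < s) {j : K.ι}
    (h : K.cell j ⊆ sphere q s) : K.dim j ≤ 2 := by
  have h1 : K.dim j ≤ Module.finrank ℝ E3 := (hK j).2.2 ▸ Submodule.finrank_le _
  rcases h1.eq_or_lt with e | e
  · obtain ⟨x, hx⟩ := K.ocell_nonempty j
    rw [← hK.interior_eq e] at hx
    exact absurd (interior_mono h hx) (by rw [interior_sphere q hs.ne']; exact id)
  · rw [Module.finrank_fin_fun] at e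
    omega

theorem sphere_plns {w q : E3} {σ : ℝ} (hq : q ∈ latt w σ) {n : ℕ} (h : 0 < n * σ) :
    sphere q (n * σ) ⊆ plns w σ := fun y hy => by
  by_contra hn
  refine (mem_sphere.1 hy).not_lt ((dist_pi_lt_iff h).2 fun l => ?_)
  refine ((dist_pi_le_iff h.le).1 (mem_sphere.1 hy).le l).lt_of_ne fun e => hn ⟨l, ?_⟩
  obtain ⟨k, hk⟩ := hq l
  rcases (abs_eq h.le).1 e with e | e
  · exact ⟨k + n, by push_cast; linarith⟩
  · exact ⟨k - n, by push_cast; linarith⟩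

theorem exists_latt (w x : E3) {σ : ℝ} (h : 0 < σ) : ∃ q ∈ latt w σ, dist x q ≤ σ / 2 := by
  refine ⟨fun l => w l + round ((x l - w l) / σ) * σ, fun l => ⟨_, rfl⟩,
    (dist_pi_le_iff (by positivity)).2 fun l => ?_⟩
  have h1 := mul_le_mul_of_nonneg_right (abs_sub_round ((x l - w l) / σ)) h.le
  rw [← abs_of_pos h, ← abs_mul, abs_of_pos h, sub_mul, div_mul_cancel₀ _ h.ne'] at h1
  rw [Real.dist_eq, ← sub_sub]
  linarith

variable {Ω : Set E3} {S : Src Ω} {w₀ : E3} {w : S.Q.ι → ℝ≥0∞} {p : ℝ}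

/-- the energy of a lattice sphere -/
theorem en_sphere (hp : 0 < p) (h : E3 → E3) {σ : ℝ} {Y : Set E3} (hc : Cand S w₀ σ Y w) {q : E3}
    (hq : q ∈ latt w₀ σ) {n : ℕ} (hn : 1 ≤ n) (hY : closedBall q (n * σ) ⊆ Y) :
    ENNReal.ofReal σ * En 2 p h (sphere q (n * σ)) ≤
      tot {φ | S.Q.cell φ ⊆ sphere q (n * σ) ∧ S.Q.dim φ = 2} fun φ => w φ * S.E p h φ := by
  have h0 : 0 < n * σ := mul_pos (Nat.cast_pos.2 hn) hc.pos
  have h1 := sub_sphere S.cvx h0 (hc.sub q hq n hn hY)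
  have h2 : {φ | S.Q.cell φ ⊆ sphere q (n * σ) ∧ S.Q.dim φ = 2}.Finite :=
    (S.Q.finite_subset (isCompact_sphere _ _) h1.subset_carrier).subset fun _ h => h.1
  refine (mul_le_mul_right (enu S.Q 2 h h2.toFinset hp h1 (isCompact_sphere _ _)
    (fun j => dim_sphere S.cvx h0) fun j => h2.mem_toFinset) _).trans ?_
  rw [Finset.mul_sum]
  refine le_trans (Finset.sum_le_sum fun φ hφ => ?_) (ENNReal.sum_le_tsum h2.toFinset)
  have h3 := h2.mem_toFinset.1 hφ
  rw [indicator_of_mem h3]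
  exact mul_le_mul_left (hc.wt φ h3.2 (subset_inter
    (h3.1.trans (sphere_subset_closedBall.trans hY)) (h3.1.trans (sphere_plns hq h0)))) _

/-- the cube in one ball -/
theorem one (hp : 0 < p) (h : E3 → E3) {x : E3} {r σ : ℝ} (hc : Cand S w₀ σ (closedBall x r) w)
    (hs : 100 * σ ≤ r) {B : Type} (F : Finset B) (x' : B → E3) (r' : B → ℝ)
    (h0 : ∀ b ∈ F, 0 ≤ r' b) (hF : ∑ b ∈ F, (2 * r' b + σ) ≤ 3 / 100 * r) {El : Set S.Q.ι}
    (hE : ∀ φ, S.Q.dim φ = 2 → S.Q.cell φ ⊆ closedBall x r →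
      Disjoint (S.Q.cell φ) (ball x (r / 2)) →
      (∀ b ∈ F, Disjoint (S.Q.cell φ) (closedBall (x' b) (r' b))) → φ ∈ El) :
    ∃ y s, 0 < s ∧ S.Q.Sub (closedBall y s) ∧ ball x (r / 2) ⊆ ball y s ∧
      closedBall y s ⊆ closedBall x r ∧ (∀ b ∈ F, closedBall (x' b) (r' b) ⊆ ball y s ∨
        Disjoint (closedBall (x' b) (r' b)) (closedBall y s)) ∧
      ENNReal.ofReal s * En 2 p h (sphere y s) ≤
        3 * tot (El ∩ {φ | S.Q.cell φ ⊆ closedBall x r}) fun φ => w φ * S.E p h φ := by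
  have hσ := hc.pos
  obtain ⟨q, hq, hd⟩ := exists_latt w₀ x hσ
  obtain ⟨G, g1, g2⟩ := count F (fun b => (dist (x' b) q - r' b) / σ)
    (fun b => (dist (x' b) q + r' b) / σ) (R := r / σ) ((le_div_iff₀ hσ).2 hs)
    (fun b hb => ⟨by gcongr; linarith [h0 b hb], by have := h0 b hb; positivity⟩) (by
      rw [← mul_div_assoc, le_div_iff₀ hσ, Finset.sum_mul]
      refine le_of_eq_of_le (Finset.sum_congr rfl fun b _ => ?_) hF
      field_simp
      ring)
  rw [div_le_iff₀ hσ] at g1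
  have key : ∀ i ∈ G, 1 ≤ i ∧ (i : ℝ) * σ ≤ r ∧ ball x (r / 2) ⊆ ball q (i * σ) ∧
      closedBall q (i * σ) ⊆ closedBall x r ∧ ∀ b ∈ F, closedBall (x' b) (r' b) ⊆ ball q (i * σ) ∨
        Disjoint (closedBall (x' b) (r' b)) (closedBall q (i * σ)) := fun i hi => by
    obtain ⟨a1, a2, a3⟩ := g2 i hi
    have e : r / σ * σ = r := div_mul_cancel₀ r hσ.ne'
    have a0 : 0 ≤ r / σ := div_nonneg (by linarith) hσ.le
    refine ⟨Nat.one_le_cast.1 (by linarith : (1 : ℝ) ≤ i), by nlinarith,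
      ball_subset_ball' (by nlinarith), closedBall_subset_closedBall' (by
        rw [dist_comm]; nlinarith), fun b hb => (a3 b hb).symm.imp (fun e => ?_) fun e => ?_⟩
    · exact closedBall_subset_ball' (by linarith [(div_lt_iff₀ hσ).1 e])
    · exact closedBall_disjoint_closedBall (by linarith [(lt_div_iff₀ hσ).1 e])
  have hG : G.Nonempty := Finset.card_pos.1 (Nat.cast_pos.1 (by nlinarith : (0 : ℝ) < G.card))
  obtain ⟨i, hi, hmin⟩ := G.exists_min_image (fun j => En 2 p h (sphere q (j * σ))) hG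
  obtain ⟨a1, a2, a3, a4, a5⟩ := key i hi
  refine ⟨q, i * σ, mul_pos (Nat.cast_pos.2 a1) hσ, hc.sub q hq i a1 a4, a3, a4, a5, ?_⟩
  have h1 : ENNReal.ofReal (i * σ) ≤ 3 * (G.card * ENNReal.ofReal σ) := by
    refine (ENNReal.ofReal_le_ofReal (a2.trans g1)).trans_eq ?_
    rw [mul_assoc, ENNReal.ofReal_mul (by norm_num), ENNReal.ofReal_mul (Nat.cast_nonneg _),
      ENNReal.ofReal_natCast, ENNReal.ofReal_ofNat]
  refine (mul_le_mul_left h1 _).trans ?_
  rw [mul_assoc, mul_assoc, ← nsmul_eq_mul]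
  refine mul_le_mul_right ((Finset.card_nsmul_le_sum G
    (fun j => tot {φ | S.Q.cell φ ⊆ sphere q (j * σ) ∧ S.Q.dim φ = 2} fun φ => w φ * S.E p h φ) _
    fun j hj => (mul_le_mul_right (hmin j hj) _).trans
      (en_sphere hp h hc hq (key j hj).1 (key j hj).2.2.2.1)).trans ?_) _
  rw [← Finset.tsum_subtype]
  refine tot_disj _ (fun k l φ hk hl => ?_) fun k φ hk => ?_
  · obtain ⟨u, hu⟩ := S.Q.cell_nonempty φ
    exact Subtype.ext (Nat.cast_injective (R := ℝ)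
      (mul_right_cancel₀ hσ.ne' ((mem_sphere.1 (hk.1 hu)).symm.trans (hl.1 hu))))
  · obtain ⟨-, -, b3, b4, b5⟩ := key k.1 k.2
    have b6 := hk.1.trans (sphere_subset_closedBall.trans b4)
    refine ⟨hE φ hk.2 b6 (sphere_disjoint_ball.mono hk.1 b3) fun b hb => ?_, b6⟩
    rcases b5 b hb with e | e
    · exact sphere_disjoint_ball.mono hk.1 e
    · exact e.symm.mono_left (hk.1.trans sphere_subset_closedBall)

variable {A : Type} {x : A → E3} {r σ : A → ℝ}

theorem r_pos (hB : Bl S w₀ w x r σ) (a : A) : 0 < r a := by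
  linarith [(hB.cand a).pos, hB.small a]

theorem half_sub (hB : Bl S w₀ w x r σ) (a : A) : ball (x a) (r a / 2) ⊆ closedBall (x a) (r a) :=
  ball_subset_closedBall.trans (closedBall_subset_closedBall (half_le_self (r_pos hB a).le))

theorem not_junk (hB : Bl S w₀ w x r σ) {a : A} {φ : S.Q.ι}
    (h1 : S.Q.cell φ ⊆ closedBall (x a) (r a)) (h2 : Disjoint (S.Q.cell φ) (ball (x a) (r a / 2))) :
    φ ∉ junk S x r := by
  rintro ⟨b, hb⟩
  obtain ⟨u, hu⟩ := S.Q.cell_nonempty φ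
  by_cases e : a = b
  · exact h2.notMem_of_mem_left hu (e ▸ hb hu)
  · exact (hB.disj a b e).notMem_of_mem_left (h1 hu) (half_sub hB b (hb hu))

theorem sum_le (hB : Bl S w₀ w x r σ) {κ : Type} {j : κ → A} (hj : Function.Injective j)
    (El : Set S.Q.ι) (a : S.Q.ι → ℝ≥0∞) {e : κ → ℝ≥0∞}
    (he : ∀ k, e k ≤ 3 * tot (El ∩ {φ | S.Q.cell φ ⊆ closedBall (x (j k)) (r (j k))}) a) :
    ∑' k, e k ≤ 3 * tot El a := by
  refine (ENNReal.tsum_le_tsum he).trans ?_
  rw [ENNReal.tsum_mul_left]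
  refine mul_le_mul_right (tot_disj a (fun k l φ hk hl => hj (by_contra fun hn => ?_))
    fun _ => inter_subset_left) _
  obtain ⟨u, hu⟩ := S.Q.cell_nonempty φ
  exact (hB.disj _ _ hn).notMem_of_mem_left (hk.2 hu) (hl.2 hu)

end Cub

open Cub

theorem cubes_ok {p : ℝ} (hp : 0 < p) : CUBES p := by
  refine ⟨6, fun {Ω} S h w₀ w A A' x r σ x' r' σ' n El hB hB' hn hE => ?_⟩
  have hfin : ∀ a, {b | (closedBall (x a) (r a) ∩ closedBall (x' b) (r' b)).Nonempty}.Finite :=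
    fun a => finite_of_encard_le_coe (hn a).1
  choose y s y1 y2 y3 y4 y5 y6 using fun a => one hp h (hB.cand a) (hB.small a) (hfin a).toFinset
    x' r' (fun b _ => (r_pos hB' b).le) (El := El) (by
      have h1 : ((hfin a).toFinset.card : ℝ) ≤ n a := by
        have := (hn a).1
        rw [(hfin a).encard_eq_coe_toFinset_card] at this
        exact_mod_cast this
      have h2 := (hB.cand a).pos
      have h3 : (n a : ℝ) * ∑ b ∈ (hfin a).toFinset, (2 * r' b + σ a) ≤ n a * (3 / 100 * r a) := by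
        rw [Finset.mul_sum]
        refine (Finset.sum_le_card_nsmul _ _ (3 / 100 * r a) fun b hb => ?_).trans ?_
        · nlinarith [(hn a).2.2 b ((hfin a).mem_toFinset.1 hb), (hn a).2.1]
        · rw [nsmul_eq_mul]
          exact mul_le_mul_of_nonneg_right h1 (by linarith [r_pos hB a])
      rcases (Nat.cast_nonneg (α := ℝ) (n a)).eq_or_lt with e | e
      · rw [Finset.card_eq_zero.1 (Nat.cast_eq_zero.1 ((h1.trans_eq e.symm).antisymm
          (Nat.cast_nonneg _))), Finset.sum_empty]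
        linarith [r_pos hB a]
      · exact le_of_mul_le_mul_left h3 e)
    fun φ h1 h2 h3 h4 => by
      refine (hE φ h1 (Or.inl ⟨a, h2⟩)).resolve_right ?_
      rintro (h5 | ⟨b, hb⟩)
      · exact not_junk hB h2 h3 h5
      · obtain ⟨u, hu⟩ := S.Q.cell_nonempty φ
        have h6 := half_sub hB' b (hb hu)
        exact (h4 b ((hfin a).mem_toFinset.2 ⟨u, h2 hu, h6⟩)).notMem_of_mem_left hu h6
  let Kp : Type := {b : A' // ∀ a, Disjoint (closedBall (x' b) (r' b)) (closedBall (y a) (s a))}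
  choose y' s' z1 z2 z3 z4 _ z6 using fun b : Kp => one hp h (hB'.cand b.1) (hB'.small b.1) ∅
    x r (fun _ h => absurd h (Finset.notMem_empty _)) (El := El)
    (by rw [Finset.sum_empty]; linarith [r_pos hB' b.1]) fun φ h1 h2 h3 _ => by
      refine (hE φ h1 (Or.inr ⟨b.1, h2⟩)).resolve_right ?_
      rintro (⟨a, ha⟩ | h5)
      · obtain ⟨u, hu⟩ := S.Q.cell_nonempty φ
        exact (b.2 a).notMem_of_mem_left (h2 hu) (ball_subset_closedBall (y3 a (ha hu)))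
      · exact not_junk hB' h2 h3 h5
  refine ⟨A ⊕ Kp, Sum.elim y y', Sum.elim s s', ⟨?_, ?_, ?_, fun u hu => ?_⟩, ?_, ?_, ?_⟩
  · rintro (a | b)
    exacts [y1 a, z1 b]
  · rintro (a | b)
    exacts [y2 a, z2 b]
  · rintro (a | b) (a' | b') hne
    · exact (hB.disj a a' fun e => hne (congrArg _ e)).mono (y4 a) (y4 a')
    · exact (b'.2 a).symm.mono_right (z4 b')
    · exact (b.2 a').mono_left (z4 b)
    · exact (hB'.disj b.1 b'.1 fun e => hne (congrArg _ (Subtype.ext e))).mono (z4 b) (z4 b')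
  · obtain ⟨U, hU, h1⟩ := hB.lf u hu
    obtain ⟨U', hU', h2⟩ := hB'.lf u hu
    refine ⟨U ∩ U', inter_mem hU hU', finite_preimage_inl_and_inr.1 ⟨h1.subset fun a ha => ?_,
      (h2.preimage Subtype.val_injective.injOn).subset fun b hb => ?_⟩⟩
    · exact Nonempty.mono (inter_subset_inter (y4 a) inter_subset_left) ha
    · exact Nonempty.mono (inter_subset_inter (z4 b) inter_subset_right) hb
  · rintro (a | b)
    exacts [Or.inl ⟨a, y4 a⟩, Or.inr ⟨b.1, z4 b⟩]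
  · rintro φ (⟨a, ha⟩ | ⟨b, hb⟩)
    · exact ⟨.inl a, ha.trans (y3 a)⟩
    by_cases hk : ∀ a, Disjoint (closedBall (x' b) (r' b)) (closedBall (y a) (s a))
    · exact ⟨.inr ⟨b, hk⟩, hb.trans (z3 ⟨b, hk⟩)⟩
    · obtain ⟨a, ha⟩ := not_forall.1 hk
      obtain ⟨u, h1, h2⟩ := not_disjoint_iff.1 ha
      exact ⟨.inl a, hb.trans ((half_sub hB' b).trans
        ((y5 a b ((hfin a).mem_toFinset.2 ⟨u, y4 a h2, h1⟩)).resolve_right ha))⟩
  · rw [ENNReal.summable.tsum_sum ENNReal.summable]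
    refine (add_le_add (sum_le hB Function.injective_id El _ y6)
      (sum_le hB' Subtype.val_injective El _ z6)).trans_eq ?_
    rw [← add_mul]
    norm_num

end P073.Zn
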