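import Vale.Agent.P073Y.Zn.Pl
import Vale.Agent.P073Y.Zn.Bas

/-!
# The plan: the first batch, near sets, covering and the final distance
-/

set_option linter.all false

open Set Metric Topology Filter MeasureTheory
open scoped NNReal ENNReal

namespace P073.Zn

open P073.Top

namespace D1

theorem mem_marg {Z : Zone} {a : ℝ} {z : Fin 3 → ℤ} {y : E3} (hz : z ∈ nbr 1 Z.B)
    (h : Z.T y ∈ lbox Z.N a z) (ha : -2 ≤ a) : y ∈ Z.marg 2 :=
  mem_biUnion hz (lbox_mono _ ha z h)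

theorem mem_supp {Z : Zone} {y : E3} : y ∈ Z.supp ↔ ∃ z ∈ nbr 1 Z.B, Z.T y ∈ lbox Z.N 0 z := by
  simp only [Zone.supp, mem_preimage, mem_iUnion, exists_prop]

theorem supp_marg (Z : Zone) : Z.supp ⊆ Z.marg 2 := fun _ h => by
  obtain ⟨z, hz, h⟩ := mem_supp.1 h
  exact mem_marg hz h (by norm_num)

theorem eq_of_mem {N : ℕ} (hN : 1 ≤ N) {κ : ℝ} (h : 0 < κ) {z z' : Fin 3 → ℤ} {y : E3}
    (h1 : y ∈ lbox N κ z) (h2 : y ∈ lbox N 0 z') : z = z' := by
  funext i
  have a := mem_lbox.1 h1 i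
  have b := mem_lbox.1 h2 i
  have c := one_le_wd hN i
  have d : ((z i : ℝ) - z' i) < 1 := by
    by_contra hn
    nlinarith [a.1, b.2, not_lt.1 hn]
  have e : ((z' i : ℝ) - z i) < 1 := by
    by_contra hn
    nlinarith [a.2, b.1, not_lt.1 hn]
  have d' : z i - z' i < 1 := by exact_mod_cast d
  have e' : z' i - z i < 1 := by exact_mod_cast e
  omega

theorem exists_inner {N : ℕ} (hN : 1 ≤ N) {δ : ℝ} (h : 0 ≤ δ) {z : Fin 3 → ℤ} {y : E3}
    (h1 : y ∈ lbox N (-δ) z) : ∃ w ∈ lbox N (1 / 10) z, dist w y ≤ δ + 1 / 10 := by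
  refine ⟨fun i => max (z i * wd N i + 1 / 10) (min ((z i + 1) * wd N i - 1 / 10) (y i)),
    mem_lbox.2 fun i => ⟨le_max_left _ _, max_le ?_ (min_le_left _ _)⟩,
    (dist_pi_le_iff (by positivity)).2 fun i => ?_⟩
  · linarith [one_le_wd hN i]
  · have a := mem_lbox.1 h1 i
    rw [Real.dist_eq, abs_le]
    refine ⟨?_, ?_⟩
    · rw [le_sub_iff_add_le]
      exact le_max_of_le_right (le_min (by linarith [a.2]) (by linarith))
    · rw [sub_le_iff_le_add]
      exact max_le (by linarith [a.1]) (min_le_of_right_le (by linarith))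

theorem cubes_mono {P : Set E3} {r r' : ℝ} (h : r ≤ r') : cubes P r ⊆ cubes P r' :=
  iUnion₂_mono fun _ _ => closedBall_subset_closedBall h

theorem exists_cell {Ω : Set E3} (S : Src Ω) {x : E3} (hx : x ∈ Ω) : ∃ c, x ∈ S.Q.cell c := by
  rwa [← show ⋃ i, S.Q.cell i = Ω from S.carrier, mem_iUnion] at hx

theorem dk_pos {d₀ : ℝ} (h : 0 < d₀) (k : ℕ) : 0 < dk d₀ k := by
  rw [dk]
  positivity

variable {k : Cst} {J : Type} {B : Base J} {A : St1 k B} {s b θ e : ℝ} {A₂ : St2 A s b θ e}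
  {P : Set E3} {κ : ℝ} {A₃ : St3 A₂ P κ} {S : Src B.Ω} {g h : E3 → E3}

theorem l_le (A₂ : St2 A s b θ e) : 100 * A₂.l 0 ≤ A.s₀ := by
  have h1 := A₂.b_ge
  have h2 : A₂.l 0 * (100 * b) = θ * s := by
    rw [A₂.l_zero]
    field_simp
  nlinarith [A₂.l_pos 0, A₂.s_le, A₂.s_pos, A₂.θ_le]

theorem κ_le (A₃ : St3 A₂ P κ) : κ * s ≤ A₂.l 0 := by
  have h1 := A₂.b_ge
  have h2 := mul_pos A₃.κ_pos A₂.s_pos
  nlinarith [A₃.κ₁, mul_le_mul_of_nonneg_right (one_le_pow₀ (n := 2) h1) h2.le]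

theorem cubes_sub (A₃ : St3 A₂ P κ) : cubes P (3 * s / 2) ⊆ B.Ω₀ :=
  iUnion₂_subset fun q hq => (A₃.cores.sub q hq).1

theorem close (C : Cl A₃ S g) {u : E3} (hu : u ∈ B.Ω) : dist (g u) (B.f u) ≤ κ * s := by
  obtain ⟨c, hc⟩ := exists_cell S hu
  exact C.app.all c u hc u hc

theorem close₁ (C : Cl A₃ S g) {u : E3} (hu : u ∈ B.Ω) {i : J ⊕ ℕ} (h : g u ∈ (A.Z i).marg 2) :
    dist (g u) (B.f u) ≤ A₂.o (lev i) := by
  obtain ⟨c, hc⟩ := exists_cell S hu
  exact C.apx₁ i c (.inl ⟨_, ⟨u, hc, rfl⟩, h⟩) u hc u hc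

theorem sep (C : Cl A₃ S g) {u : E3} (hu : u ∈ cubes P (3 * s / 2)) (i : J ⊕ ℕ) :
    g u ∉ (A.Z i).marg 2 :=
  C.sep u hu _ ((close C (B.sub (cubes_sub A₃ hu))).trans
    (by linarith [κ_le A₃, l_le A₂, A₂.l_pos 0])) i

theorem deep_sub (A₂ : St2 A s b θ e) : deepc P s θ ⊆ cubes P (s / 2) := fun u hu =>
  hu (mem_closedBall_self (mul_pos A₂.θ_pos A₂.s_pos).le)

/-- a point is moved inside the slightly enlarged box -/
theorem keep {Ω : Set E3} {I : Type} {Z : I → ZD} {δ : I → ℝ} (L : Lay k Ω Z δ g h)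
    (hd : ∀ i j, i ≠ j → Disjoint ((Z i).marg 2) ((Z j).marg 2)) {x : E3} (hx : x ∈ Ω) {i : I}
    {z : Fin 3 → ℤ} (hz : z ∈ nbr 1 (Z i).B) (h1 : (Z i).T (g x) ∈ lbox (Z i).N 0 z) :
    (Z i).T (h x) ∈ lbox (Z i).N (-δ i) z :=
  (L.geo i).keep x ⟨hx, fun j hj h2 => disjoint_left.1 (hd j i hj) (supp_marg _ h2)
    (mem_marg hz h1 (by norm_num))⟩ z h1

end D1

open D1

theorem dyn1_of (hI : INVB) : DYN1 := by
  intro k J B A s b θ e A₂ P κ A₃ S g C
  have hg := fun i => A₂.fit₁ i S g (C.apx₁ i)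
  have hs := A₂.s_pos
  have h23 : cubes P (s / 2) ⊆ cubes P (3 * s / 2) := cubes_mono (by linarith)
  refine ⟨⟨A₂.δ_mem, fun i => (supp_marg _).trans ((A.marg i).trans (A.sh.sub (by norm_num))),
    fun y hy => (A.lf y hy).imp fun U hU => ⟨hU.1, hU.2.subset fun i hi =>
      hi.mono (inter_subset_inter_left _ (supp_marg _))⟩,
    fun i j hij => disjoint_left.2 fun φ h1 h2 => ?_, fun i z hz => (hg i z hz).go,
    fun i z hz => (hg i z hz).fit⟩, fun j u hu h1 => ?_, fun i z hz x hx => ?_, fun u hu =>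
      ⟨fun i h => sep C (h23 (deep_sub A₂ hu)) i (supp_marg _ h), fun m h => ?_⟩⟩
  · obtain ⟨x, hx, h1⟩ := mem_hit.1 h1
    obtain ⟨y, hy, h2⟩ := mem_hit.1 h2
    obtain ⟨z, hz, h1⟩ := mem_supp.1 h1
    exact disjoint_left.1 (A.disj i j hij) (mem_marg hz (lbox_dist h1 ((hg i z hz).osc φ
      ⟨_, ⟨x, hx, rfl⟩, lbox_mono _ (by norm_num) z h1⟩ y hy x hx)) (by norm_num))
      (supp_marg _ h2)
  · have h2 := (close₁ C hu (supp_marg _ h1)).trans A₂.o_s
    obtain ⟨z, hz, h1⟩ := mem_supp.1 h1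
    obtain ⟨v, hv, h3⟩ := A.margG j (mem_marg hz (lbox_dist h1
      (A.lipT j _ _ ((dist_comm _ _).trans_le h2))) (by norm_num))
    rwa [← B.hom.left_inv.injOn ((B.Y j).subΩ hv) hu h3]
  · obtain ⟨h1, h2, -⟩ := (hg i z hz).fit x hx
    have h3 : ∀ u ∈ closedBall x (A.r i), (A.Z i).T (g u) ∈ lbox (A.Z i).N (-2) z := fun u hu =>
      lbox_mono _ (by norm_num) z (interior_subset (h2 u hu))
    have h4 := fun u hu => mem_marg hz (h3 u hu) le_rfl
    refine ⟨⟨disjoint_left.2 fun u hu h5 => ?_, fun u hu u' hu' => ?_⟩, fun u hu =>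
      ⟨?_, fun h5 => sep C (cubes_mono (by linarith) h5) i (h4 u hu)⟩⟩
    · rcases h5 with h5 | h5
      · obtain ⟨j, h5⟩ := mem_iUnion.1 h5
        obtain ⟨z', a1, a2⟩ := C.near j u ⟨h5, h1 hu⟩
        obtain rfl : i = .inl j := by_contra fun hn => disjoint_left.1 (A.disj _ _ hn) (h4 u hu)
          (mem_marg (sub_nbr 1 _ (a1 (sub_nbr 1 _ rfl))) a2 (by norm_num))
        exact disjoint_left.1 (A₂.excl j x (g x)
          (close₁ C hx.1 (h4 x (mem_closedBall_self (A.r_pos _).le))) hx.2.2) hu h5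
      · exact sep C (h23 (deep_sub A₂ h5)) i (h4 u hu)
    · have a1 := (A.tiny i z _ _ (h3 u hu) (h3 u' hu')).trans (min_le_left _ _)
      have a2 := C.closeε u (h1 hu)
      have a3 := C.closeε u' (h1 hu')
      linarith [dist_triangle4 (B.f u) (g u) (g u') (B.f u'), dist_comm (B.f u) (g u), B.ε_pos]
    · have a1 := A.marg i (h4 u hu)
      have a2 := C.close _ u (h1 hu) (.inl (A.sh.mono (by norm_num) (by norm_num) a1))
      have a3 := A.sh.move (c := 1 / 1000) (y' := B.f u) a1 (by rw [dist_comm]; linarith)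
      have a4 := dk_pos A.d_pos (lev i)
      exact ⟨h1 hu, by linarith [a3.1], fun hn => by linarith [a3.2 hn]⟩
  · have h1 := deep_sub A₂ hu
    have h2 := cubes_sub A₃ (h23 h1)
    have h3 := close C (B.sub h2)
    have h4 := κ_le A₃
    have h5 := l_le A₂
    have h6 := A₂.l_pos 0
    rcases eq_or_ne m 0 with rfl | hm
    · obtain ⟨y', a1, a2⟩ := A₃.marg 0 _ (supp_marg _ h)
      obtain ⟨q, hq, a3⟩ := mem_iUnion₂.1 h1
      have a4 := hI (r' := 99 * A₂.l 0) B.opn' B.hom (mul_pos A₂.θ_pos hs)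
        (fun v hv => B.sub (cubes_sub A₃ (h23 (hu hv)))) fun v hv => by
          rw [mem_sphere] at hv
          rw [mem_closedBall] at a3
          have b1 := (A₃.cores.lip q hq v (mem_closedBall.2 (by
            nlinarith [dist_triangle v u q, A₂.θ_le])) u (mem_closedBall.2 (by linarith))).2
          have b2 : A₂.l 0 * (100 * b) = θ * s := by
            have := A₂.b_ge
            rw [A₂.l_zero]
            field_simp
          refine le_of_mul_le_mul_left (a := b) ?_ (by linarith [A₂.b_ge])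
          nlinarith [A₂.b_ge]
      refine a1.2 (.inr fun y hy => image_mono (ball_subset_closedBall.trans hu) (a4 ?_))
      rw [mem_closedBall] at hy
      rw [mem_ball]
      linarith [dist_triangle4 y y' (g u) (B.f u), dist_comm y' (g u)]
    · refine disjoint_left.1 (A.sh.disj₀ (by omega) (by norm_num) (by norm_num))
        (A.sh.move (c := 1 / 1000) (A.far u h2) ?_) (C.marg₂ m (supp_marg _ h))
      rw [dk, pow_zero]
      linarith [A.s₀_d]

theorem dyn3 : DYN3 := by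
  intro k J B A s b θ e A₂ P κ A₃ S g h C L hg
  have hd : ∀ m m', m < m' → Disjoint ((A₃.Z m).marg 2) ((A₃.Z m').marg 2) := fun m m' hm =>
    (A.sh.disj (by omega) (by norm_num) (by norm_num)).mono (C.marg₂ m) (C.marg₂ m')
  have hd' : ∀ m m', m ≠ m' → Disjoint ((A₃.Z m).marg 2) ((A₃.Z m').marg 2) := fun m m' hm =>
    hm.lt_or_gt.elim (hd m m') fun hm => (hd m' m hm).symm
  have hs := A₂.s_pos
  have h23 : cubes P (s / 2) ⊆ cubes P (3 * s / 2) := cubes_mono (by linarith)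
  refine ⟨fun j u hu m h1 => ?_, fun c => ?_, hd',
    fun m => (supp_marg _).trans ((C.marg₂ m).trans (A.sh.sub (by norm_num))),
    fun y hy => (A.sh.lf (46 / 100) (104 / 100) y hy).imp fun U hU => ⟨hU.1,
      (hU.2.preimage (f := fun m => 2 * m) fun a _ a' _ h => by simpa using h).subset fun m hm =>
        hm.mono (inter_subset_inter_left _ ((supp_marg _).trans (C.marg₂ m)))⟩,
    fun h' L' u hu => ?_⟩
  · obtain ⟨z, a1, a2⟩ := C.near j u hu
    have a3 := sub_nbr 1 _ (a1 (sub_nbr 1 _ rfl))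
    have a4 := keep L A.disj hu.2 a3 a2
    have a5 := A₂.δ_mem (.inl j)
    rcases eq_or_ne m 0 with rfl | hm
    · obtain ⟨y', b1, b2⟩ := A₃.marg 0 _ (supp_marg _ h1)
      have b3 := lbox_dist a4 (A.lipT j y' (h u)
        (by linarith [dist_comm y' (h u), l_le A₂, A₂.l_pos 0]))
      refine b1.2 (.inl (mem_iUnion.2 ⟨j, fun w hw => ?_⟩))
      obtain ⟨z', hz'⟩ := exists_lbox (A.Z (.inl j)).N_pos w
      exact mem_biUnion (a1 (near_of_mem (A.Z (.inl j)).N_pos (by linarith [a5.2]) hz'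
        (lbox_dist b3 (mem_ball.1 hw).le))) hz'
    · exact disjoint_left.1 (A.sh.disj (k := 0) (by omega) (by norm_num) (by norm_num))
        (A.marg (.inl j) (mem_marg a3 a4 (by linarith [a5.2]))) (C.marg₂ m (supp_marg _ h1))
  · rcases (S.Q.cell c).eq_empty_or_nonempty with hc | ⟨x, hx⟩
    · exact .inr (.inr (hc ▸ empty_subset _))
    have hΩ := cell_sub c hx
    obtain ⟨n, hn⟩ := A.sh.cover _ (hg hΩ)
    obtain ⟨m, rfl | rfl⟩ := n.even_or_odd'
    swap
    · exact .inl ⟨.inr m, mem_hit.2 ⟨x, hx, A.cover m hn⟩⟩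
    have a1 := (C.move h L x hΩ).2 _ (.inr (A.sh.mono (by norm_num) (by norm_num) hn))
    have a2 := A.sh.move (c := 1 / 100) (y' := h x) hn (by linarith)
    by_cases a3 : h x ∈ A₂.cov P m
    · exact .inr (.inl ⟨m, mem_hit.2 ⟨x, hx, A₃.core m a3⟩⟩)
    rcases not_not.1 (fun a4 => a3 ⟨A.sh.mono (by norm_num) (by norm_num) a2, a4⟩) with a4 | a4
    · obtain ⟨j, a4⟩ := mem_iUnion.1 a4
      obtain ⟨z₀, b1, b2⟩ := mem_iUnion₂.1 (a4 (mem_ball_self (by norm_num)))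
      obtain ⟨z, b3, b4⟩ := mem_supp.1 ((L.mem _ x hΩ).1 (mem_supp.2 ⟨z₀, sub_nbr 1 _ b1, b2⟩))
      have b5 := A₂.δ_mem (.inl j)
      obtain ⟨w, b6, b7⟩ := exists_inner (A.Z (.inl j)).N_pos b5.1.le (keep L A.disj hΩ b3 b4)
      obtain ⟨z', b8, b9⟩ := mem_iUnion₂.1 (a4 (mem_ball.2 (b7.trans_lt (by linarith [b5.2]))))
      obtain rfl := eq_of_mem (A.Z (.inl j)).N_pos (by norm_num) b6 b9
      exact .inl ⟨.inl j, mem_hit.2 ⟨x, hx, mem_biUnion b8 b4⟩⟩
    · obtain ⟨v, b1, b2⟩ := a4 (mem_closedBall_self (A₂.l_pos 0).le)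
      have b3 := C.same h L v (h23 b1) x hΩ (.inl (by rw [b2, dist_self]; exact A.s₀_pos.le))
      refine .inr (.inr fun y hy => ?_)
      obtain ⟨v', b4, b5⟩ := a4 (show B.f y ∈ _ from mem_closedBall.2 (by
        rw [b3, dist_comm]
        exact (C.app.all c x hx y hy).trans (κ_le A₃)))
      rwa [← B.hom.left_inv.injOn (B.sub (cubes_sub A₃ (h23 b4))) (cell_sub c hy) b5]
  · have a1 := (C.move h L u hu).1
    have a2 := C.closeε u hu
    have a3 := B.ε_pos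
    have a4 : dist (h' u) (h u) ≤ B.ε / 20 := by
      by_cases a5 : ∀ m, h u ∉ (A₃.Z m).supp
      · rw [L'.off u hu a5, dist_self]
        positivity
      · obtain ⟨m, a5⟩ := not_forall.1 a5
        obtain ⟨z, b1, b2⟩ := mem_supp.1 (not_not.1 a5)
        linarith [A₃.tiny m z _ _ (lbox_mono _ (by norm_num) z (keep L' hd' hu b1 b2))
          (lbox_mono _ (by norm_num) z b2), A₂.l_ε m]
    linarith [dist_triangle4 (h' u) (h u) (g u) (B.f u)]

end P073.Zn
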