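import Vale.Agent.P073Y.Zn.Pl
import Vale.Agent.P073Y.Zn.Bas

/-!
# The boxes of the second batch
-/

open Set Metric Topology Filter MeasureTheory
open scoped NNReal ENNReal

namespace P073.Zn

open P073.Top

namespace D2

variable {k : Cst} {J : Type} {B : Base J} {A : St1 k B} {s b θ e : ℝ}
  {A₂ : St2 A s b θ e} {P : Set E3} {κ : ℝ} {A₃ : St3 A₂ P κ} {S : Src B.Ω} {g h : E3 → E3}

theorem dk_pos (A : St1 k B) (n : ℕ) : 0 < dk A.d₀ n := mul_pos A.d_pos (by positivity)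

theorem dk_zero (d : ℝ) : dk d 0 = d := by simp [dk]

theorem bl_le (A₂ : St2 A s b θ e) : 100 * b * A₂.l 0 ≤ s := by
  have hb : 0 < b := lt_of_lt_of_le one_pos A₂.b_ge
  have : 100 * b * A₂.l 0 = θ * s := by rw [A₂.l_zero]; field_simp
  rw [this]
  exact mul_le_of_le_one_left A₂.s_pos.le A₂.θ_le

theorem l_le (A₂ : St2 A s b θ e) : 100 * A₂.l 0 ≤ A.s₀ := by
  have h1 := bl_le A₂
  have h2 := mul_le_mul_of_nonneg_right A₂.b_ge (A₂.l_pos 0).le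
  have h3 := A₂.s_le
  nlinarith

theorem κ_le (A₃ : St3 A₂ P κ) : 0 ≤ κ * s ∧ 10000 * (κ * s) ≤ A₂.l 0 := by
  have h0 : 0 ≤ κ * s := (mul_pos A₃.κ_pos A₂.s_pos).le
  have h1 : 1 ≤ b ^ 2 := one_le_pow₀ A₂.b_ge
  have h2 := mul_le_mul_of_nonneg_right h1 h0
  have h3 := A₃.κ₁
  exact ⟨h0, by nlinarith⟩

theorem cubes_mono (hs : 0 < s) : cubes P (3 * s / 4) ⊆ cubes P (3 * s / 2) :=
  iUnion₂_mono fun _ _ => closedBall_subset_closedBall (by linarith)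

theorem cubes_sub (A₃ : St3 A₂ P κ) : cubes P (3 * s / 4) ⊆ B.Ω₀ :=
  (cubes_mono A₂.s_pos).trans (iUnion₂_subset fun q hq => (A₃.cores.sub q hq).1)

theorem near_self (C : Cl A₃ S g) {x : E3} (hx : x ∈ B.Ω) : dist (g x) (B.f x) ≤ κ * s := by
  rw [← show ⋃ i, S.Q.cell i = B.Ω from S.carrier] at hx
  obtain ⟨c, hc⟩ := mem_iUnion.1 hx
  exact C.app.all c x hc x hc

/-- the shells which contain the images of a point near the box -/
theorem shells (C : Cl A₃ S g) (Ly : Lay k B.Ω A.Z A₂.δ g h) {m : ℕ} {z : Fin 3 → ℤ}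
    (hz : z ∈ nbr 1 (A₃.Z m).B) {u : E3} (hu : u ∈ B.Ω)
    (hT : (A₃.Z m).T (h u) ∈ lbox 1 (-1) z) :
    h u ∈ shl B.Λ A.d₀ (2 * m) (46 / 100) (104 / 100) ∧
      B.f u ∈ shl B.Λ A.d₀ (2 * m) (4 / 10) (11 / 10) := by
  have h1 : h u ∈ shl B.Λ A.d₀ (2 * m) (46 / 100) (104 / 100) := by
    refine C.marg₂ m (mem_preimage.2 (mem_biUnion hz ?_))
    rw [(A₃.std m).N]
    exact lbox_mono 1 (by norm_num) z hT
  have h2 := (C.move h Ly u hu).2 (2 * m) (Or.inl (A.sh.mono (by norm_num) (by norm_num) h1))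
  have h3 := A.sh.move (c := 1 / 100) (y' := g u) h1 (by rw [dist_comm]; linarith)
  have h4 := C.close (2 * m) u hu (Or.inl (A.sh.mono (by norm_num) (by norm_num) h3))
  have h5 := A.sh.move (c := 1 / 1000) (y' := B.f u) h3 (by rw [dist_comm]; linarith)
  exact ⟨h1, A.sh.mono (by norm_num) (by norm_num) h5⟩

/-- only the first shell comes near the cores -/
theorem m_zero (A₃ : St3 A₂ P κ) {m : ℕ} {v y : E3} (hv : v ∈ cubes P (3 * s / 4))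
    (hy : y ∈ shl B.Λ A.d₀ (2 * m) (3 / 10) (13 / 10)) (hd : dist y (B.f v) ≤ A.d₀) : m = 0 := by
  by_contra hm
  have h1 := A.sh.move (c := 1) (y' := y) (A.far v (cubes_sub A₃ hv))
    (by rw [dk_zero, one_mul]; exact hd)
  exact disjoint_left.1 (A.sh.disj₀ (k' := 2 * m) (by omega) (by norm_num) (by norm_num)) h1 hy

theorem dist_T {l : ℝ} (hl : 0 < l) (y y' : E3) : dist (l⁻¹ • y) (l⁻¹ • y') = dist y y' / l := by
  rw [dist_smul₀, Real.norm_of_nonneg (inv_pos.2 hl).le, div_eq_inv_mul]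

/-- a box near the image of a core point is near the cores -/
theorem nc_of (C : Cl A₃ S g) (Ly : Lay k B.Ω A.Z A₂.δ g h) {z : Fin 3 → ℤ} {v x : E3}
    (hv : v ∈ cubes P (3 * s / 4)) (hx : x ∈ B.Ω) (hT : (A₃.Z 0).T (h x) ∈ lbox 1 (-1) z)
    (hd : dist (g x) (B.f v) ≤ A₂.l 0) : A₂.NC P 0 z := by
  have hl := A₂.l_pos 0
  have h1 := l_le A₂
  have e1 : h x = g x :=
    C.same h Ly v (cubes_mono A₂.s_pos hv) x hx (Or.inr (by linarith))
  rw [A₃.T_eq, e1] at hT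
  refine ⟨rfl, v, hv, lbox_mono 1 (by norm_num) z (lbox_dist (d := 1) hT ?_)⟩
  rw [dist_T hl, div_le_one hl, dist_comm]
  exact hd

theorem wild_good (C : Cl A₃ S g) (Ly : Lay k B.Ω A.Z A₂.δ g h) {m : ℕ} {z : Fin 3 → ℤ}
    (hz : z ∈ nbr 1 (A₃.Z m).B) (hn : ¬ A₂.NC P m z) :
    Good k S h (A₃.Z m) (1 / 100) (A₃.r m z) z := by
  rw [(A₃.wild m z hn).2]
  refine A₂.fit₂ m (A₃.Z m) z (A₃.T_eq m) (A₃.std m) (A₃.X_eq m) (A₃.wild m z hn).1 S g h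
    {y ∈ shl B.Λ A.d₀ (2 * m) (3 / 10) (13 / 10) |
      ∀ v ∈ cubes P (3 * s / 4), 2 * (κ * s) < dist y (B.f v)} Ly
    (C.apx (2 * m) _ (fun y hy => hy.1) fun v hv y hy => hy.2 v hv) fun x hx hT => ?_
  obtain ⟨h1, h2⟩ := shells C Ly hz hx hT
  refine ⟨h1, h2, fun y hy => ?_⟩
  have hy' : dist y (B.f x) ≤ A₂.l m / 4 := hy
  have hd := dk_pos A (2 * m)
  have hl := A₂.l_d m
  have h3 : y ∈ shl B.Λ A.d₀ (2 * m) (3 / 10) (13 / 10) :=
    A.sh.mono (by norm_num) (by norm_num) (A.sh.move (c := 1 / 10) (y' := y) h2 (by linarith))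
  refine ⟨h3, fun v hv => lt_of_not_ge fun hc => hn ?_⟩
  obtain ⟨a0, a1⟩ := κ_le A₃
  have a2 := l_le A₂
  have a3 := A.s₀_d
  have a4 := A.d_pos
  obtain rfl : m = 0 := m_zero A₃ hv h3 (by linarith)
  refine nc_of C Ly hv hx hT ?_
  have b1 := near_self C hx
  have b2 := dist_triangle4 (g x) (B.f x) y (B.f v)
  rw [dist_comm (B.f x) y] at b2
  linarith

theorem dist_lbox {z : Fin 3 → ℤ} {y y' : E3} (h1 : y ∈ lbox 1 (-2) z) (h2 : y' ∈ lbox 1 (-3) z) :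
    dist y y' ≤ 6 := by
  refine (dist_pi_le_iff (by norm_num)).2 fun i => ?_
  have a := mem_lbox.1 h1 i
  have c := mem_lbox.1 h2 i
  have w : wd 1 i = 1 := by fin_cases i <;> simp [wd]
  rw [w] at a c
  rw [Real.dist_eq]
  exact abs_le.2 ⟨by linarith [a.1, c.2], by linarith [a.2, c.1]⟩

theorem nc_good (hC : FITC) (hT : FITT) (C : Cl A₃ S g) (Ly : Lay k B.Ω A.Z A₂.δ g h)
    {m : ℕ} {z : Fin 3 → ℤ} (hn : A₂.NC P m z) :
    Good k S h (A₃.Z m) (1 / 100) (A₃.r m z) z ∧ ∃ q ∈ P, ∀ x ∈ Ctr B.Ω h (A₃.Z m) z,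
      closedBall x (A₃.r m z) ⊆ closedBall q (3 * s / 2) := by
  obtain ⟨hβ, hr⟩ := A₃.nc m z hn
  obtain ⟨rfl, u₀, hu₀, hb⟩ := hn
  obtain ⟨q, hq, hu⟩ := mem_iUnion₂.1 hu₀
  have hl := A₂.l_pos 0
  have hN := (A₃.std 0).N
  have hK : (0 : ℝ) ≤ k.K (A₃.Z 0).θ (A₃.Z 0).ϑ (A₃.Z 0).N (A₃.Z 0).t := NNReal.coe_nonneg _
  have o0 : 0 ≤ (A₃.Z 0).o k (1 / 100) := by
    rw [ZD.o, (A₃.std 0).t]
    positivity
  have o1 : (A₃.Z 0).o k (1 / 100) ≤ 1 := by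
    rw [ZD.o, div_le_one (by linarith)]
    have := (A₃.std 0).t
    nlinarith
  have β1 : 1 / (1000 * b ^ 2) ≤ 1 := by
    have h1 : 1 ≤ b ^ 2 := one_le_pow₀ A₂.b_ge
    rw [div_le_one (by linarith)]
    linarith
  have o2 : (A₃.Z 0).o k (1 / 100) * (1 / (1000 * b ^ 2)) ≤ 1 :=
    (mul_le_of_le_one_right o0 β1).trans o1
  obtain ⟨c1, c2, c3⟩ := hC S g (A₃.Z 0) z q u₀ s b (A₂.l 0) (κ * s) _ B.opn' B.hom A₂.b_ge hl
    (bl_le A₂) (κ_le A₃).1 A₃.κ₁ A₃.κ₂ (A₃.T_eq 0) hN (A₃.std 0).t hβ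
    ((A₃.cores.sub q hq).1.trans B.sub) (A₃.cores.lip q hq) C.app.all hu
    (by rw [A₃.T_eq]; exact hb)
  have near : ∀ y, (A₃.Z 0).T y ∈ lbox (A₃.Z 0).N (-2) z → dist y (B.f u₀) ≤ A.s₀ := by
    intro y hy
    rw [hN, A₃.T_eq] at hy
    have h1 := dist_lbox hy hb
    rw [dist_T hl, div_le_iff₀ hl] at h1
    linarith [l_le A₂]
  obtain ⟨d1, d2, d3⟩ := hT S g h (A₃.Z 0) z _ _ o2
    (fun x hx ho => C.same h Ly u₀ (cubes_mono A₂.s_pos hu₀) x hx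
      (ho.symm.imp (near _) (near _))) (by rw [hN]; exact c1) c2
  rw [hr, d3]
  exact ⟨⟨GO.of_osc d1 o0 fun c _ => by rw [hβ c],
    fun c hc x hx y hy => (d1 c hc x hx y hy).trans o2, d2⟩, q, hq, c3⟩

end D2

open D2 in
theorem dyn2_of : FITC → FITT → DYN2 := by
  intro hC hT k J B A s b θ e A₂ P κ A₃ S g h C Ly m z hz
  have G : Good k S h (A₃.Z m) (1 / 100) (A₃.r m z) z := by
    by_cases hn : A₂.NC P m z
    · exact (nc_good hC hT C Ly hn).1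
    · exact wild_good C Ly hz hn
  refine ⟨G, fun x hx => ?_⟩
  obtain ⟨f1, f2, -⟩ := G.fit x hx
  have f3 : ∀ u ∈ closedBall x (A₃.r m z), (A₃.Z m).T (h u) ∈ lbox 1 (-1) z := fun u hu => by
    have := interior_subset (f2 u hu)
    rw [(A₃.std m).N] at this
    exact lbox_mono 1 (by norm_num) z this
  have hd := dk_pos A (2 * m)
  refine ⟨fun u hu => ?_, fun u hu u' hu' => ?_, fun hn => disjoint_left.2 fun u hu hv => hn ?_,
    fun hn => ?_⟩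
  · obtain ⟨a1, a2⟩ := (shells C Ly hz (f1 hu) (f3 u hu)).2
    exact ⟨f1 hu, by linarith, fun h0 => by linarith [a2 h0]⟩
  · have a1 := C.closeε u (f1 hu)
    have a2 := C.closeε u' (f1 hu')
    have a3 := (C.move h Ly u (f1 hu)).1
    have a4 := (C.move h Ly u' (f1 hu')).1
    have a5 := A₃.tiny m z (h u) (h u')
      (lbox_mono _ (by norm_num) z (interior_subset (f2 u hu)))
      (lbox_mono _ (by norm_num) z (interior_subset (f2 u' hu')))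
    have a6 := A₂.l_ε m
    have a7 := dist_triangle4 (B.f u) (g u) (h u) (h u')
    have a8 := dist_triangle4 (B.f u) (h u') (g u') (B.f u')
    rw [dist_comm (B.f u) (g u), dist_comm (g u) (h u)] at a7
    linarith [B.ε_pos]
  · obtain rfl : m = 0 := m_zero A₃ hv
      (A.sh.mono (by norm_num) (by norm_num) (shells C Ly hz (f1 hu) (f3 u hu)).2)
      (by rw [dist_self]; exact A.d_pos.le)
    obtain ⟨a0, a1⟩ := κ_le A₃
    exact nc_of C Ly hv (f1 hu) (f3 u hu) (by linarith [near_self C (f1 hu)])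
  · obtain ⟨q, hq, h1⟩ := (nc_good hC hT C Ly hn).2
    exact ⟨q, hq, h1 x hx⟩

end P073.Zn
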