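import Vale.Agent.P073Y.Zn.Pl
import Vale.Agent.P073Y.Zn.Bas

/-!
# Balls and cavities from moduli of continuity
-/

open Set Metric Topology Filter
open scoped NNReal ENNReal

namespace P073.Zn

open P073.Top

namespace Fw

theorem ev (c : ℝ) {e : ℝ} (he : 0 < e) : ∀ᶠ o : ℝ in 𝓝[>] 0, c * o ≤ e := by
  have h : Tendsto (fun o : ℝ => c * o) (𝓝 0) (𝓝 0) := by
    have := (tendsto_id (x := 𝓝 (0:ℝ))).const_mul c
    simpa using this
  exact (h.eventually_le_const he).filter_mono nhdsWithin_le_nhds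

theorem lipT (T : E3 ≃ᴬ[ℝ] E3) : ∃ a : ℝ, 1 ≤ a ∧ ∀ y y', dist (T y) (T y') ≤ a * dist y y' := by
  obtain ⟨K, hK⟩ := T.toAffineEquiv.toAffineMap.lipschitzWith_of_finiteDimensional
  refine ⟨K + 1, by linarith [K.coe_nonneg], fun y y' => (hK.dist_le_mul y y').trans ?_⟩
  exact mul_le_mul_of_nonneg_right (by linarith) dist_nonneg

theorem nrm_le {N : ℕ} (hN : 1 ≤ N) {t β : ℝ} (ht : 0 < t) {v : E3} (h : ‖nrm N t v‖ ≤ 2 * β) :
    |v 0| ≤ β * N ∧ |v 1| ≤ β * N ∧ |v 2| ≤ 2 * β * t := by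
  have hN' : (0:ℝ) < N := by exact_mod_cast hN
  have h0 : |2 * v 0 / N| ≤ 2 * β := (norm_le_pi_norm (nrm N t v) 0).trans h
  have h1 : |2 * v 1 / N| ≤ 2 * β := (norm_le_pi_norm (nrm N t v) 1).trans h
  have h2 : |v 2 / t| ≤ 2 * β := (norm_le_pi_norm (nrm N t v) 2).trans h
  rw [abs_div, abs_mul, abs_of_pos hN', div_le_iff₀ hN', abs_two] at h0 h1
  rw [abs_div, abs_of_pos ht, div_le_iff₀ ht] at h2
  exact ⟨by linarith, by linarith, h2⟩

theorem dist_le_of_nrm {N : ℕ} (hN : 1 ≤ N) {t β : ℝ} (ht : 0 < t) (ht' : t ≤ 1 / 4) (hβ : 0 ≤ β)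
    {y c : E3} (h : ‖nrm N t (y - c)‖ ≤ 2 * β) : dist y c ≤ β * N := by
  have hN' : (1:ℝ) ≤ N := by exact_mod_cast hN
  obtain ⟨h0, h1, h2⟩ := nrm_le hN ht h
  rw [dist_eq_norm]
  refine (pi_norm_le_iff_of_nonneg (by positivity)).2 fun i => ?_
  fin_cases i
  · exact h0
  · exact h1
  · exact h2.trans (by nlinarith)

theorem mem_of_nrm {N : ℕ} (hN : 1 ≤ N) {t β : ℝ} (ht : 0 < t) (ht' : t ≤ 1 / 4) (hβ : β ≤ 1 / 4)
    {z : Fin 3 → ℤ} {y c : E3} (hc : c ∈ mid N z) (h : ‖nrm N t (y - c)‖ ≤ 2 * β) :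
    y ∈ lbox N 0 z := by
  have hN' : (1:ℝ) ≤ N := by exact_mod_cast hN
  obtain ⟨h0, h1, h2⟩ := nrm_le hN ht h
  have b0 := abs_le.1 h0
  have b1 := abs_le.1 h1
  have b2 := abs_le.1 h2
  have c0 := hc.1 0
  have c0' := hc.2 0
  have c1 := hc.1 1
  have c1' := hc.2 1
  have c2 := hc.1 2
  have c2' := hc.2 2
  simp only [Pi.sub_apply] at b0 b1 b2
  simp [wd] at c0 c0' c1 c1' c2 c2'
  have k1 : β * N ≤ 1 / 4 * N := mul_le_mul_of_nonneg_right hβ (by linarith)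
  have k2 : 2 * β * t ≤ 1 / 8 := by nlinarith
  refine mem_lbox.2 fun i => ?_
  fin_cases i <;> simp [wd] <;> constructor <;> linarith [b0.1, b0.2, b1.1, b1.2, b2.1, b2.2]

theorem mid_sub' {N : ℕ} (hN : 1 ≤ N) (z : Fin 3 → ℤ) : mid N z ⊆ lbox N (1 / 4) z :=
  fun y hy => mem_lbox.2 fun i => by
    have h1 := hy.1 i
    have h2 := hy.2 i
    have h0 := one_le_wd hN i
    dsimp only at h1 h2
    split_ifs at h1 h2 <;> constructor <;> nlinarith

theorem int_of_mid {N : ℕ} (hN : 1 ≤ N) {z : Fin 3 → ℤ} {y c : E3} (hc : c ∈ mid N z)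
    (h : dist y c < 1 / 4) : y ∈ interior (lbox N 0 z) := by
  refine interior_maximal (t := ball c (1 / 4)) (fun y' hy' => ?_) isOpen_ball h
  have := lbox_dist (mid_sub' hN z hc) (le_of_lt hy')
  rwa [sub_self] at this

variable {Ω : Set E3}

theorem csub (S : Src Ω) (c : S.Q.ι) : S.Q.cell c ⊆ Ω :=
  (S.Q.cell_subset_carrier c).trans S.carrier.le

theorem apx_pt {S : Src Ω} {f g : E3 → E3} {R : Set E3} {o : ℝ} (h : Apx S f g R o) {x : E3}
    (hx : x ∈ Ω) (hR : g x ∈ R ∨ f x ∈ R) : dist (g x) (f x) ≤ o := by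
  obtain ⟨c, hc⟩ := S.Q.mem_carrier.1 (S.carrier.ge hx)
  exact h c (hR.imp (fun h => ⟨_, ⟨x, hc, rfl⟩, h⟩) fun h => ⟨_, ⟨x, hc, rfl⟩, h⟩) x hc x hc

end Fw

open Fw

theorem fitw : FITW := by
  intro Ω Λ Kc f f' T N t γ L μ d hΩ hf hK hKΩ hN ht ht' hL hμ hd hdγ
  obtain ⟨a, ha, hT⟩ := lipT T
  obtain ⟨b, hb, hT'⟩ := lipT T.symm
  have hγ : 0 < γ := hd.trans_le hdγ
  obtain ⟨r₁, hr₁, hsub⟩ := hK.exists_cthickening_subset_open hΩ hKΩ
  have hω : 0 < min μ (min (γ / 2) (1 / (20 * a * L))) := by positivity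
  obtain ⟨r₂, hr₂, hu⟩ := Metric.uniformContinuousOn_iff_le.1
    (hK.cthickening.uniformContinuousOn_of_continuous (hf.cont.mono hsub)) _ hω
  refine ⟨min r₁ r₂, lt_min hr₁ hr₂, fun r hr hr' => ?_⟩
  have hK' : IsCompact (f '' Kc) := hK.image_of_continuousOn (hf.cont.mono hKΩ)
  obtain ⟨w, hw, hu'⟩ := Metric.uniformContinuousOn_iff_le.1
    (hK'.uniformContinuousOn_of_continuous (hf.cont_inv.mono
      ((image_mono hKΩ).trans hf.mapsTo.image_subset))) (r / 4) (by linarith)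
  obtain ⟨β, ⟨⟨β1, β2⟩, β3⟩, β0⟩ := ((((ev 1 (show (0:ℝ) < 1 / 4 by norm_num)).and
    (ev (b * N) (half_pos hd))).and (ev (L * (b * N)) (half_pos hw))).and
    self_mem_nhdsWithin).exists
  have β0' : 0 < β := β0
  refine ⟨β, β0', by linarith, fun o' ho' => ?_⟩
  obtain ⟨o, ⟨⟨⟨⟨o1, o2⟩, o3⟩, o4⟩, o5⟩, o0⟩ := ((((((ev 4 hγ).and (ev 1 hd)).and
    (ev (2 * a * (2 * L + 1)) ho')).and
    (ev (a * (2 * L + 1)) (show (0:ℝ) < 1 / 10 by norm_num))).and
    (ev (L + 2) (half_pos hw))).and self_mem_nhdsWithin).exists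
  have o0' : 0 < o := o0
  refine ⟨o, o0', ?_⟩
  intro S g h Z z R R' Pl ξ eT eN et eβ hξ0 hξ hM hA hP H
  have hfR : ∀ x ∈ Ω, T (h x) ∈ lbox N (-1) z → f x ∈ R := fun x hx hx' =>
    (H x hx hx').2.2 (mem_closedBall_self hμ.le)
  constructor
  · rintro c ⟨_, ⟨x₀, hx₀, rfl⟩, hb₀⟩ x hx y hy
    have h0 := csub S c hx₀
    have A := hA c (Or.inr ⟨_, ⟨x₀, hx₀, rfl⟩, hfR x₀ h0 hb₀⟩)
    have key : ∀ u ∈ S.Q.cell c, dist (h u) (h x₀) ≤ (2 * L + 1) * o := fun u hu => by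
      have h1 : dist (g u) (g x₀) ≤ 2 * o := by
        linarith [dist_triangle_right (g u) (g x₀) (f x₀), A u hu x₀ hx₀, A x₀ hx₀ x₀ hx₀]
      have h2 := hM.fwd x₀ h0 u (csub S c hu) (H x₀ h0 hb₀).1 (by linarith)
      nlinarith
    have h3 := dist_triangle_right (h x) (h y) (h x₀)
    have h4 := hT (h x) (h y)
    have h5 := mul_le_mul_of_nonneg_left (h3.trans (add_le_add (key x hx) (key y hy)))
      (show 0 ≤ a by linarith)
    show dist (T (h x)) (T (h y)) ≤ o'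
    linarith
  · rintro x ⟨hx, hmid, hX⟩
    rw [eT, eN] at hmid
    rw [eT] at hX
    have hb1 : T (h x) ∈ lbox N (-1) z := lbox_mono N (by norm_num) z (mid_sub z hmid)
    obtain ⟨x1, x2, x3⟩ := H x hx hb1
    have hgx := apx_pt hA hx (Or.inr (hfR x hx hb1))
    have hball : closedBall x r ⊆ cthickening r₁ Kc :=
      (closedBall_subset_closedBall (hr'.trans (min_le_left _ _))).trans
        (closedBall_subset_cthickening x2 r₁)
    refine ⟨hball.trans hsub, fun u hu₀ => ?_, fun u hu₀ hn => ?_⟩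
    · rw [eT, eN]
      have h1 := hu u (hball hu₀) x (self_subset_cthickening _ x2)
        ((mem_closedBall.1 hu₀).trans (hr'.trans (min_le_right _ _)))
      have h1a := h1.trans (min_le_left _ _)
      have h1b := h1.trans ((min_le_right _ _).trans (min_le_left _ _))
      have h1c := h1.trans ((min_le_right _ _).trans (min_le_right _ _))
      have hu1 := hsub (hball hu₀)
      have hgu := apx_pt hA hu1 (Or.inr (x3 h1a))
      have h2 : dist (g u) (g x) ≤ dist (f u) (f x) + 2 * o := by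
        linarith [dist_triangle4_right (g u) (g x) (f u) (f x)]
      have h3 := hM.fwd x hx u hu1 x1 (by linarith)
      have h4 := hT (h u) (h x)
      have hL0 : 0 < L := by linarith
      have ha0 : 0 < a := by linarith
      rw [le_div_iff₀ (by positivity)] at h1c
      have h5 : dist (h u) (h x) ≤ L * dist (f u) (f x) + (2 * L + 1) * o := by nlinarith
      have h6 := mul_le_mul_of_nonneg_left h5 ha0.le
      exact int_of_mid hN hmid (by nlinarith)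
    · rw [eT, eN, et, eβ] at hn
      have h1 := dist_le_of_nrm hN ht ht' β0'.le hn
      have hb2 : T (h u) ∈ lbox N (-1) z :=
        lbox_mono N (by norm_num) z (mem_of_nrm hN ht ht' (by linarith) hmid hn)
      have h2 := hT' (T (h u)) (T (h x))
      rw [T.symm_apply_apply, T.symm_apply_apply] at h2
      have h3 : dist (h u) (h x) ≤ b * N * β := by nlinarith
      have h4 := hM.inv d (by linarith) hdγ x hx u hu₀ x1 (hP _ hX) (by linarith)
      have hgu := apx_pt hA hu₀ (Or.inr (hfR u hu₀ hb2))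
      have h5 : dist (f u) (f x) ≤ dist (g u) (g x) + 2 * o := by
        linarith [dist_triangle4 (f u) (g u) (g x) (f x), dist_comm (f u) (g u)]
      have h6 := mul_le_mul_of_nonneg_left (add_le_add h3 hξ) (show 0 ≤ L by linarith)
      have h7 := hu' _ ⟨u, (H u hu₀ hb2).2.1, rfl⟩ _ ⟨x, x2, rfl⟩ (by linarith)
      rw [hf.left_inv hu₀, hf.left_inv hx] at h7
      linarith

theorem fit1 : FIT1 := by
  intro Ω Λ f f' Z hΩ hf hsub
  obtain ⟨a, ha, hT⟩ := lipT Z.T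
  have hc : IsCompact (Z.marg 2) := Z.T.toHomeomorph.isCompact_preimage.2
    ((nbr_finite Z.fin 1).isCompact_biUnion fun z _ => isCompact_lbox _ _ z)
  have hμ : 0 < 1 / (2 * a) := by positivity
  have hμa : a * (1 / (2 * a)) = 1 / 2 := by field_simp
  obtain ⟨r₀, hr₀, H⟩ := fitw Z.T Z.N Z.t 1 1 (1 / (2 * a)) 1 hΩ hf
    (hc.image_of_continuousOn (hf.cont_inv.mono hsub))
    ((image_mono hsub).trans hf.mapsTo_inv.image_subset) Z.N_pos Z.t_pos Z.t_le le_rfl hμ one_pos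
    le_rfl
  refine ⟨r₀, hr₀, fun r hr hr' => ?_⟩
  obtain ⟨β, β0, β1, H⟩ := H r hr hr'
  refine ⟨β, β0, β1, fun o' ho' => ?_⟩
  obtain ⟨o, ho, H⟩ := H o' ho'
  refine ⟨min o (1 / (2 * a)), lt_min ho hμ, ?_⟩
  rintro S g Z' rfl hβ hA z hz
  refine H S g g Z' z (Z'.marg 2) univ ∅ 0 rfl rfl rfl (hβ z) le_rfl ho.le
    ⟨fun x _ y _ _ _ => by simp, fun d _ _ x _ y _ _ _ _ => by simp⟩
    (fun c hc x hx y hy => (hA c hc x hx y hy).trans (min_le_left _ _)) (fun y _ => by simp)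
    fun x hx hb => ?_
  have h1 : g x ∈ Z'.marg 2 := mem_biUnion hz (lbox_mono _ (by norm_num) z hb)
  have h2 := (apx_pt hA hx (Or.inl h1)).trans (min_le_right _ _)
  have h3 : closedBall (f x) (1 / (2 * a)) ⊆ Z'.marg 2 := fun y hy => by
    have h4 := dist_triangle_right y (g x) (f x)
    have h5 := mul_le_mul_of_nonneg_left (h4.trans (add_le_add (mem_closedBall.1 hy) h2))
      (show 0 ≤ a by linarith)
    have h6 := lbox_dist hb ((hT y (g x)).trans (show _ ≤ (1:ℝ) by linarith))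
    exact mem_biUnion hz (lbox_mono _ (by norm_num) z h6)
  exact ⟨mem_univ _, ⟨f x, h3 (mem_closedBall_self hμ.le), hf.left_inv hx⟩, h3⟩

theorem fitt : FITT := by
  intro Ω S g h Z z r o' ho' H hO hF
  have m2 : ∀ {κ : ℝ} {y : E3}, -2 ≤ κ → y ∈ lbox Z.N κ z → y ∈ lbox Z.N (-2) z :=
    fun hκ hy => lbox_mono _ hκ z hy
  have hC : Ctr Ω h Z z = Ctr Ω g Z z := by
    ext x
    constructor
    · rintro ⟨hx, h1, h2⟩
      have e := H x hx (Or.inr (m2 (by norm_num) (mid_sub z h1)))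
      rw [e] at h1 h2
      exact ⟨hx, h1, h2⟩
    · rintro ⟨hx, h1, h2⟩
      have e := H x hx (Or.inl (m2 (by norm_num) (mid_sub z h1)))
      rw [← e] at h1 h2
      exact ⟨hx, h1, h2⟩
  refine ⟨?_, fun x hx => ?_, hC⟩
  · rintro c ⟨_, ⟨x₀, hx₀, rfl⟩, hb⟩ x hx y hy
    have hb' : Z.T (g x₀) ∈ lbox Z.N (-1) z := by
      rw [← H x₀ (csub S c hx₀) (Or.inr (m2 (by norm_num) hb))]; exact hb
    have k := hO c ⟨_, ⟨x₀, hx₀, rfl⟩, hb'⟩
    have e : ∀ u ∈ S.Q.cell c, h u = g u := fun u hu => H u (csub S c hu)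
      (Or.inl (m2 (by norm_num) (lbox_dist hb' ((k u hu x₀ hx₀).trans ho'))))
    show dist (Z.T (h x)) (Z.T (h y)) ≤ o'
    rw [e x hx, e y hy]
    exact k x hx y hy
  · have hx' : x ∈ Ctr Ω g Z z := hC ▸ hx
    obtain ⟨f1, f2, f3⟩ := hF x hx'
    have ex : h x = g x := H x hx.1 (Or.inl (m2 (by norm_num) (mid_sub z hx'.2.1)))
    refine ⟨f1, fun u hu => ?_, fun u hu hn => ?_⟩
    · rw [H u (f1 hu) (Or.inl (m2 (by norm_num) (interior_subset (f2 u hu))))]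
      exact f2 u hu
    · have h1 := mem_of_nrm Z.N_pos Z.t_pos Z.t_le (Z.β_mem z _).2 hx.2.1 hn
      rw [H u hu (Or.inr (m2 (by norm_num) h1)), ex] at hn
      exact f3 u hu hn

end P073.Zn
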