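import Vale.Agent.P073Y.Zn.Sk
import Vale.Agent.P073Y.Rd.Par
import Vale.Agent.P073Y.Rd.Round

/-!
# A layer of zones with disjoint supports
-/

open Set Metric Topology Filter MeasureTheory
open scoped NNReal ENNReal

namespace P073.Zn

open P073.Top

namespace Ly

variable {Ω Λ : Set E3}

theorem wd_ge {N : ℕ} (hN : 1 ≤ N) (i : Fin 3) : (1 : ℝ) ≤ wd N i := by
  have : (1 : ℝ) ≤ N := by exact_mod_cast hN
  fin_cases i <;> simp [wd, this]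

theorem mid_sub {N : ℕ} (hN : 1 ≤ N) (z : Fin 3 → ℤ) : mid N z ⊆ lbox N 0 z := fun y hy => by
  refine ⟨fun i => ?_, fun i => ?_⟩
  · have h1 := hy.1 i
    have h2 := wd_ge hN i
    simp only at h1 ⊢
    split_ifs at h1 <;> nlinarith
  · have h1 := hy.2 i
    have h2 := wd_ge hN i
    simp only at h1 ⊢
    split_ifs at h1 <;> nlinarith

theorem mem_int {N : ℕ} {z : Fin 3 → ℤ} {y : E3} (h : y ∈ interior (lbox N 0 z)) (i : Fin 3) :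
    z i * wd N i < y i ∧ y i < (z i + 1) * wd N i := by
  rw [lbox, ← pi_univ_Icc, interior_pi_set finite_univ] at h
  simpa using h i (mem_univ i)

theorem int_uniq {N : ℕ} (hN : 1 ≤ N) {z z' : Fin 3 → ℤ} {y : E3}
    (h : y ∈ interior (lbox N 0 z)) (h' : y ∈ interior (lbox N 0 z')) : z = z' := by
  funext i
  have h0 : 0 < wd N i := one_pos.trans_le (wd_ge hN i)
  obtain ⟨a1, a2⟩ := mem_int h i
  obtain ⟨b1, b2⟩ := mem_int h' i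
  have c1 : z i < z' i + 1 := by exact_mod_cast lt_of_mul_lt_mul_right (a1.trans b2) h0.le
  have c2 : z' i < z i + 1 := by exact_mod_cast lt_of_mul_lt_mul_right (b1.trans a2) h0.le
  omega

theorem nrm_add (N : ℕ) (t : ℝ) (a b : E3) : nrm N t (a + b) = nrm N t a + nrm N t b := by
  funext i
  fin_cases i <;> simp [nrm] <;> ring

theorem nrm_le {N : ℕ} (hN : 1 ≤ N) {t : ℝ} (ht : 0 < t) (ht' : t ≤ 1 / 4) (v : E3) :
    ‖nrm N t v‖ ≤ ‖v‖ / t := by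
  have hN' : (1 : ℝ) ≤ N := by exact_mod_cast hN
  have a : ∀ i, |2 * v i / N| ≤ ‖v‖ / t := fun i => by
    have h1 : |v i| ≤ ‖v‖ := norm_le_pi_norm v i
    rw [abs_div, abs_mul, abs_two, Nat.abs_cast, div_le_div_iff₀ (by linarith) ht]
    nlinarith [abs_nonneg (v i)]
  refine (pi_norm_le_iff_of_nonneg (by positivity)).2 fun i => ?_
  fin_cases i
  · exact a 0
  · exact a 1
  · show |v 2 / t| ≤ ‖v‖ / t
    rw [abs_div, abs_of_pos ht]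
    exact div_le_div_of_nonneg_right (norm_le_pi_norm v 2) ht.le

theorem cav_sub {N : ℕ} (hN : 1 ≤ N) {t β : ℝ} (ht : 0 < t) (ht' : t ≤ 1 / 4) (hβ : β ≤ 1 / 4)
    {z : Fin 3 → ℤ} {c y : E3} (hc : c ∈ mid N z) (h : ‖nrm N t (y - c)‖ ≤ β) :
    y ∈ lbox N (-1) z := by
  have hN' : (1 : ℝ) ≤ N := by exact_mod_cast hN
  have a : ∀ i, |nrm N t (y - c) i| ≤ 1 / 4 := fun i => ((norm_le_pi_norm _ i).trans h).trans hβ
  have a0 : |2 * (y 0 - c 0) / N| ≤ 1 / 4 := a 0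
  have a1 : |2 * (y 1 - c 1) / N| ≤ 1 / 4 := a 1
  have a2 : |(y 2 - c 2) / t| ≤ 1 / 4 := a 2
  rw [abs_div, Nat.abs_cast, div_le_iff₀ (by linarith), abs_le] at a0 a1
  rw [abs_div, abs_of_pos ht, div_le_iff₀ ht, abs_le] at a2
  have l0 : ((z 0 : ℝ) + 1 / 4) * N ≤ c 0 := hc.1 0
  have l1 : ((z 1 : ℝ) + 1 / 4) * N ≤ c 1 := hc.1 1
  have l2 : ((z 2 : ℝ) + 1 / 3) * 1 ≤ c 2 := hc.1 2
  have u0 : c 0 ≤ ((z 0 : ℝ) + 3 / 4) * N := hc.2 0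
  have u1 : c 1 ≤ ((z 1 : ℝ) + 3 / 4) * N := hc.2 1
  have u2 : c 2 ≤ ((z 2 : ℝ) + 2 / 3) * 1 := hc.2 2
  refine ⟨fun i => ?_, fun i => ?_⟩
  · fin_cases i
    · show (z 0 : ℝ) * N + -1 ≤ y 0
      linarith [a0.1]
    · show (z 1 : ℝ) * N + -1 ≤ y 1
      linarith [a1.1]
    · show (z 2 : ℝ) * 1 + -1 ≤ y 2
      linarith [a2.1]
  · fin_cases i
    · show y 0 ≤ ((z 0 : ℝ) + 1) * N - -1
      linarith [a0.2]
    · show y 1 ≤ ((z 1 : ℝ) + 1) * N - -1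
      linarith [a1.2]
    · show y 2 ≤ ((z 2 : ℝ) + 1) * 1 - -1
      linarith [a2.2]

theorem cell_sub (S : Src Ω) (c : S.Q.ι) : S.Q.cell c ⊆ Ω :=
  (S.Q.cell_subset_carrier c).trans S.carrier.subset

theorem closed_supp (Z : Zone) : IsClosed Z.supp :=
  ((Rd.Ro.nbr_finite Z.fin).isClosed_biUnion fun _ _ => isClosed_Icc).preimage Z.T.continuous

theorem core_sub (Z : Zone) : Z.core ⊆ Z.supp := preimage_mono
  (biUnion_subset_biUnion_left fun z hz => ⟨z, hz, fun i => by simp⟩)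

theorem hit_mono (S : Src Ω) (g : E3 → E3) {Y Y' : Set E3} (h : Y ⊆ Y') :
    hit S g Y ⊆ hit S g Y' := fun _ hc => hc.mono (inter_subset_inter_right _ h)

theorem dd_congr (S : Src Ω) {p : ℝ} {g h : E3 → E3} {A A' : Set S.Q.ι} {φ : S.Q.ι}
    (e : EqOn g h (S.Q.cell φ)) (hA : φ ∈ A ↔ φ ∈ A') : dd S p g A φ = dd S p h A' φ := by
  have e1 : S.A g φ = S.A h φ := tsum_congr fun w => by
    split_ifs with hw
    · exact Rd.Ro.lipc_congr (e.mono hw.2)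
    · rfl
  rw [dd, dd, Src.W, Src.W, e1]
  by_cases h1 : φ ∈ A
  · rw [indicator_of_mem h1, indicator_of_mem (hA.1 h1), Rd.Ro.E_congr S e]
  · rw [indicator_of_notMem h1, indicator_of_notMem fun h2 => h1 (hA.2 h2)]

theorem tot_le {ι I : Type} {A A₀ : Set ι} {B : I → Set ι} {F F₀ : ι → ℝ≥0∞} {G : I → ι → ℝ≥0∞}
    (h : ∀ φ ∈ A, (φ ∈ A₀ ∧ F φ = F₀ φ) ∨ ∃ i, φ ∈ B i ∧ F φ = G i φ) :
    tot A F ≤ tot A₀ F₀ + ∑' i, tot (B i) (G i) := by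
  simp only [tot]
  rw [ENNReal.tsum_comm, ← ENNReal.tsum_add]
  refine ENNReal.tsum_le_tsum fun φ => ?_
  by_cases hφ : φ ∈ A
  · rw [indicator_of_mem hφ]
    rcases h φ hφ with ⟨h1, h2⟩ | ⟨i, h1, h2⟩
    · rw [indicator_of_mem h1, h2]
      exact le_self_add
    · refine le_add_left (le_trans (le_of_eq ?_) (ENNReal.le_tsum i))
      rw [indicator_of_mem h1, h2]
  · rw [indicator_of_notMem hφ]
    exact zero_le

theorem Geo.congr {N : ℕ} {B : Set (Fin 3 → ℤ)} {C : ℝ≥0} {δ β₀ : ℝ} {X X' : Set E3}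
    {g h h' : E3 → E3} (H : Geo N B C δ β₀ X g h) (hX : X' ⊆ X) (e : ∀ x ∈ X', h' x = h x) :
    Geo N B C δ β₀ X' g h' :=
  ⟨fun x hx h1 => (e x hx).trans (H.off x (hX hx) h1),
    fun x hx z h1 => (e x hx).symm ▸ H.keep x (hX hx) z h1,
    fun x hx y hy => by rw [e x hx, e y hy]; exact H.fwd x (hX hx) y (hX hy),
    fun x hx y hy z h1 h2 => by
      rw [e x hx] at h1 ⊢
      rw [e y hy] at h2 ⊢
      exact H.inv x (hX hx) y (hX hy) z h1 h2⟩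

/-- a cell whose image meets a cavity lies in the half ball -/
theorem junk_of {k : Cst} {S : Src Ω} {Z : ZD} {δ r : ℝ} {g : E3 → E3} {z : Fin 3 → ℤ} {x : E3}
    {φ : S.Q.ι} (hδ' : δ ≤ 1 / 100)
    (ho : GO S (Z.T ∘ g) Z.N Z.t Z.X (Z.β z) (Z.o k δ) z) (hf : Fit Ω g Z r z)
    (hx : x ∈ Ctr Ω g Z z) {u₀ : E3} (hu₀ : u₀ ∈ S.Q.cell φ)
    (h : ‖nrm Z.N Z.t (Z.T (g u₀) - Z.T (g x))‖ ≤ Z.β z (Z.T (g x))) :
    S.Q.cell φ ⊆ ball x (r / 2) := by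
  intro u hu
  set β := Z.β z (Z.T (g x)) with hβ₀
  have hβ : 0 < β := Z.β₀_pos.trans_le (Z.β_mem z _).1
  have ht := Z.t_pos
  have h1 : dist (Z.T (g u₀)) (Z.T (g u)) ≤
      Z.o k δ * max ‖nrm Z.N Z.t (Z.T (g u₀) - Z.T (g x))‖ β := ho _ hx.2 φ ⟨_, ⟨u₀, hu₀, rfl⟩,
    cav_sub Z.N_pos ht Z.t_le (Z.β_mem z _).2 hx.2.1 h⟩ u₀ hu₀ u hu
  rw [max_eq_right h, dist_comm] at h1
  have h2 : Z.o k δ ≤ Z.t := by
    rw [ZD.o, div_le_iff₀ (by positivity)]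
    have := (k.K Z.θ Z.ϑ Z.N Z.t).2
    nlinarith [mul_nonneg ht.le this]
  have h3 : ‖nrm Z.N Z.t (Z.T (g u) - Z.T (g u₀))‖ ≤ β := by
    refine (nrm_le Z.N_pos ht Z.t_le _).trans ?_
    rw [div_le_iff₀ ht, ← dist_eq_norm, mul_comm]
    exact h1.trans (mul_le_mul_of_nonneg_right h2 hβ.le)
  refine (hf x hx).2.2 u (cell_sub S φ hu) ?_
  rw [← sub_add_sub_cancel _ (Z.T (g u₀)), nrm_add]
  linarith [norm_add_le (nrm Z.N Z.t (Z.T (g u) - Z.T (g u₀)))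
    (nrm Z.N Z.t (Z.T (g u₀) - Z.T (g x)))]

end Ly

open Ly

theorem layer_of {p : ℝ} (_hp : 0 < p) {k : Cst} (hZ : ZA p k) (hN : NCONG p) : LAYER p k := by
  intro Ω Λ S g I Z δ r M₀ w El Ct Nr ν n η 𝓢 ψ a ι _ m hΩ hΛ R H1 H2
  choose h c kk G1 G2 G3 G4 using fun i => hZ S g (Z i) (δ i) M₀ w El Ct (Nr i) (ν i) (n i) (η i)
    (𝓢 i) (ψ i) (a i) (m i) hΩ hΛ (R.δ_mem i).1 (R.δ_mem i).2 (H1 i).1 (R.sub i) (R.osc i)
    (H1 i).2.1 (H1 i).2.2.2.2 fun φ hφ => ⟨(H2 φ hφ).1, (H2 φ hφ).2.1 i, (H2 φ hφ).2.2⟩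
  have hd : ∀ i j, i ≠ j → Disjoint (Z i).supp (Z j).supp := fun i j hij =>
    disjoint_left.2 fun y h1 h2 => by
      have hy := R.sub i h1
      obtain ⟨φ, hφ⟩ := mem_iUnion.1 (S.carrier.symm.subset (g.mapsTo_inv hy))
      exact disjoint_left.1 (R.one i j hij) ⟨y, ⟨_, hφ, g.right_inv hy⟩, h1⟩
        ⟨y, ⟨_, hφ, g.right_inv hy⟩, h2⟩
  have he : ∀ i, ∀ x ∈ Ω, g.toFun x ∉ (Z i).supp → (h i).toFun x = g.toFun x := fun i x hx h1 =>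
    (Z i).T.injective ((G1 i).off x hx fun h2 => h1 (mem_preimage.2 (interior_subset h2)))
  obtain ⟨H, H0, Hi⟩ := Rd.par g h (fun i => (Z i).supp)
    (fun i y _ hy => (closed_supp (Z i).toZone).closure_subset hy) R.lf hd he
  have on : ∀ i, ∀ φ ∈ hit S g.toFun (Z i).supp, EqOn H.toFun (h i).toFun (S.Q.cell φ) :=
    fun i φ hφ u hu => Hi i u (cell_sub S φ hu) fun j hj h1 =>
      disjoint_left.1 (R.one i j hj.symm) hφ ⟨_, ⟨u, hu, rfl⟩, h1⟩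
  obtain ⟨x, hx⟩ : ∃ x : Idx Z → E3,
    ∀ b, x b = g.invFun ((Z b.1.1).T.symm (c b.1.1 b.1.2)) := ⟨_, fun _ => rfl⟩
  have x0 : ∀ b : Idx Z, (Z b.1.1).T.symm (c b.1.1 b.1.2) ∈ Λ := fun b => R.sub b.1.1 (by
    refine mem_preimage.2 (mem_biUnion b.2 ?_)
    rw [ContinuousAffineEquiv.apply_symm_apply]
    exact mid_sub (Z b.1.1).N_pos _ (G2 b.1.1 b.1.2 b.2).1)
  have x1 : ∀ b : Idx Z, (Z b.1.1).T (g.toFun (x b)) = c b.1.1 b.1.2 := fun b => by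
    rw [hx, g.right_inv (x0 b), ContinuousAffineEquiv.apply_symm_apply]
  have x2 : ∀ b : Idx Z, x b ∈ Ctr Ω g.toFun (Z b.1.1) b.1.2 := fun b =>
    ⟨by rw [hx]; exact g.mapsTo_inv (x0 b), by rw [x1 b]; exact G2 b.1.1 b.1.2 b.2⟩
  have x3 : ∀ b : Idx Z, ∀ u ∈ closedBall (x b) (r b.1.1 b.1.2),
      (Z b.1.1).T (g.toFun u) ∈ interior (lbox (Z b.1.1).N 0 b.1.2) := fun b =>
    (R.fit b.1.1 b.1.2 b.2 _ (x2 b)).2.1
  have x4 : ∀ b : Idx Z, ∀ u ∈ closedBall (x b) (r b.1.1 b.1.2), g.toFun u ∈ (Z b.1.1).supp :=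
    fun b u hu => mem_preimage.2 (mem_biUnion b.2 (interior_subset (x3 b u hu)))
  have jk : ∀ i, ∀ φ ∈ hit S g.toFun ((Z i).cav (c i)),
      (S.Q.cell φ).Nonempty ∧ ∃ (z : Fin 3 → ℤ) (hz : z ∈ nbr 1 (Z i).B),
        S.Q.cell φ ⊆ ball (x ⟨(i, z), hz⟩) (r i z / 2) := by
    rintro i φ ⟨_, ⟨u₀, hu₀, rfl⟩, z, hz, h1⟩
    refine ⟨⟨u₀, hu₀⟩, z, hz, junk_of (R.δ_mem i).2 (R.osc i z hz) (R.fit i z hz)
      (x2 ⟨(i, z), hz⟩) hu₀ ?_⟩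
    rw [x1 ⟨(i, z), hz⟩]
    exact h1
  refine ⟨H, x, ⟨H0, fun i u hu => ?_, fun i => ?_⟩, x2, fun b b' hb => ?_, fun u hu => ?_,
    fun i => ⟨c i, kk i, ?_⟩, ?_⟩
  · by_cases h1 : ∃ j, g.toFun u ∈ (Z j).supp
    · obtain ⟨j, hj⟩ := h1
      have h2 : H.toFun u ∈ (Z j).supp := by
        rw [Hi j u hu fun l hl h3 => disjoint_left.1 (hd l j hl) h3 hj]
        exact (Rd.mem_iff g (h j) (he j) hu).2 hj
      by_cases hij : i = j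
      · subst hij
        exact iff_of_true h2 hj
      · exact iff_of_false (fun h3 => disjoint_left.1 (hd i j hij) h3 h2)
          fun h3 => disjoint_left.1 (hd i j hij) h3 hj
    · rw [H0 u hu fun j hj => h1 ⟨j, hj⟩]
  · exact Geo.congr (G1 i) (sep_subset _ _) fun u hu => congrArg (Z i).T (Hi i u hu.1 hu.2)
  · refine disjoint_left.2 fun u h1 h2 => hb ?_
    obtain ⟨⟨i, z⟩, hz⟩ := b
    obtain ⟨⟨i', z'⟩, hz'⟩ := b'
    obtain rfl : i = i' := by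
      by_contra hi
      exact disjoint_left.1 (hd i i' hi) (x4 ⟨(i, z), hz⟩ u h1) (x4 ⟨(i', z'), hz'⟩ u h2)
    obtain rfl : z = z' := int_uniq (Z i).N_pos (x3 ⟨(i, z), hz⟩ u h1) (x3 ⟨(i, z'), hz'⟩ u h2)
    rfl
  · obtain ⟨U, hU, hF⟩ := R.lf _ (g.mapsTo hu)
    refine ⟨g.toFun ⁻¹' U, (g.cont.continuousAt (hΩ.mem_nhds hu)).preimage_mem_nhds hU, ?_⟩
    refine ((hF.biUnion fun i _ => (finite_singleton i).prod
      (Rd.Ro.nbr_finite (Z i).fin)).preimage Subtype.val_injective.injOn).subset ?_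
    rintro b ⟨v, h1, h2⟩
    exact mem_biUnion (x := b.1.1) ⟨_, x4 b v h1, h2⟩ ⟨rfl, b.2⟩
  · refine hN (G3 i) (fun φ hφ => ((H1 i).2.2.2.2 φ hφ).cell) (fun φ hφ => ⟨hφ, fun h1 => ?_⟩)
      (fun φ hφ => ?_) le_rfl le_rfl le_rfl
    · obtain ⟨⟨u, hu⟩, z, hz, h2⟩ := jk i φ h1
      have h3 := mem_ball.1 (h2 hu)
      exact disjoint_left.1 ((H1 i).2.2.2.1 φ hφ z hz _ (x2 ⟨(i, z), hz⟩)) hu
        (mem_closedBall.2 (by linarith [dist_nonneg (x := u) (y := x ⟨(i, z), hz⟩)]))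
    · rintro _ ⟨u, hu, rfl⟩
      show (Z i).T (H.toFun ((ν i).symm (ν i u))) = (Z i).T ((h i).toFun ((ν i).symm (ν i u)))
      rw [ContinuousAffineEquiv.symm_apply_apply, on i φ ((H1 i).2.2.1 hφ) hu]
  · refine (tot_le (A₀ := El \ ⋃ i, hit S g.toFun (Z i).supp)
      (F₀ := fun φ => w φ * dd S p g.toFun Ct φ)
      (B := fun i => (El ∩ hit S g.toFun (Z i).supp) \ hit S g.toFun ((Z i).cav (c i)))
      (G := fun i φ => w φ * dd S p (h i).toFun (Ct ∪ hit S g.toFun (Z i).core) φ)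
      fun φ hφ => ?_).trans (add_le_add le_rfl (ENNReal.tsum_le_tsum G4))
    have cs := fun j => hit_mono S g.toFun (core_sub (Z j).toZone)
    by_cases h1 : ∃ i, φ ∈ hit S g.toFun (Z i).supp
    · obtain ⟨i, hi⟩ := h1
      refine Or.inr ⟨i, ⟨⟨hφ.1, hi⟩, fun h2 => ?_⟩, ?_⟩
      · obtain ⟨-, z, hz, h3⟩ := jk i φ h2
        exact hφ.2 ⟨⟨(i, z), hz⟩, h3⟩
      · refine congrArg (w φ * ·) (dd_congr S (on i φ hi)
          (or_congr_right ⟨fun h2 => ?_, fun h2 => mem_iUnion.2 ⟨i, h2⟩⟩))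
        obtain ⟨j, hj⟩ := mem_iUnion.1 h2
        by_cases hij : i = j
        · exact hij ▸ hj
        · exact absurd (cs j hj) (disjoint_left.1 (R.one i j hij) hi)
    · refine Or.inl ⟨⟨hφ.1, fun h2 => h1 (mem_iUnion.1 h2)⟩, ?_⟩
      refine congrArg (w φ * ·) (dd_congr S (fun u hu => H0 u (cell_sub S φ hu)
        fun j hj => h1 ⟨j, _, ⟨u, hu, rfl⟩, hj⟩) ⟨fun h2 => h2.resolve_right fun h3 => ?_, Or.inl⟩)
      obtain ⟨j, hj⟩ := mem_iUnion.1 h3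
      exact h1 ⟨j, cs j hj⟩

end P073.Zn
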