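import Vale.Agent.P073Y.Zn.Pl
import Vale.Agent.P073Y.Zn.Bas

/-!
# The moduli after a layer
-/

open Set Metric Topology Filter MeasureTheory
open scoped NNReal ENNReal

namespace P073.Zn

open P073.Top

namespace Modl

theorem exists_bound {ι : Type} {s : Set ι} (hs : s.Finite) (f : ι → ℝ) :
    ∃ M : ℝ, 1 ≤ M ∧ ∀ i ∈ s, f i ≤ M := by
  obtain ⟨M, hM⟩ := (hs.image f).bddAbove
  exact ⟨max 1 M, le_max_left _ _, fun i hi => (hM ⟨i, hi, rfl⟩).trans (le_max_right _ _)⟩

/-- the planes of the lattice -/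
def pln (N : ℕ) : Set E3 := ⋃ c, {y | y c / wd N c ∈ range ((↑) : ℤ → ℝ)}

theorem pln_closed (N : ℕ) : IsClosed (pln N) := isClosed_iUnion_of_finite fun c =>
  Int.isClosedEmbedding_coe_real.isClosed_range.preimage ((continuous_apply c).div_const _)

theorem pln_null {N : ℕ} (hN : 1 ≤ N) (T : E3 ≃ᴬ[ℝ] E3) : volume (T ⁻¹' pln N) = 0 := by
  have h1 : volume (pln N) = 0 := by
    refine measure_iUnion_null fun c => measure_mono_null (fun y hy => ?_)
      (measure_iUnion_null fun j : ℤ => Measure.pi_hyperplane (fun _ => volume) c (j * wd N c))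
    obtain ⟨j, hj⟩ := hy
    exact mem_iUnion.2 ⟨j, ((eq_div_iff (one_pos.trans_le (one_le_wd hN c)).ne').1 hj).symm⟩
  have h2 : T ⁻¹' pln N = T.symm '' pln N := by
    ext y
    exact ⟨fun h => ⟨_, h, T.symm_apply_apply y⟩, by
      rintro ⟨u, h, rfl⟩
      rwa [mem_preimage, T.apply_symm_apply]⟩
  rw [h2]
  exact addHaar_image_eq_zero_of_differentiableOn_of_addHaar_eq_zero volume
    ((T.symm.toContinuousAffineMap.contDiff (n := 1)).differentiable one_ne_zero).differentiableOn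
    h1

theorem supp_cpt (Z : Zone) : IsCompact Z.supp :=
  Z.T.toHomeomorph.isCompact_preimage.2
    ((nbr_finite Z.fin 1).isCompact_biUnion fun z _ => isCompact_lbox _ _ z)

theorem marg_of {Z : Zone} {y y' : E3} (h : y ∈ Z.supp) (hd : dist (Z.T y') (Z.T y) ≤ 1) :
    y' ∈ Z.marg 1 := by
  obtain ⟨z, h1, h2⟩ := mem_iUnion₂.1 h
  exact mem_iUnion₂.2 ⟨z, h1, by simpa using lbox_dist h2 hd⟩

/-- a ball which misses the planes lies in one box -/
theorem inside {N : ℕ} (hN : 1 ≤ N) (T : E3 ≃ᴬ[ℝ] E3) {b : ℝ≥0} (hb : LipschitzWith b T.symm)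
    {x w₀ w : E3} {d κ : ℝ} {z : Fin 3 → ℤ} (h : ∀ u ∈ ball x d, T u ∉ pln N) (h0 : w₀ ∈ ball x d)
    (hz : T w₀ ∈ lbox N 0 z) (hκ : 0 ≤ κ) (hd : b * κ < d / 2) (hw : dist w x ≤ d / 2) :
    T w ∈ lbox N κ z := by
  refine mem_lbox.2 fun c => ?_
  have h1 := mem_lbox.1 hz c
  have h2 : ∀ t : ℝ, |t| ≤ κ → ∀ j : ℤ, j * wd N c ∉ uIcc (T w c + t) (T w₀ c) := by
    intro t ht j hj
    have a1 : T.symm (T w + Pi.single c t) ∈ ball x d := by
      have a2 := hb.dist_le_mul (T w + Pi.single c t) (T w)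
      rw [T.symm_apply_apply, dist_self_add_left, Pi.norm_single, Real.norm_eq_abs] at a2
      have a3 := mul_le_mul_of_nonneg_left ht b.coe_nonneg
      have a4 := dist_triangle (T.symm (T w + Pi.single c t)) w x
      exact mem_ball.2 (by linarith)
    have a5 : ContinuousOn (fun u => T u c) (ball x d) :=
      ((continuous_apply c).comp T.continuous).continuousOn
    have a6 := ((convex_ball x d).isPreconnected.image _ a5).ordConnected.uIcc_subset
      ⟨_, a1, rfl⟩ ⟨_, h0, rfl⟩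
    simp only [T.apply_symm_apply, Pi.add_apply, Pi.single_eq_same] at a6
    obtain ⟨u, hu, e⟩ := a6 hj
    exact h u hu (mem_iUnion.2 ⟨c, j,
      (eq_div_iff (one_pos.trans_le (one_le_wd hN c)).ne').2 e.symm⟩)
  constructor
  · by_contra hn
    exact h2 (-κ) (by rw [abs_neg, abs_of_nonneg hκ]) (z c)
      (mem_uIcc_of_le (by linarith) (by linarith))
  · by_contra hn
    refine h2 κ (abs_of_nonneg hκ).le (z c + 1) (mem_uIcc_of_ge ?_ ?_) <;> push_cast <;> linarith

end Modl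

open Modl in
theorem modl : MODL := by
  intro k Λ I Z R R' γ' hlf hsub hdis hR hlf'
  choose a b ha hb _ using fun i => (Z i).cond
  have hI : ∀ n, {i | ((Z i).supp ∩ R' n).Nonempty}.Finite := fun n =>
    hlf.finite_meet (hR n).2.2.1 (hR n).2.2.2
  choose M M1 hM using fun n => exists_bound (hI n) fun i => a i
  choose L L1 hL using fun n => exists_bound (hI n) fun i =>
    max (b i * ((Z i).ci k / (Z i).β₀) * a i) (max (b i * (Z i).ci k * a i) (b i * (Z i).ci k))
  have hγ : ∀ n, 0 < min (γ' n) (M n)⁻¹ := fun n =>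
    lt_min (hR n).1 (inv_pos.2 (one_pos.trans_le (M1 n)))
  refine ⟨fun n => min (γ' n) (M n)⁻¹, L, fun n => R' n ∩
    ⋃ i ∈ {i | ((Z i).supp ∩ R' n).Nonempty}, (Z i).T ⁻¹' pln (Z i).N, fun n => ⟨hγ n, L1 n,
      (hR n).2.2.1.inter_right ((hI n).isClosed_biUnion fun i _ =>
        (pln_closed _).preimage (Z i).T.continuous), measure_mono_null inter_subset_right
      ((measure_biUnion_null_iff (hI n).countable).2 fun i _ => pln_null (Z i).N_pos _)⟩,
    fun ξ hξ => ?_⟩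
  choose D D1 hD using fun i => exists_bound (hlf'.finite_meet (supp_cpt (Z i).toZone) (hsub i))
    fun n => (5 * b i + 2) / ξ n
  refine ⟨fun i => (D i)⁻¹, fun i => inv_pos.2 (one_pos.trans_le (D1 i)), ?_⟩
  intro δ hδ Ω g h hl n
  have h0 := hξ n
  have h1 : ∀ i, ((Z i).supp ∩ R' n).Nonempty → (5 * b i + 2) * δ i ≤ ξ n := fun i hi => by
    have a1 := (div_le_iff₀ h0).1 (hD i n (hi.mono (inter_comm _ _).le))
    have a2 : δ i ≤ (D i)⁻¹ := (hδ i).2
    rw [← one_div, le_div_iff₀ (one_pos.trans_le (D1 i))] at a2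
    nlinarith [(hδ i).1]
  have h2 : ∀ x ∈ R n, ∀ y, dist y x ≤ min (γ' n) (M n)⁻¹ → y ∈ R' n := fun x hx y hy =>
    (hR n).2.1 (mem_cthickening_of_dist_le y x _ _ hx (hy.trans (min_le_left _ _)))
  have h3 : ∀ i y, y ∈ (Z i).marg 1 → ∀ j, j ≠ i → y ∉ (Z j).supp := fun i y hy j hj =>
    disjoint_left.1 (hdis i j hj.symm) hy
  have h4 : ∀ i y, y ∈ (Z i).supp → ∀ j, j ≠ i → y ∉ (Z j).supp := fun i y hy =>
    h3 i y (marg_of hy (by simp))
  have h5 : ∀ i y y', dist y y' ≤ b i * dist ((Z i).T y) ((Z i).T y') := fun i y y' => by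
    simpa using (hb i).dist_le_mul ((Z i).T y) ((Z i).T y')
  constructor
  · intro x hx y hy hxR hd
    have key : ∀ i, ((Z i).supp ∩ R' n).Nonempty → (∀ j, j ≠ i → g x ∉ (Z j).supp) →
        (∀ j, j ≠ i → g y ∉ (Z j).supp) →
        dist (h y) (h x) ≤ L n * dist (g y) (g x) + ξ n := fun i hi a1 a2 => by
      have a3 := (hl.geo i).fwd y ⟨hy, a2⟩ x ⟨hx, a1⟩
      have a4 := mul_le_mul_of_nonneg_left ((ha i).dist_le_mul (g y) (g x))
        (div_nonneg ((Z i).ci k).2 (Z i).β₀_pos.le)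
      have a5 := mul_le_mul_of_nonneg_right ((le_max_left _ _).trans (hL n i hi))
        (dist_nonneg (x := g y) (y := g x))
      have a6 := mul_le_mul_of_nonneg_left (a3.trans (add_le_add_left a4 _)) (b i).coe_nonneg
      have a7 := h1 i hi
      have a8 := mul_nonneg (b i).coe_nonneg (hδ i).1.le
      have a9 := h5 i (h y) (h x)
      simp only [Function.comp, NNReal.val_eq_coe] at a6
      linarith [(hδ i).1]
    by_cases hc : ∃ i, g x ∈ (Z i).supp
    · obtain ⟨i, hi⟩ := hc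
      have a1 : ((Z i).supp ∩ R' n).Nonempty :=
        ⟨h x, (hl.mem i x hx).2 hi, h2 _ hxR _ (by simpa using (hγ n).le)⟩
      refine key i a1 (h4 i _ hi) (h3 i _ (marg_of hi (((ha i).dist_le_mul _ _).trans ?_)))
      have a2 := mul_le_mul (hM n i a1) (hd.trans (min_le_right _ _)) dist_nonneg
        (zero_le_one.trans (M1 n))
      rwa [mul_inv_cancel₀ (one_pos.trans_le (M1 n)).ne'] at a2
    push Not at hc
    have e := hl.off x hx hc
    by_cases hc' : ∃ i, g y ∈ (Z i).supp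
    · obtain ⟨i, hi⟩ := hc'
      exact key i ⟨g y, hi, h2 _ (e ▸ hxR) _ hd⟩ (fun j _ => hc j) (h4 i _ hi)
    push Not at hc'
    rw [e, hl.off y hy hc']
    nlinarith [L1 n, dist_nonneg (x := g y) (y := g x)]
  intro d d1 d2 x hx y hy hxR hP hd
  have key : ∀ i, ∀ w ∈ ball (h x) d, w ∈ (Z i).supp →
      dist (g y) (g x) ≤ L n * (dist (h y) (h x) + ξ n) := fun i w hw hi => by
    have a0 : ∀ u ∈ ball (h x) d, u ∈ R' n := fun u hu => h2 _ hxR _ ((mem_ball.1 hu).le.trans d2)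
    have a1 : ((Z i).supp ∩ R' n).Nonempty := ⟨w, hi, a0 w hw⟩
    obtain ⟨z, z1, z2⟩ := mem_iUnion₂.1 hi
    have a2 := h1 i a1
    have a3 := mul_nonneg (b i).coe_nonneg (hδ i).1.le
    have a4 : ∀ u, dist u (h x) ≤ d / 2 → (Z i).T u ∈ lbox (Z i).N (2 * δ i) z := fun u hu =>
      inside (Z i).N_pos (Z i).T (hb i) (fun v hv hp => hP (mem_thickening_iff.2
        ⟨v, ⟨a0 v hv, mem_biUnion a1 hp⟩, mem_ball'.1 hv⟩)) hw z2 (by linarith [(hδ i).1])
        (by linarith [(hδ i).1]) hu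
    have a5 : ∀ u ∈ Ω, dist (h u) (h x) ≤ d / 2 → ∀ j, j ≠ i → g u ∉ (Z j).supp := fun u hu hd =>
      h4 i _ ((hl.mem i u hu).1 (mem_iUnion₂.2
        ⟨z, z1, lbox_mono _ (by linarith [(hδ i).1]) z (a4 _ hd)⟩))
    have a6 : dist (h x) (h x) ≤ d / 2 := by rw [dist_self]; linarith
    have a7 := (hl.geo i).inv y ⟨hy, a5 y hy hd⟩ x ⟨hx, a5 x hx a6⟩ z (a4 _ hd) (a4 _ a6)
    have a8 : dist ((Z i).T (h y)) ((Z i).T (h x)) + 2 * δ i ≤ a i * dist (h y) (h x) + ξ n :=
      add_le_add ((ha i).dist_le_mul _ _) (by linarith)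
    have a9 := mul_le_mul_of_nonneg_left (a7.trans
      (mul_le_mul_of_nonneg_left a8 ((Z i).ci k).coe_nonneg)) (b i).coe_nonneg
    have b1 := mul_le_mul_of_nonneg_right ((le_max_left _ _).trans
      ((le_max_right _ _).trans (hL n i a1))) (dist_nonneg (x := h y) (y := h x))
    have b2 := mul_le_mul_of_nonneg_right ((le_max_right _ _).trans
      ((le_max_right _ _).trans (hL n i a1))) h0.le
    have b3 := h5 i (g y) (g x)
    simp only [Function.comp] at a9
    linarith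
  by_cases hc : ∃ i, h x ∈ (Z i).supp
  · obtain ⟨i, hi⟩ := hc
    exact key i _ (mem_ball_self (by linarith)) hi
  by_cases hc' : ∃ i, h y ∈ (Z i).supp
  · obtain ⟨i, hi⟩ := hc'
    exact key i _ (mem_ball.2 (by linarith)) hi
  push Not at hc hc'
  rw [hl.off x hx fun i hi => hc i ((hl.mem i x hx).2 hi),
    hl.off y hy fun i hi => hc' i ((hl.mem i y hy).2 hi)]
  nlinarith [L1 n, dist_nonneg (x := g y) (y := g x)]

end P073.Zn
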