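import Vale.Agent.P073Y.Zn.Bas
import Vale.Agent.P073Y.Ms.Tool

/-!
# Zones: locality of the near estimates; charts in normalised coordinates
-/

open Set Metric Topology Filter MeasureTheory
open scoped NNReal ENNReal

namespace P073.Zn

open P073.Top

theorem cor_mem (i : Fin 2) {s t : ℝ} (hs : |s| ≤ 1) (ht : |t| ≤ 1) :
    cor i s t ∈ closedBall (0 : E2) 1 := by
  refine mem_closedBall_zero_iff.2 ((pi_norm_le_iff_of_nonneg zero_le_one).2 fun k => ?_)
  simp only [cor, Real.norm_eq_abs]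
  split_ifs
  · exact hs
  · exact ht

theorem ncong {p : ℝ} (_hp : 0 < p) : NCONG p := by
  intro Ω c₀ θ ϑ e e' C C' CM S N t B g h h' Nr Nr' η η' 𝓢 ψ a ι _ m c k H hψ hN he hee hC hη
  have hC' : (C : ℝ≥0∞) ≤ C' := by exact_mod_cast hC
  refine ⟨H.cen, fun φ hφ w h1 h2 => ?_, fun φ hφ h1 => ?_, fun φ hφ h1 h2 => ?_, H.one_le,
    fun φ hφ => (H.k_le φ hφ).trans hC', fun i => (H.sum i).trans (by gcongr),
    fun z hz φ hφ x hx h1 i hi => ?_, fun z hz w hw x y h1 h2 h3 => ?_,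
    fun z hz φ hφ h1 h2 => ?_⟩
  · rw [lipc_congr ((he φ hφ).mono h2)]
    exact (H.wire φ (hN hφ) w h1 h2).trans (by gcongr)
  · rw [E_congr (he φ hφ)]
    exact (H.face φ (hN hφ) h1).trans (by gcongr)
  · rw [E_congr (he φ hφ)]
    exact (H.deep φ (hN hφ) h1 h2).trans (by gcongr)
  · rw [he φ hφ hx]
    exact (H.lat z hz φ (hN hφ) x hx h1 i hi).trans hee
  · obtain ⟨k1, k2⟩ := H.shE z hz w (hN hw) x y h1 h2 h3
    have e1 := he w hw
    rw [h2] at e1
    refine ⟨fun u hu v hv => ?_, ?_⟩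
    · rw [e1 hu, e1 hv]
      exact (k1 u hu v hv).trans (by gcongr)
    · unfold Rise at k2 ⊢
      rw [e1 (left_mem_segment ℝ x y), e1 (right_mem_segment ℝ x y)]
      exact k2.trans (by gcongr)
  · have e1 : ∀ v ∈ closedBall (0 : E2) 1, h' (ψ φ v) = h (ψ φ v) := fun v hv =>
      he φ hφ.1 (by rw [hψ φ hφ.2]; exact mem_image_of_mem _ hv)
    have k1 := H.shF z hz φ ⟨hN hφ.1, hφ.2⟩ h1 fun i s hs => by
      have hs' : |s| ≤ 1 := by rcases hs with rfl | rfl <;> simp
      rw [← e1 _ (cor_mem i (by simp) hs'), ← e1 _ (cor_mem i (by simp) hs')]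
      exact h2 i s hs
    rw [EN.en_congr (h' := fun v : E2 => h (ψ φ v) - a φ • (![v 0, v 1, 0] : E3))
      measurableSet_closedBall fun v hv => by simp only [e1 v hv]]
    exact k1.trans (by gcongr)

theorem one_le_cond {ν : E3 ≃ᴬ[ℝ] E3} {a b : ℝ≥0} (ha : LipschitzWith a ν)
    (hb : LipschitzWith b ν.symm) : 1 ≤ a * b := by
  have h1 := (hb.comp ha).dist_le_mul 0 1
  have h2 : dist (0 : E3) 1 = 1 := by simp
  simp only [Function.comp, ContinuousAffineEquiv.symm_apply_apply, h2, mul_one] at h1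
  rw [mul_comm]
  exact_mod_cast h1

theorem nrm_ok : NRM := by
  intro Ω S ν A r M a b L ha hb hL H
  classical
  have h1 := one_le_cond ha hb
  have h2 : 1 ≤ L := h1.trans hL
  have h3 : 0 < a := pos_iff_ne_zero.2 fun h => by simp [h] at h1
  refine ⟨⟨fun c => if c ∈ A then r c else a * S.r c, fun c => if c ∈ A then M c else S.M c * L,
    fun c => ?_, fun c => ?_, fun c hc => ?_⟩, fun c hc => ⟨if_pos hc, if_pos hc⟩,
    fun c hc => ⟨if_neg hc, if_neg hc⟩⟩
  · split_ifs with h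
    · exact (H c h).1
    · exact mul_pos h3 (S.r_pos c)
  · split_ifs with h
    · exact (H c h).2.1
    · exact one_le_mul (S.M_ge c) h2
  · split_ifs with h
    · exact (H c h).2.2 hc
    · have hr := S.r_pos c
      refine M2.chart_mono (M2.chart_push ν (S.chart c hc) ha hb) ?_ ?_
      · rw [le_div_iff₀ (mul_pos h3 hr)]
        calc S.M c / S.r c * b * (a * S.r c) = S.M c * (a * b) := by field_simp
          _ ≤ _ := by gcongr
      · calc a * (S.M c * S.r c) = S.M c * 1 * (a * S.r c) := by ring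
          _ ≤ _ := by gcongr

end P073.Zn
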