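import Vale.Agent.P073Y.Zn.Pl
import Vale.Agent.P073Y.Zn.Bas

/-!
# The plan from its stages
-/

open Set Metric Topology Filter MeasureTheory
open scoped NNReal ENNReal

namespace P073.Zn

open P073.Top

theorem Zone.supp_marg (Z : Zone) {a : ℝ} (ha : 0 ≤ a) : Z.supp ⊆ Z.marg a := fun _ hy => by
  obtain ⟨z, hz, h⟩ := mem_iUnion₂.1 hy
  exact mem_biUnion hz (lbox_mono _ (by linarith) z h)

theorem Zone.mem_supp (Z : Zone) {z : Fin 3 → ℤ} (hz : z ∈ nbr 1 Z.B) {y : E3}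
    (h : Z.T y ∈ interior (lbox Z.N 0 z)) : y ∈ Z.supp := mem_biUnion hz (interior_subset h)

/-- a cell which hits the support has its image in the margin -/
theorem hit_marg {Ω : Set E3} {S : Src Ω} {g : E3 → E3} (Z : Zone)
    (h : ∀ z ∈ nbr 1 Z.B, S.Osc (Z.T ∘ g) (lbox Z.N (-1) z) 1) {c : S.Q.ι}
    (hc : c ∈ hit S g Z.supp) : ∀ x ∈ S.Q.cell c, g x ∈ Z.marg 2 := fun x hx => by
  obtain ⟨u, hu, hy⟩ := mem_hit.1 hc
  obtain ⟨z, hz, h1⟩ := mem_iUnion₂.1 hy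
  have h2 := h z hz c ⟨_, ⟨u, hu, rfl⟩, lbox_mono _ (by norm_num) z h1⟩ x hx u hu
  exact mem_biUnion hz (lbox_mono _ (by norm_num) z (lbox_dist h1 h2))

theorem cubes_mono (P : Set E3) {r r' : ℝ} (h : r ≤ r') : cubes P r ⊆ cubes P r' :=
  iUnion₂_mono fun _ _ => closedBall_subset_closedBall h

theorem bx_mono (l : ℝ) {A A' : Set E3} (h : A ⊆ A') : bx l A ⊆ bx l A' :=
  fun _ ⟨y, h1, h2⟩ => ⟨y, h h1, h2⟩

theorem kap_pos (k : Cst) {b θ : ℝ} (hb : 1 ≤ b) (hθ : 0 < θ) : 0 < kap k b θ := by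
  have : 0 < b := by linarith
  unfold kap
  positivity

theorem plan_of (h1 : ST1) (h2 : ST2) (h3 : ST3) (h4 : OG) (h5 : CL) (h6 : DYN1) (h7 : DYN2)
    (h8 : DYN3) (k : Cst) : PLAN k := by
  refine ⟨kap k, fun b θ hb hθ => kap_pos k hb hθ, ?_⟩
  intro Ω Λ Ω₀ f f' ε J _ Y hΩ hΛ hb hf hε hc hs hK hG
  let B : Base J := ⟨Ω, Λ, Ω₀, f, f', ε, Y, inferInstance, hΩ, hΛ, hb, hf, hε, hc, hs, hK, hG⟩
  obtain ⟨A⟩ := h1 k B
  choose l v hl using fun j => (A.ty j).1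
  refine ⟨l, v, A.Z, A.s₁, A.s₀, A.s₁_pos, A.s₀_pos,
    fun j => ⟨(hl j).1, (hl j).2, (A.ty j).2⟩, A.std, ?_⟩
  intro s b θ e s0 s1 b1 θ0 θ1 e0
  obtain ⟨A₂⟩ := h2 A s b θ e s0 s1 b1 θ0 θ1 e0
  have κ0 := kap_pos k b1 θ0
  obtain ⟨o1, o2, o3, o, o4, o5⟩ := h4 A₂ (kap k b θ) κ0
  refine ⟨o, A.O, A₂.σ₀, A₂.δ, fun i _ => A.r i, lev, A₂.n, o4,
    fun n => ⟨(o1 n).1, (o1 n).2, A₂.σ_pos n⟩, o2, o3, A₂.δ_e, fun i _ => A₂.σ₁ i, ?_⟩
  intro P hP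
  obtain ⟨A₃⟩ := h3 A₂ P hP
  refine ⟨A₃.Z, fun _ => 1 / 100, A₃.r, A₃.std, ?_⟩
  intro S g hg
  have C := h5 A₃ S g.toFun (o5 P S g.toFun hg)
  obtain ⟨d1, d2, d3, d4⟩ := h6 A₃ S g.toFun C
  refine ⟨d1, fun j u hu => ?_, d2, d3, d4, ?_⟩
  · have := C.near j u hu
    rwa [(A.ty j).2.2.1] at this
  intro h hL
  have e1 := h7 A₃ S g.toFun h.toFun C hL
  obtain ⟨f1, f2, f3, f4, f5, f6⟩ := h8 A₃ S g.toFun h.toFun C hL g.mapsTo
  have hκ : kap k b θ * s ≤ A₂.l 0 / 10000 := by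
    have := A₃.κ₁
    have h0 : 0 ≤ kap k b θ * s := by positivity
    nlinarith [mul_nonneg h0 (show 0 ≤ b ^ 2 - 1 by nlinarith)]
  have hl0 : A₂.l 0 ≤ A.s₀ := by
    rw [A₂.l_zero, div_le_iff₀ (by linarith)]
    nlinarith [A.s₀_pos]
  have hin : ∀ m, ∀ z ∈ nbr 1 (A₃.Z m).B, ∀ x ∈ Ctr Ω h.toFun (A₃.Z m) z,
      ∀ u ∈ closedBall x (A₃.r m z), u ∈ Ω ∧ h.toFun u ∈ (A₃.Z m).supp := fun m z hz x hx u hu =>
    have := (e1 m z hz).1.fit x hx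
    ⟨this.1 hu, (A₃.Z m).mem_supp hz (this.2.1 u hu)⟩
  refine ⟨⟨fun _ => by norm_num, f4, f5, fun i j hij => ?_, fun i z hz => (e1 i z hz).1.go,
    fun i z hz => (e1 i z hz).1.fit⟩, f1, fun m z hz x hx => ?_, f2, fun i z hz x hx => ?_,
    fun h' hh => f6 h'.toFun hh⟩
  · refine disjoint_left.2 fun c c1 c2 => ?_
    obtain ⟨u, hu, hy⟩ := mem_hit.1 c2
    exact disjoint_left.1 (f3 i j hij)
      (hit_marg (A₃.Z i).toZone (fun z hz => (e1 i z hz).1.osc) c1 u hu)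
      ((A₃.Z j).supp_marg zero_le_two hy)
  · obtain ⟨g1, g2, g3, g4⟩ := (e1 m z hz).2 x hx
    refine ⟨⟨disjoint_left.2 fun u hu hu' => ?_, g2⟩, ?_⟩
    · obtain ⟨u1, u2⟩ := hin m z hz x hx u hu
      rcases hu' with hu' | hu'
      · obtain ⟨j, hj⟩ := mem_iUnion.1 hu'
        exact f1 j u ⟨hj, u1⟩ m u2
      · rw [hL.off u u1 (d4 u hu').1] at u2
        exact (d4 u hu').2 m u2
    · by_cases hn : A₂.NC P m z
      · obtain ⟨q, q1, q2⟩ := g4 hn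
        refine Or.inr ⟨q, q1, q2, ?_⟩
        rw [(A₃.nc m z hn).2, le_div_iff₀ (by linarith)]
        have := A₃.κ₁
        have h0 : 0 ≤ kap k b θ * s := by positivity
        nlinarith [mul_nonneg h0 (show 0 ≤ b ^ 2 - b by nlinarith)]
      · refine Or.inl ⟨2 * m, subset_sdiff.2 ⟨g1, g3 hn⟩, ?_⟩
        rw [(A₃.wild m z hn).2]
        exact A₂.σ₂ m
  · refine ⟨{a | 2 * a.1.1 ≤ lev i + 1}, ?_, fun a x' hx' ⟨u, u1, u2⟩ => ?_⟩
    · refine le_trans ?_ (A₂.cnt i)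
      refine encard_le_encard_of_injOn (f := fun a : Idx A₃.Z => a.1) (fun a ha => ?_)
        fun a _ a' _ h => Subtype.ext h
      have := a.2
      rw [A₃.B_eq] at this
      exact ⟨ha, nbr_mono le_rfl (bx_mono _ sdiff_subset) this⟩
    · obtain ⟨g1, -, -, g4⟩ := (e1 a.1.1 a.1.2 a.2).2 x' hx'
      have a1 : u ∈ A.O (lev i) := ((d3 i z hz x hx).2 u1).1
      have a2 : u ∈ A.O (2 * a.1.1) := g1 u2
      have b2 : 2 * a.1.1 ≤ lev i + 1 := by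
        by_contra hn
        exact disjoint_left.1 (o3 _ _ (by omega)) a1 a2
      have b3 : lev i ≤ 2 * a.1.1 + 1 := by
        by_contra hn
        exact disjoint_left.1 (o3 _ _ (by omega)) a2 a1
      refine ⟨b2, ?_⟩
      by_cases hn : A₂.NC P a.1.1 a.1.2
      · obtain ⟨q, q1, q2⟩ := g4 hn
        have c1 := d1.fit i z hz x hx
        obtain ⟨c, hc'⟩ := S.Q.mem_carrier.1 (S.carrier.ge (c1.1 u1))
        refine absurd ((A.Z i).supp_marg zero_le_two ((A.Z i).mem_supp hz (c1.2.1 u u1)))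
          (C.sep u (mem_biUnion q1 (q2 u2)) _ ((C.app.all c u hc' u hc').trans ?_) i)
        linarith [A₂.l_pos 0]
      · rw [(A₃.wild _ _ hn).2]
        exact A₂.rad i _ b2 b3

end P073.Zn
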