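import Vale.Agent.P073Y.Zn.Pl
import Vale.Agent.P073Y.Zn.Bas

/-!
# The plan: the second stage
-/

open Set Metric Topology Filter MeasureTheory
open scoped NNReal ENNReal Pointwise

namespace P073.Zn

open P073.Top

namespace St2x

theorem ev {a : ℝ} (h : 0 < a) : ∀ᶠ c in 𝓝[>] (0 : ℝ), c ≤ a :=
  mem_nhdsWithin_of_mem_nhds (Iic_mem_nhds h)

theorem lev_fin {J : Type} [Finite J] (n : ℕ) : {i : J ⊕ ℕ | lev i ≤ n}.Finite := by
  refine ((finite_range Sum.inl).union ((finite_le_nat n).image Sum.inr)).subset ?_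
  rintro (j | m) h
  · exact Or.inl ⟨j, rfl⟩
  · exact Or.inr ⟨m, le_trans (show m ≤ 2 * m + 1 by omega) h, rfl⟩

theorem ev_lev {J : Type} [Finite J] (n : ℕ) {a : J ⊕ ℕ → ℝ} (h : ∀ i, 0 < a i) :
    ∀ᶠ c in 𝓝[>] (0 : ℝ), ∀ i, lev i ≤ n → c ≤ a i :=
  (eventually_all_finite (lev_fin n)).2 fun i _ => ev (h i)

theorem pick {p : ℝ → Prop} (h : ∀ᶠ c in 𝓝[>] (0 : ℝ), p c) : ∃ c, 0 < c ∧ p c :=
  (h.and self_mem_nhdsWithin).exists.imp fun _ h => h.symm

theorem apx_mono {Ω : Set E3} {S : Src Ω} {f g : E3 → E3} {R : Set E3} {o o' : ℝ}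
    (h : Apx S f g R o) (ho : o ≤ o') : Apx S f g R o' :=
  fun c hc x hx y hy => (h c hc x hx y hy).trans ho

theorem marg_mono (Z : Zone) {a a' : ℝ} (h : a ≤ a') : Z.marg a ⊆ Z.marg a' :=
  preimage_mono (iUnion₂_mono fun z _ => lbox_mono _ (neg_le_neg h) z)

theorem supp_sub (Z : Zone) : Z.supp ⊆ Z.marg 2 :=
  preimage_mono (iUnion₂_mono fun z _ => lbox_mono _ (by norm_num) z)

theorem dk_pos {d : ℝ} (h : 0 < d) (n : ℕ) : 0 < dk d n := by
  unfold dk
  positivity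

end St2x

open St2x

theorem st2_of (hZ : STDZ) (hM : MODL) (hN : NULLT) (hF : FITW) : ST2 := by
  intro k J B A s b θ e hs hs₀ hb hθ hθ1 he
  have := B.fin
  have hd := dk_pos A.d_pos
  have hε := B.ε_pos
  have b0 : 0 < b := one_pos.trans_le hb
  -- the scales
  obtain ⟨l, l0, l1, l2, l3⟩ : ∃ l : ℕ → ℝ, (∀ m, 0 < l m) ∧ (∀ m, l m ≤ dk A.d₀ (2 * m) / 1000) ∧
      (∀ m, l m ≤ B.ε / 100) ∧ l 0 = θ * s / (100 * b) := by
    have h : θ * s / (100 * b) ≤ A.s₀ := by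
      rw [div_le_iff₀ (by positivity)]
      nlinarith [mul_le_mul_of_nonneg_left hb A.s₀_pos.le]
    refine ⟨fun m => if m = 0 then θ * s / (100 * b) else min (dk A.d₀ (2 * m) / 1000) (B.ε / 100),
      fun m => ?_, fun m => ?_, fun m => ?_, if_pos rfl⟩ <;> dsimp only <;> split_ifs with hm
    · positivity
    · exact lt_min (div_pos (hd _) (by norm_num)) (by positivity)
    · simpa [hm, dk] using h.trans A.s₀_d
    · exact min_le_left _ _
    · exact h.trans A.s₀_ε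
    · exact min_le_right _ _
  choose Zs hT _ _ _ hB _ using fun m => hZ (shl B.Λ A.d₀ (2 * m) (47 / 100) (103 / 100)) (l m)
    (A.sh.cpt (by norm_num)).isBounded (l0 m)
  -- the numbers of neighbours
  have hc : ∀ i : J ⊕ ℕ, ∃ n : ℕ, {a : ℕ × (Fin 3 → ℤ) | 2 * a.1 ≤ lev i + 1 ∧ a.2 ∈
      nbr 1 (bx (l a.1) (shl B.Λ A.d₀ (2 * a.1) (47 / 100) (103 / 100)))}.encard = n := fun i => by
    refine Finite.exists_encard_eq_coe (((finite_le_nat (lev i + 1)).biUnion fun m _ =>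
      (finite_singleton m).prod (nbr_finite (Zs m).fin 1)).subset fun a ha => ?_)
    exact mem_biUnion (show a.1 ≤ lev i + 1 by linarith [ha.1]) ⟨rfl, (hB a.1).symm ▸ ha.2⟩
  choose n hn using hc
  -- the moduli
  obtain ⟨γ, L, Pl, h1, h2⟩ := hM k (Λ := B.Λ) A.Z
    (fun m => shl B.Λ A.d₀ (2 * m) (46 / 100) (104 / 100))
    (fun m => shl B.Λ A.d₀ (2 * m) (4 / 10) (11 / 10)) (fun m => 1 / 20 * dk A.d₀ (2 * m))
    (fun x hx => (A.lf x hx).imp fun U h => ⟨h.1, h.2.subset fun i hi =>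
      hi.mono (inter_subset_inter_left _ (supp_sub _))⟩)
    (fun i => (supp_sub _).trans ((A.marg i).trans (A.sh.sub (by norm_num))))
    (fun i j hij => (A.disj i j hij).mono (marg_mono _ one_le_two) (supp_sub _))
    (fun m => ⟨mul_pos (by norm_num) (hd _), fun y hy => by
      rw [(A.sh.cpt (by norm_num)).cthickening_eq_biUnion_closedBall
        (mul_pos (by norm_num) (hd _)).le] at hy
      obtain ⟨x, hx, hy⟩ := mem_iUnion₂.1 hy
      exact A.sh.mono (by norm_num) (by norm_num) (A.sh.move hx hy),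
      A.sh.cpt (by norm_num), A.sh.sub (by norm_num)⟩)
    ((A.sh.lf _ _).comp_injective (f := fun m => 2 * m) fun _ _ h => by simpa using h)
  -- the excluded sets
  choose d d0 d1 d2 using fun m => hN (K := Pl m) (F := (Zs m).T) (h1 m).2.2.1 (h1 m).1
    (Zs m).T.continuous.continuousOn (by
      rw [show ((Zs m).T : E3 → E3) = fun y => (l m)⁻¹ • y from funext (hT m), image_smul,
        Measure.addHaar_smul, (h1 m).2.2.2, mul_zero])
  -- radii and cavities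
  choose r₀ hr₀ h3 using fun m => hF (Kc := B.f' '' shl B.Λ A.d₀ (2 * m) (4 / 10) (11 / 10))
    (Zs m).T 1 (1 / 4) (γ m) (L m) (l m / 4) (d m) B.opn B.hom
    ((A.sh.cpt (by norm_num)).image_of_continuousOn (B.hom.cont_inv.mono (A.sh.sub (by norm_num))))
    ((B.hom.mapsTo_inv.mono_left (A.sh.sub (by norm_num))).image_subset) le_rfl (by norm_num)
    le_rfl (h1 m).2.1 (div_pos (l0 m) (by norm_num)) (d0 m) (d1 m)
  have hr : ∀ i, 0 < A.r i / (100 * (n i + 1)) := fun i => div_pos (A.r_pos i) (by positivity)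
  choose r r0 r1 r2 using fun m => pick ((ev (hr₀ m)).and (ev_lev (2 * m + 1) hr))
  choose β β0 β1 h4 using fun m => h3 m (r m) (r0 m) (r1 m)
  set o₀ : ℝ := 1 / 100 * (1 / 4) / (k.K (1 / 1000) (1 / 1000) 1 (1 / 4) + 1) with ho₀
  have o0 : 0 < o₀ := by positivity
  choose ξ ξ0 h5 using fun m => h4 m (min 1 (o₀ * β m)) (lt_min one_pos (mul_pos o0 (β0 m)))
  -- errors of the first batch
  obtain ⟨δ₀, δ0, h6⟩ := h2 ξ ξ0
  choose δ δ1 δ2 δ3 δ4 using fun i => pick ((ev (δ0 i)).and ((ev (a := 1 / 100) (by norm_num)).and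
    (ev he)))
  choose o₁ p1 q1 using fun i => A.fit i (δ i) (δ1 i)
  choose o₂ p2 q2 using A.near
  choose o₃ p3 q3 using A.excl
  choose o o1 o2 o3 o4 o5 o6 o7 o8 using fun m => pick ((ev (div_pos (hd m) (b := 1000)
    (by norm_num))).and ((ev (div_pos hε (b := 100) (by norm_num))).and ((ev A.s₀_pos).and
    ((ev (ξ0 (m / 2))).and ((ev_lev m p1).and ((eventually_all.2 fun j => ev (p2 j)).and
    (eventually_all.2 fun j => ev (p3 j))))))))
  choose σ σ0 σ1 σ2 using fun m => pick ((ev_lev m hr).and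
    (ev (div_pos (r0 (m / 2)) (b := 100) (by norm_num))))
  have e2 : ∀ m : ℕ, 2 * m / 2 = m := fun m => by omega
  refine ⟨⟨l, fun m => (Zs m).T '' cthickening (d m) (Pl m), β, r, δ, o, σ, n, hs, hs₀, hb, hθ,
    hθ1, l0, l1, l2, l3, fun m z => d2 m 1 z le_rfl, fun m => ⟨β0 m, β1 m⟩,
    fun i => ⟨δ1 i, δ3 i⟩, fun j => δ4 _, o1, o2, o3, o4 0, σ0, fun i => ?_, fun m => ?_,
    fun i => (hn i).le, fun i m _ h => ?_, fun i S g h => q1 i S g (apx_mono h (o6 _ i le_rfl)),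
    fun j u hu y hy => q2 j u hu y (hy.trans (o7 0 j)),
    fun j x y hy => q3 j x y (hy.trans (o8 0 j)), ?_⟩⟩
  · exact (le_div_iff₀' (by positivity)).1 (σ1 _ i le_rfl)
  · have h := σ2 (2 * m)
    rw [e2] at h
    linarith
  · have h := (le_div_iff₀' (by positivity)).1 (r2 m i h)
    nlinarith [r0 m]
  intro m Z z hZT hs hX hβ S g h R hl ha hreg
  have eT : Z.T = (Zs m).T := ContinuousAffineEquiv.ext fun y => (hZT y).trans (hT m y).symm
  obtain ⟨a1, a2⟩ := h5 m S g h Z z R _ (Pl m) (ξ m) eT hs.N hs.t hβ (ξ0 m).le le_rfl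
    (h6 δ (fun i => ⟨δ1 i, δ2 i⟩) g h hl m) (apx_mono ha (by simpa only [e2] using o5 (2 * m)))
    (fun y hy hy' => hy (hX.symm ▸ ⟨y, thickening_subset_cthickening _ _ hy', rfl⟩))
    (fun x hx hx' => by
      obtain ⟨b1, b2, b3⟩ := hreg x hx (eT.symm ▸ hx')
      exact ⟨b1, ⟨_, b2, B.hom.left_inv hx⟩, b3⟩)
  rw [← eT, ← hs.N] at a1
  have eo : Z.o k (1 / 100) = o₀ := by rw [ZD.o, hs.N, hs.t, hs.θ, hs.ϑ]
  exact ⟨.of_osc a1 (eo.symm ▸ o0.le) fun c _ => by rw [eo, hβ]; exact min_le_right _ _,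
    fun c hc x hx y hy => (a1 c hc x hx y hy).trans (min_le_left _ _), a2⟩

end P073.Zn
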