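import Vale.Agent.P073Y.Zn.Pl
import Vale.Agent.P073Z.Gauge

/-!
# Tools for the plan: shells, images of balls, gauges, thin neighbourhoods
-/

open Set Metric Topology Filter MeasureTheory
open scoped NNReal ENNReal

namespace P073.Zn

open P073.Top

theorem dk_pos {d₀ : ℝ} (h : 0 < d₀) (k : ℕ) : 0 < dk d₀ k := mul_pos h (by positivity)

theorem dk_add_le {d₀ : ℝ} (h : 0 < d₀) {k j k' : ℕ} (hk : k + j ≤ k') :
    dk d₀ k' ≤ 2⁻¹ ^ j * dk d₀ k := by
  rw [dk, dk, mul_left_comm, ← pow_add, add_comm]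
  exact mul_le_mul_of_nonneg_left (pow_le_pow_of_le_one (by norm_num) (by norm_num) hk) h.le

theorem shls : SHLS := by
  intro Λ d₀ ho hb hd
  have hne : Λᶜ.Nonempty := nonempty_compl.2 fun e => NormedSpace.unbounded_univ ℝ E3 (e ▸ hb)
  have hp : ∀ y ∈ Λ, 0 < infDist y Λᶜ := fun y hy =>
    (ho.isClosed_compl.notMem_iff_infDist_pos hne).1 fun h => h hy
  have hs : ∀ {k a b}, 0 < a → shl Λ d₀ k a b ⊆ Λ := fun {k a b} ha y hy => by
    by_contra h
    exact ((mul_pos ha (dk_pos hd k)).trans_le hy.1).ne' (infDist_zero_of_mem h)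
  refine ⟨fun {k a b c y y'} h1 h2 => ⟨?_, fun hk => ?_⟩, fun {k a b a' b'} h1 h2 y hy =>
    ⟨(mul_le_mul_of_nonneg_right h1 (dk_pos hd k).le).trans hy.1, fun hk => (hy.2 hk).trans
      (mul_le_mul_of_nonneg_right h2 (dk_pos hd k).le)⟩, hs, fun {k a b} ha => ?_,
    fun {k k' a b a' b'} h1 h2 h3 => disjoint_left.2 fun y h4 h5 => ?_,
    fun {k' a b a' b'} h1 h2 h3 => disjoint_left.2 fun y h4 h5 => ?_, fun y hy => ?_,
    fun a b x hx => ?_⟩
  · linarith [infDist_le_infDist_add_dist (x := y) (y := y') (s := Λᶜ), h1.1, dist_comm y y']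
  · linarith [infDist_le_infDist_add_dist (x := y') (y := y) (s := Λᶜ), h1.2 hk]
  · refine isCompact_of_isClosed_isBounded ?_ (hb.subset (hs ha))
    refine (isClosed_le continuous_const (continuous_infDist_pt _)).inter ?_
    exact isClosed_imp isOpen_const (isClosed_le (continuous_infDist_pt _) continuous_const)
  · nlinarith [h4.1, h5.2 (by omega), dk_pos hd k,
      mul_le_mul_of_nonneg_left (dk_add_le hd h1) h2]
  · nlinarith [h4.1, h5.2 h1, dk_pos hd 0,
      mul_le_mul_of_nonneg_left (dk_add_le hd (k := 0) (j := 1) (k' := k') (by omega)) h2]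
  · rcases le_total d₀ (infDist y Λᶜ) with h | h
    · exact ⟨0, by simp only [dk, pow_zero]; linarith, fun h => absurd rfl h⟩
    · obtain ⟨k, h1, h2⟩ := exists_nat_pow_near_of_lt_one (div_pos (hp y hy) hd)
        ((div_le_one hd).2 h) (y := 2⁻¹) (by norm_num) (by norm_num)
      rw [lt_div_iff₀ hd, pow_succ] at h1
      rw [div_le_iff₀ hd] at h2
      exact ⟨k, by rw [dk]; linarith, fun _ => by rw [dk]; linarith⟩
  · have h1 : Tendsto (fun k => b * dk d₀ k) atTop (𝓝 (b * (d₀ * 0))) :=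
      ((tendsto_pow_atTop_nhds_zero_of_lt_one (by norm_num) (by norm_num)).const_mul d₀).const_mul b
    rw [mul_zero, mul_zero] at h1
    obtain ⟨m, hm⟩ := eventually_atTop.1 (h1.eventually_lt_const (half_pos (hp x hx)))
    refine ⟨_, ball_mem_nhds x (half_pos (hp x hx)), (finite_le_nat m).subset ?_⟩
    rintro k ⟨y, h2, h3⟩
    refine le_of_not_gt fun h4 : m < k => ?_
    linarith [hm k h4.le, h2.2 (by omega), mem_ball'.1 h3,
      infDist_le_infDist_add_dist (x := x) (y := y) (s := Λᶜ)]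

theorem isOpen_img {Ω Λ U : Set E3} {f f' : E3 → E3} (ho : IsOpen Λ) (h : HomeoOn f f' Ω Λ)
    (hU : IsOpen U) (hs : U ⊆ Ω) : IsOpen (f '' U) := by
  convert h.cont_inv.isOpen_inter_preimage ho hU using 1
  refine Subset.antisymm ?_ fun y hy => ⟨_, hy.2, h.right_inv hy.1⟩
  rintro _ ⟨x, hx, rfl⟩
  exact ⟨h.mapsTo (hs hx), by rwa [mem_preimage, h.left_inv (hs hx)]⟩

theorem invb : INVB := by
  intro Ω Λ f f' u r r' ho h hr hs hd
  rcases le_or_gt r' 0 with h0 | h0
  · rw [ball_eq_empty.2 h0]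
    exact empty_subset _
  refine (convex_ball _ _).isPreconnected.subset_left_of_subset_union
    (isOpen_img ho h isOpen_ball (ball_subset_closedBall.trans hs))
    ((isCompact_closedBall u r).image_of_continuousOn (h.cont.mono hs)).isClosed.isOpen_compl
    (disjoint_compl_right_iff_subset.2 (image_mono ball_subset_closedBall)) (fun y hy => ?_)
    ⟨f u, mem_ball_self h0, u, mem_ball_self hr, rfl⟩
  refine or_iff_not_imp_right.2 fun h1 => ?_
  obtain ⟨v, hv, rfl⟩ := not_not.1 h1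
  exact ⟨v, (mem_closedBall.1 hv).lt_of_ne fun e => (hd v e).not_gt hy, rfl⟩

theorem gauge3 : GAUGE3 := by
  intro Ω Λ f R o a hf hm hR ho ha
  obtain ⟨g, hg, h1, -, h2⟩ := exists_gauge (X := Λ)
    (p := fun y a => ∀ k, ∀ y' ∈ R k, dist y' y ≤ a → a ≤ o k)
    (fun x _ a b _ hab h k y hy hd => hab.trans (h k y hy (hd.trans hab))) fun x hx => by
      obtain ⟨U, hU, hfin⟩ := hR x hx
      obtain ⟨δ, hδ, hb⟩ := Metric.mem_nhds_iff.1 hU
      obtain ⟨r, hr, hle⟩ := exists_gauge_le_finset (X := Λ) hfin.toFinset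
        (g := fun i _ => o i) fun i _ => gauge_const (ho i)
      refine ⟨min (r x) (δ / 2), lt_min (hr.2 x hx) (half_pos hδ), ?_⟩
      filter_upwards [mem_nhdsWithin_of_mem_nhds (ball_mem_nhds x (half_pos hδ))] with y hy k y' h3 h4
      refine (min_le_left _ _).trans (hle k (hfin.mem_toFinset.2 ⟨y', h3, hb (mem_ball.2 ?_)⟩) x)
      linarith [dist_triangle y' y x, mem_ball.1 hy, min_le_right (r x) (δ / 2)]
  refine ⟨fun y => min a (g (f y) / 10), (gauge_const ha).min ((hg.comp hf hm).div_const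
    (by norm_num)), fun y => min_le_left _ _, fun C G hC h3 k h4 x hx y hy => ?_⟩
  have h5 : ∀ x ∈ C, ∀ y ∈ C, dist (G x) (f y) ≤ g (f y) / 10 := fun x hx y hy =>
    (h3 x hx y hy).trans (min_le_right _ _)
  have h6 := hg.2 _ (hm (hC hy))
  rcases h4 with ⟨_, ⟨x₀, h7, rfl⟩, h8⟩ | ⟨_, ⟨y₀, h7, rfl⟩, h8⟩
  · linarith [h2 _ (hm (hC hy)) k _ h8 (by linarith [h5 x₀ h7 y hy]), h5 x hx y hy]
  · have h9 := hg.2 _ (hm (hC h7))
    linarith [h2 _ (hm (hC h7)) k _ h8 (by rw [dist_self]; exact h9.le), h5 x hx y hy,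
      h5 x hx y₀ h7, h1 (f y) (f y₀), dist_triangle_left (f y) (f y₀) (G x)]

theorem excl : EXCL := by
  intro Ω Λ K f f' s ho h hK hs hΩ
  have h1 : thickening (3 * s) K ⊆ cthickening (4 * s) K :=
    thickening_subset_cthickening_of_le (by linarith) K
  have h2 : cthickening (2 * s) K ⊆ thickening (3 * s) K :=
    cthickening_subset_thickening' (by linarith) (by linarith) K
  obtain ⟨o, h3, h4⟩ := ((hK.cthickening (r := 2 * s)).image_of_continuousOn
    (h.cont.mono ((h2.trans h1).trans hΩ))).exists_cthickening_subset_open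
    (isOpen_img ho h isOpen_thickening (h1.trans hΩ)) (image_mono h2)
  refine ⟨o, h3, fun x y h5 h6 => disjoint_left.2 fun v h7 h8 => h6 (image_mono h1 (h4 ?_))⟩
  obtain ⟨w, h9, h10⟩ := mem_thickening_iff.1 h8
  refine mem_cthickening_of_dist_le y (f x) o _ ⟨x, mem_cthickening_of_dist_le x w _ K h9 ?_, rfl⟩ h5
  linarith [dist_triangle x v w, mem_closedBall'.1 h7]

theorem le_vol_mid {N : ℕ} (hN : 1 ≤ N) (z : Fin 3 → ℤ) :
    ENNReal.ofReal (1 / 12) ≤ volume (mid N z) := by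
  have h : (1 : ℝ) ≤ N := by exact_mod_cast hN
  rw [mid, Real.volume_Icc_pi, ← ENNReal.ofReal_prod_of_nonneg fun i _ => by
    fin_cases i <;> simp [wd] <;> nlinarith]
  refine ENNReal.ofReal_le_ofReal ?_
  simp [Fin.prod_univ_three, wd]
  nlinarith

theorem nullt : NULLT := by
  intro K F r hK hr hF h0
  obtain ⟨V, h1, h2, h3⟩ := (F '' K).exists_isOpen_lt_of_lt (μ := volume) (ENNReal.ofReal (1 / 24))
    (h0 ▸ ENNReal.ofReal_pos.2 (by norm_num))
  obtain ⟨s, h4, h5⟩ := hK.exists_cthickening_subset_open ((hF.mono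
    (thickening_subset_cthickening r K)).isOpen_inter_preimage isOpen_thickening h2)
    fun x hx => ⟨self_subset_thickening hr K hx, h1 ⟨x, hx, rfl⟩⟩
  refine ⟨min s r, lt_min h4 hr, min_le_right _ _, fun N z hN => le_trans ?_ (le_vol_mid hN z)⟩
  have h6 : F '' cthickening (min s r) K ∩ mid N z ⊆ V := by
    rintro _ ⟨⟨x, hx, rfl⟩, -⟩
    exact (h5 (cthickening_mono (min_le_left _ _) K hx)).2
  refine (mul_le_mul_right ((measure_mono h6).trans h3.le) 2).trans_eq ?_
  rw [← ENNReal.ofReal_ofNat, ← ENNReal.ofReal_mul (by norm_num)]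
  norm_num

end P073.Zn
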