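import Vale.Agent.P073Y.Zn.Pl
import Vale.Agent.P073Y.Zn.Bas

/-!
# The standard zones, the zones of the types and the balls near the cores
-/

open Set Metric Topology Filter MeasureTheory
open scoped NNReal ENNReal

namespace P073.Zn

open P073.Top

namespace Tyz

theorem exists_T (A : E3 ≃L[ℝ] E3) {l : ℝ} (hl : 0 < l) (v : E3) :
    ∃ T : E3 ≃ᴬ[ℝ] E3, ∀ y, T y = l⁻¹ • A y - v :=
  ⟨(A.trans (LinearEquiv.smulOfNeZero ℝ E3 l⁻¹
    (inv_ne_zero hl.ne')).toContinuousLinearEquiv).toContinuousAffineEquiv.trans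
      (ContinuousAffineEquiv.constVAdd ℝ E3 (-v)), fun _ => neg_add_eq_sub _ _⟩

theorem dist_T {A : E3 → E3} {l : ℝ} (hl : 0 < l) {v : E3} {T : E3 → E3}
    (hT : ∀ y, T y = l⁻¹ • A y - v) (y y' : E3) : dist (A y) (A y') = l * dist (T y) (T y') := by
  rw [hT, hT, dist_sub_right, dist_smul₀, Real.norm_eq_abs, abs_of_pos (inv_pos.2 hl),
    mul_inv_cancel_left₀ hl.ne']

theorem cond_T {A : E3 ≃L[ℝ] E3} {L : ℝ≥0} (h : Cond A.toContinuousAffineEquiv L) :
    ∃ b : ℝ, 0 < b ∧ ∀ (l : ℝ) (v : E3) (T : E3 ≃ᴬ[ℝ] E3), 0 < l →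
      (∀ y, T y = l⁻¹ • A y - v) → Cond T L ∧ ∀ y y', dist y y' ≤ b * l * dist (T y) (T y') := by
  obtain ⟨a, b, ha, hb, hab⟩ := h
  refine ⟨b + 1, by positivity, fun l v T hl hT => ?_⟩
  have h1 : ∀ y y', dist y y' ≤ b * l * dist (T y) (T y') := fun y y' => by
    have := hb.dist_le_mul (A y) (A y')
    have e : ∀ y, A.toContinuousAffineEquiv.symm (A y) = y :=
      A.toContinuousAffineEquiv.symm_apply_apply
    rwa [dist_T hl hT, ← mul_assoc, e, e] at this
  lift l to ℝ≥0 using hl.le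
  have hl' : l ≠ 0 := by exact_mod_cast hl.ne'
  refine ⟨⟨l⁻¹ * a, b * l, .of_dist_le_mul fun y y' => ?_, .of_dist_le_mul fun y y' => ?_, ?_⟩,
    fun y y' => (h1 y y').trans (by gcongr; linarith)⟩
  · have h2 : dist (A y) (A y') ≤ a * dist y y' := ha.dist_le_mul y y'
    rw [dist_T hl hT, ← le_inv_mul_iff₀ hl] at h2
    simpa [mul_assoc] using h2
  · simpa using h1 (T.symm y) (T.symm y')
  · refine le_trans (le_of_eq ?_) hab
    field_simp

theorem box_dist {N k : ℕ} (hN : 1 ≤ N) {κ κ' : ℝ} {z z' : Fin 3 → ℤ} {y y' : E3}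
    (hz : ∀ i, |z i - z' i| ≤ k) (h : y ∈ lbox N κ z) (h' : y' ∈ lbox N κ' z') :
    dist y y' ≤ (k + 1) * N - κ - κ' := by
  refine dist_pi_le_iff'.2 fun i => ?_
  have a := mem_lbox.1 h i
  have b := mem_lbox.1 h' i
  have c := one_le_wd hN i
  have d : wd N i ≤ N := by
    have : (1 : ℝ) ≤ N := by exact_mod_cast hN
    fin_cases i <;> simp [wd, this]
  have e : |(z i : ℝ) - z' i| ≤ k := by exact_mod_cast hz i
  have e1 := abs_le.1 e
  have e2 : (0 : ℝ) ≤ k := Nat.cast_nonneg k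
  rw [Real.dist_eq, abs_le]
  constructor <;> nlinarith [a.1, a.2, b.1, b.2, e1.1, e1.2]

theorem fin_box {N : ℕ} (hN : 1 ≤ N) {W : Set E3} (hW : Bornology.IsBounded W) :
    {z | ∃ w ∈ W, w ∈ lbox N 0 z}.Finite := by
  obtain ⟨R, hR⟩ := hW.exists_norm_le
  obtain ⟨K, hK⟩ := exists_nat_ge R
  refine (finite_Icc (fun _ => -(K : ℤ) - 1) fun _ => (K : ℤ)).subset fun z ⟨w, h1, h2⟩ => ?_
  have k : ∀ i, -(K : ℝ) - 1 ≤ z i ∧ (z i : ℝ) ≤ K := fun i => by
    have a := mem_lbox.1 h2 i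
    have b := abs_le.1 ((norm_le_pi_norm w i).trans ((hR w h1).trans hK))
    have c := one_le_wd hN i
    have d : (0 : ℝ) ≤ K := Nat.cast_nonneg K
    constructor <;> by_contra hn <;> nlinarith [a.1, a.2, b.1, b.2, not_le.1 hn]
  exact ⟨fun i => by exact_mod_cast (k i).1, fun i => by exact_mod_cast (k i).2⟩

open Classical in
theorem card_le (N : ℕ) (y : ℝ) :
    ((Finset.range N).filter fun j : ℕ => ∃ k : ℤ, |y - j - k * N| ≤ 2).card ≤ 5 := by
  refine (Finset.card_le_card (t := (Finset.Icc ⌈y - 2⌉ (⌈y - 2⌉ + 4)).image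
    fun m : ℤ => (m % N).toNat) fun j hj => ?_).trans (Finset.card_image_le.trans (by
      rw [Int.card_Icc]
      omega))
  obtain ⟨h1, k, h2⟩ := Finset.mem_filter.1 hj
  have h3 := abs_le.1 h2
  have h4 := Int.le_ceil (y - 2)
  have h5 : (j : ℤ) < N := by exact_mod_cast Finset.mem_range.1 h1
  refine Finset.mem_image.2 ⟨j + k * N, Finset.mem_Icc.2 ⟨Int.ceil_le.2 ?_, ?_⟩, ?_⟩
  · push_cast
    linarith
  · have : ((j + k * N : ℤ) : ℝ) ≤ (⌈y - 2⌉ + 4 : ℤ) := by
      push_cast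
      linarith
    exact_mod_cast this
  · rw [Int.add_mul_emod_self_right, Int.emod_eq_of_lt (by positivity) h5, Int.toNat_natCast]

/-- a shift for which few points are in the strips -/
theorem exists_shift {N : ℕ} (hN : 1 ≤ N) {K : Set E3} (hK : MeasurableSet K) {F : E3 → E3}
    (hF : ContinuousOn F K) :
    ∃ v : E3, N * volume {x ∈ K | F x - v ∈ strips N} ≤ 10 * volume K := by
  classical
  set v : ℕ → E3 := fun j => ![j, j, 0] with hv
  set A : ℕ → Set E3 := fun j => {x ∈ K | F x - v j ∈ strips N} with hA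
  have m0 : MeasurableSet (strips N) := by
    simp only [strips, ofPred_exists, ofPred_and]
    exact .iUnion fun i => (MeasurableSet.const _).inter
      (.iUnion fun k => measurableSet_le (by fun_prop) measurable_const)
  have m1 : ∀ j, MeasurableSet (A j) := fun j => by
    have e : A j = Subtype.val '' (K.domRestrict (fun x => F x - v j) ⁻¹' strips N) :=
      Set.ext fun x => ⟨fun h => ⟨⟨x, h.1⟩, h.2, rfl⟩, fun ⟨y, h1, h2⟩ => h2 ▸ ⟨y.2, h1⟩⟩
    rw [e]
    exact hK.subtype_image ((hF.sub continuousOn_const).domRestrict.measurable m0)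
  have h1 : ∑ j ∈ Finset.range N, volume (A j) ≤ 10 * volume K := by
    simp only [← lintegral_indicator_one (m1 _)]
    rw [← lintegral_finsetSum _ fun j _ => measurable_one.indicator (m1 j),
      ← lintegral_indicator_const hK]
    refine lintegral_mono fun x => ?_
    by_cases hx : x ∈ K
    · rw [indicator_of_mem hx]
      simp only [indicator_apply, Pi.one_apply]
      rw [← Finset.sum_filter, Finset.sum_const, nsmul_one]
      refine le_trans (b := ((10 : ℕ) : ℝ≥0∞)) (Nat.cast_le.2 ?_) (by norm_num)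
      refine (Finset.card_le_card fun j hj => ?_).trans ((Finset.card_union_le _ _).trans
        (add_le_add (card_le N (F x 0)) (card_le N (F x 1))))
      obtain ⟨h2, -, i, h3, h4⟩ := Finset.mem_filter.1 hj
      rw [Finset.mem_union, Finset.mem_filter, Finset.mem_filter]
      fin_cases i
      · exact .inl ⟨h2, h4⟩
      · exact .inr ⟨h2, h4⟩
      · exact absurd rfl h3
    · simp [indicator_of_notMem (s := A _) fun h => hx h.1]
  obtain ⟨j, -, hj⟩ := ENNReal.exists_le_of_sum_le (s := Finset.range N) ⟨0, Finset.mem_range.2 hN⟩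
    (f := fun j => N * volume (A j)) (g := fun _ => 10 * volume K) (by
      rw [← Finset.mul_sum, Finset.sum_const, Finset.card_range, nsmul_eq_mul]
      exact mul_le_mul_right h1 _)
  exact ⟨v j, hj⟩

end Tyz

open Tyz

theorem stdz : STDZ := by
  intro A l hA hl
  obtain ⟨T, hT⟩ := exists_T (.refl ℝ E3) hl 0
  obtain ⟨b, -, hb⟩ := cond_T (A := .refl ℝ E3) (L := 1)
    ⟨1, 1, LipschitzWith.id, LipschitzWith.id, by simp⟩
  have hT' : ∀ y, T y = l⁻¹ • y := fun y => by simpa using hT y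
  have hd : ∀ y y', dist y y' = l * dist (T y) (T y') := dist_T hl hT
  have hf : (bx l A).Finite := (fin_box le_rfl (hA.smul₀ l⁻¹)).subset
    fun z ⟨y, h1, h2⟩ => ⟨_, ⟨y, h1, rfl⟩, h2⟩
  refine ⟨⟨T, 1, 1 / 4, bx l A, hf, le_rfl, by norm_num, le_rfl⟩, hT', (hb l 0 T hl hT).1, rfl, rfl,
    rfl, fun y hy => ?_, fun z y y' h h' => ?_, fun y hy => ?_⟩
  · obtain ⟨z, hz⟩ := exists_lbox le_rfl (T y)
    exact mem_iUnion₂.2 ⟨z, ⟨y, hy, hT' y ▸ hz⟩, hz⟩
  · have := box_dist (k := 0) le_rfl (fun i => by simp) h h'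
    rw [hd, mul_comm 5]
    exact mul_le_mul_of_nonneg_left (this.trans (by norm_num)) hl.le
  · obtain ⟨z, ⟨z', ⟨y', h1, h2⟩, h3⟩, h4⟩ := mem_iUnion₂.1 hy
    have := box_dist le_rfl h3 h4 (hT' y' ▸ h2)
    refine ⟨y', h1, ?_⟩
    rw [hd, mul_comm 4]
    exact mul_le_mul_of_nonneg_left (this.trans (by norm_num)) hl.le

theorem tyz (h : NULLT) : TYZ := by
  intro Ω Λ f f' Y V ε hΩ hf hV hKV hε
  have hKΩ : Y.K ⊆ Ω := Y.sub.trans Y.subΩ
  have hc := Y.cpt.image_of_continuousOn (hf.cont.mono hKΩ)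
  obtain ⟨ρ, hρ, hρV⟩ := hc.exists_cthickening_subset_open hV hKV
  obtain ⟨r, hr, hrΩ⟩ := Y.cpt.exists_cthickening_subset_open hΩ hKΩ
  obtain ⟨b, hb, hT⟩ := cond_T Y.cond
  have hN : (1 : ℝ) ≤ Y.N := by exact_mod_cast Y.N_pos
  set l : ℝ := min ρ ε / (b * (6 * Y.N)) with hld
  have hl : 0 < l := by positivity
  have hl' : b * l * (6 * Y.N) = min ρ ε := by
    rw [hld]
    field_simp
  obtain ⟨v, hv⟩ := exists_shift Y.N_pos Y.cpt.measurableSet (F := fun x => l⁻¹ • Y.Bm (f x))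
    ((Y.Bm.continuous.comp_continuousOn (hf.cont.mono hKΩ)).const_smul l⁻¹)
  obtain ⟨T, hTe⟩ := exists_T Y.Bm hl v
  obtain ⟨h1, h2⟩ := hT l v T hl hTe
  have h3 : ∀ y y', dist (T y) (T y') ≤ 6 * Y.N → dist y y' ≤ min ρ ε := fun y y' k =>
    (h2 y y').trans (hl' ▸ mul_le_mul_of_nonneg_left k (by positivity))
  have hF : ContinuousOn (T ∘ f) (cthickening r Y.K) :=
    T.continuous.comp_continuousOn (hf.cont.mono hrΩ)
  obtain ⟨s, hs, hsr, h4⟩ := h Y.cpt hr hF (by
    rw [image_comp, show (T : E3 → E3) = _ from funext hTe]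
    exact addHaar_image_eq_zero_of_differentiableOn_of_addHaar_eq_zero volume (by fun_prop) Y.null)
  obtain ⟨δ, hδ, h5⟩ := Metric.uniformContinuousOn_iff_le.1
    (Y.cpt.cthickening.uniformContinuousOn_of_continuous hF) (1 / 20) (by norm_num)
  set B₀ := {z | ∃ w ∈ ⋃ u ∈ Y.K, closedBall (T (f u)) (1 / 10), w ∈ lbox Y.N 0 z} with hB₀
  have h6 : B₀.Finite := fin_box Y.N_pos
    ((hc.image T.continuous).isBounded.cthickening (δ := 1 / 10) |>.subset
      (iUnion₂_subset fun u hu => closedBall_subset_cthickening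
        (mem_image_of_mem _ (mem_image_of_mem _ hu)) _))
  have h7 : cthickening (min s δ) Y.K ⊆ cthickening s Y.K := cthickening_mono (min_le_left _ _) _
  have h8 := h7.trans (cthickening_mono hsr _)
  refine ⟨⟨T, Y.N, Y.t, nbr 1 B₀, nbr_finite h6 1, Y.N_pos, Y.t_pos, Y.t_le⟩, l, v, min s δ, hl,
    lt_min hs hδ, hTe, h1, rfl, rfl, by simpa only [hTe] using hv, fun y hy => ?_,
    fun z y y' k k' => ?_, h8.trans hrΩ, fun z => ?_, fun u hu y hy => ?_⟩
  · obtain ⟨z, hz, k1⟩ := mem_iUnion₂.1 hy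
    obtain ⟨z', ⟨w, k2, k3⟩, k4⟩ := nbr_nbr hz
    obtain ⟨u, hu, k5⟩ := mem_iUnion₂.1 k2
    have k6 := box_dist Y.N_pos k4 k1 k3
    have k7 := dist_triangle (T y) w (T (f u))
    refine hρV (mem_cthickening_of_dist_le y (f u) ρ _ ⟨u, hu, rfl⟩
      ((h3 _ _ ?_).trans (min_le_left _ _)))
    push_cast at k6
    linarith [mem_closedBall.1 k5]
  · have := box_dist (k := 0) Y.N_pos (fun i => by simp) k k'
    push_cast at this
    exact (h3 _ _ (by linarith)).trans (min_le_right _ _)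
  · refine le_trans ?_ (h4 Y.N z Y.N_pos)
    rw [image_comp]
    gcongr
  · have hu' := hu
    rw [Y.cpt.cthickening_eq_biUnion_closedBall (lt_min hs hδ).le] at hu'
    obtain ⟨u', k1, k2⟩ := mem_iUnion₂.1 hu'
    obtain ⟨z, hz⟩ := exists_lbox Y.N_pos (T y)
    have k3 := h5 u (h8 hu) u' (self_subset_cthickening _ k1)
      ((mem_closedBall.1 k2).trans (min_le_right _ _))
    refine ⟨z, nbr_mono le_rfl (singleton_subset_iff.2 ⟨T y, mem_iUnion₂.2 ⟨u', k1, ?_⟩, hz⟩), hz⟩
    exact (dist_triangle _ (T (f u)) _).trans ((add_le_add hy k3).trans (by norm_num))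

theorem fitc (h : INVB) : FITC := by
  intro Ω Λ f f' S g Z z q u₀ s b l a o' hΛ hf hb hl hs ha hal hao hT hN ht hβ hq hbi hg hu₀ hz
  have hd : ∀ y y', dist y y' = l * dist (Z.T y) (Z.T y') :=
    dist_T (A := id) (v := 0) hl fun y => by simpa using hT y
  have b0 : 0 < b := by linarith
  have g1 : ∀ x ∈ Ω, dist (g x) (f x) ≤ a := fun x hx => by
    obtain ⟨c, hc⟩ := mem_iUnion.1 (show x ∈ ⋃ c, S.Q.cell c by
      rw [show ⋃ c, S.Q.cell c = Ω from S.carrier]
      exact hx)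
    exact hg c x hc x hc
  have a1 : a ≤ a * b := le_mul_of_one_le_right ha hb
  have a2 : a * b ≤ b ^ 2 * a := by nlinarith
  have a3 : l ≤ b * l := le_mul_of_one_le_left hl.le hb
  rw [mem_closedBall] at hu₀
  have s1 : ∀ w, dist w u₀ ≤ s / 4 → w ∈ closedBall q (3 * s / 2) := fun w hw =>
    mem_closedBall.2 (by linarith [dist_triangle w u₀ q])
  have key : ∀ v ∈ Ω, Z.T (g v) ∈ lbox 1 (-1) z → dist v q ≤ s := fun v hv k => by
    have k1 := box_dist (k := 0) le_rfl (fun i => by simp) k hz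
    have k2 := hd (g v) (f u₀)
    have k3 := dist_triangle_left (f v) (f u₀) (g v)
    obtain ⟨w, k4, k5⟩ := h (u := u₀) (r := s / 4) (r' := 24 * l) hΛ hf (by linarith)
      (fun w hw => hq (s1 w hw)) (fun w hw => by
        have k6 := (hbi w (s1 w hw.le) u₀ (s1 u₀ (by rw [dist_self]; linarith))).2
        rw [mem_sphere.1 hw] at k6
        exact le_of_mul_le_mul_left (by linarith) b0)
      (mem_ball.2 (show dist (f v) (f u₀) < 24 * l by
        push_cast at k1
        nlinarith [g1 v hv]))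
    rw [← hf.left_inv.injOn (hq (s1 w (mem_ball.1 k4).le)) hv k5]
    linarith [dist_triangle w u₀ q, mem_ball.1 k4]
  have r1 : b * (l / (100 * b)) = l / 100 := by field_simp
  have r2 : l / (100 * b) ≤ l / 100 := by gcongr; linarith
  have c1 : ∀ x ∈ Ctr Ω g Z z, Z.T (g x) ∈ lbox 1 (1 / 4) z := fun x hx => mem_lbox.2 fun i => by
    have k1 := hx.2.1.1 i
    have k2 := hx.2.1.2 i
    have k3 : wd 1 i = 1 := by fin_cases i <;> simp [wd]
    rw [hN] at k1 k2
    dsimp only at k1 k2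
    rw [k3] at k1 k2 ⊢
    split_ifs at k1 k2 <;> constructor <;> linarith
  have c2 : ∀ x ∈ Ctr Ω g Z z, dist x q ≤ s := fun x hx =>
    key x hx.1 (lbox_mono 1 (by norm_num) z (c1 x hx))
  have c3 : ∀ x ∈ Ctr Ω g Z z, closedBall x (l / (100 * b)) ⊆ closedBall q (3 * s / 2) :=
    fun x hx => closedBall_subset_closedBall' (by linarith [c2 x hx])
  refine ⟨fun c _ x hx y hy => ?_, fun x hx => ⟨(c3 x hx).trans hq, fun u hu => ?_,
    fun u hu k => ?_⟩, c3⟩
  · have k1 := dist_triangle_right (g x) (g y) (f y)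
    rw [hd] at k1
    show dist (Z.T (g x)) (Z.T (g y)) ≤ o'
    exact le_of_mul_le_mul_left (by linarith [hg c x hx y hy, hg c y hy y hy]) hl
  · have k1 := (hbi u (c3 x hx hu) x (mem_closedBall.2 (by linarith [c2 x hx]))).1
    have k2 := mul_le_mul_of_nonneg_left (mem_closedBall.1 hu) b0.le
    have k3 := dist_triangle4_right (g u) (g x) (f u) (f x)
    rw [hd] at k3
    have k4 : dist (Z.T (g u)) (Z.T (g x)) ≤ 1 / 8 := le_of_mul_le_mul_left
      (by linarith [g1 x hx.1, g1 u (hq (c3 x hx hu))]) hl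
    rw [hN]
    refine mem_interior_iff_mem_nhds.2 (mem_of_superset (closedBall_mem_nhds _
      (show (0 : ℝ) < 1 / 8 by norm_num)) fun y hy => ?_)
    have := lbox_dist (c1 x hx) ((dist_triangle y _ _).trans (add_le_add hy k4))
    norm_num at this
    exact this
  · rw [hN, ht, hβ] at k
    set β : ℝ := 1 / (1000 * b ^ 2) with hβd
    have β1 : b * (l * β) = l / (100 * b) / 10 := by
      rw [hβd]
      field_simp
      norm_num
    have β0 : 0 ≤ β := by positivity
    have β2 : β ≤ 1 := by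
      rw [hβd, div_le_one (by positivity)]
      nlinarith
    have k1 : dist (Z.T (g u)) (Z.T (g x)) ≤ β := dist_pi_le_iff'.2 fun i => by
      have k2 := (norm_le_pi_norm _ i).trans k
      have k3 := abs_nonneg (Z.T (g u) i - Z.T (g x) i)
      rw [Real.dist_eq]
      fin_cases i <;> simp [nrm, div_eq_mul_inv] at k2 k3 ⊢ <;> linarith
    have k2 := key u hu (lbox_mono 1 (by linarith) z (lbox_dist (c1 x hx) k1))
    have k3 := (hbi u (mem_closedBall.2 (by linarith)) x
      (mem_closedBall.2 (by linarith [c2 x hx]))).2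
    have k4 := dist_triangle4 (f u) (g u) (g x) (f x)
    rw [hd (g u), dist_comm (f u) (g u)] at k4
    have k5 : dist (f u) (f x) ≤ 2 * a + l * β := by
      linarith [g1 x hx.1, g1 u hu, mul_le_mul_of_nonneg_left k1 hl.le]
    have k6 := mul_le_mul_of_nonneg_left k5 b0.le
    have k7 : 100 * (a * b) ≤ l / (100 * b) := by
      rw [le_div_iff₀ (by positivity)]
      linarith
    have k8 : 0 < l / (100 * b) := by positivity
    linarith

end P073.Zn
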