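import Vale.Agent.P073Y.Zn.Sk
import Vale.Agent.P073Y.Ln.Brg
import Vale.Agent.P073Y.Rd.Round
import Vale.Agent.P073Y.Rd.Lat

/-!
# One zone: holes and a round
-/

open Set Metric Topology Filter MeasureTheory
open scoped NNReal ENNReal

namespace P073.Zn

open P073.Top

namespace Zo

variable {N : ℕ} {t : ℝ} {z : Fin 3 → ℤ} {y y' : E3}

theorem mem_lbox {κ : ℝ} : y ∈ lbox N κ z ↔
    ∀ k, z k * wd N k + κ ≤ y k ∧ y k ≤ (z k + 1) * wd N k - κ := Rd.mem_box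

theorem lbox_dist {κ δ : ℝ} (h : y ∈ lbox N κ z) (hd : dist y' y ≤ δ) : y' ∈ lbox N (κ - δ) z :=
  mem_lbox.2 fun k => by
    have h1 := mem_lbox.1 h k
    have h2 := abs_le.1 ((Rd.abs_le_dist y' y k).trans hd)
    constructor <;> linarith [h1.1, h1.2, h2.1, h2.2]

theorem lbox_mono {κ κ' : ℝ} (h : κ' ≤ κ) : lbox N κ z ⊆ lbox N κ' z := fun _ hy =>
  mem_lbox.2 fun k => by
    have h1 := mem_lbox.1 hy k
    constructor <;> linarith [h1.1, h1.2]

theorem lbox_interior {δ : ℝ} (hδ : 0 < δ) (h : y ∈ lbox N δ z) : y ∈ interior (lbox N 0 z) :=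
  mem_interior_iff_mem_nhds.2 (mem_of_superset (closedBall_mem_nhds y hδ) fun _ hu =>
    sub_self δ ▸ lbox_dist h hu)

theorem exists_lbox (hN : 1 ≤ N) (y : E3) : ∃ z, y ∈ lbox N 0 z :=
  ⟨fun k => ⌊y k / wd N k⌋, mem_lbox.2 fun k => by
    have h0 : 0 < wd N k := one_pos.trans_le (Rd.one_le_wd hN k)
    have h1 := (le_div_iff₀ h0).1 (Int.floor_le (y k / wd N k))
    have h2 := (div_lt_iff₀ h0).1 (Int.lt_floor_add_one (y k / wd N k))
    constructor <;> linarith⟩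

theorem mem_nbr {B : Set (Fin 3 → ℤ)} (h : z ∈ B ∨ z - Pi.single 2 1 ∈ B) :
    z ∈ nbr 1 B ∧ z - Pi.single 2 1 ∈ nbr 1 B := by
  have k : ∀ i : Fin 3, |(Pi.single 2 1 : Fin 3 → ℤ) i| ≤ (1 : ℕ) := by decide
  rcases h with h | h
  · exact ⟨⟨z, h, by simp⟩, z, h, fun i => by simpa using k i⟩
  · exact ⟨⟨_, h, fun i => by simpa using k i⟩, _, h, by simp⟩

theorem edist_le_lipc {g : E3 → E3} {X : Set E3} (hy : y ∈ X) (hy' : y' ∈ X) :
    edist (g y) (g y') ≤ lipc g X * edist y y' := by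
  rcases eq_or_ne y y' with rfl | h
  · simp
  exact (ENNReal.div_le_iff (edist_pos.2 h).ne' (edist_ne_top _ _)).1
    (le_iSup₂_of_le y hy (le_iSup₂_of_le y' hy' le_rfl))

theorem lipc_vst (hN : 1 ≤ N) (ht : 0 < t) (ht' : t ≤ 1 / 4) (X : Set E3) :
    lipc (vst N t ∘ id) X ≤ ENNReal.ofReal (N / t) := by
  have hN' : (1 : ℝ) ≤ N := by exact_mod_cast hN
  have h1 : 1 ≤ N / t := (one_le_div ht).2 (by linarith)
  refine iSup₂_le fun u _ => iSup₂_le fun v _ => ENNReal.div_le_of_le_mul ?_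
  rw [edist_dist, edist_dist, ← ENNReal.ofReal_mul (by linarith)]
  refine ENNReal.ofReal_le_ofReal ((dist_pi_le_iff (by positivity)).2 fun i => ?_)
  have h2 := fun i => (dist_le_pi_dist u v i).trans (le_mul_of_one_le_left dist_nonneg h1)
  fin_cases i
  · exact h2 0
  · exact h2 1
  · show dist (N / t * u 2) (N / t * v 2) ≤ _
    rw [Real.dist_eq, ← mul_sub, abs_mul, abs_of_nonneg (by linarith)]
    exact mul_le_mul_of_nonneg_left (Rd.abs_le_dist u v 2) (by linarith)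

theorem nrm_le {v : E3} {a : ℝ} (hN : 1 ≤ N) (ht : 0 < t) (ht' : t ≤ 1 / 4) (ha : 0 ≤ a)
    (h : ∀ i, |v i| ≤ a * wd N i) : ‖nrm N t v‖ ≤ a / t := by
  have hN' : (0 : ℝ) < N := by exact_mod_cast hN
  have k : ∀ w : ℝ, |w| ≤ a * N → ‖2 * w / N‖ ≤ a / t := fun w hw => by
    rw [Real.norm_eq_abs, abs_div, abs_mul, abs_two, abs_of_pos hN', div_le_div_iff₀ hN' ht]
    nlinarith [abs_nonneg w]
  refine (pi_norm_le_iff_of_nonneg (by positivity)).2 fun i => ?_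
  fin_cases i
  · exact k _ (h 0)
  · exact k _ (h 1)
  · show ‖v 2 / t‖ ≤ _
    rw [Real.norm_eq_abs, abs_div, abs_of_pos ht]
    exact div_le_div_of_nonneg_right ((h 2).trans (mul_one a).le) ht.le

theorem nrm_box {c : E3} (hN : 1 ≤ N) (ht : 0 < t) (ht' : t ≤ 1 / 4) (hy : y ∈ lbox N 0 z)
    (hc : c ∈ mid N z) : ‖nrm N t (y - c)‖ ≤ 1 / t :=
  nrm_le hN ht ht' zero_le_one fun i => by
    have h1 := mem_lbox.1 hy i
    have h2 := hc.1 i
    have h3 := hc.2 i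
    have h4 := Rd.one_le_wd hN i
    simp only at h2 h3
    rw [Pi.sub_apply, abs_le]
    split_ifs at h2 h3 <;> constructor <;> linarith [h1.1, h1.2]

theorem nrm_lip (c : E3) (hN : 1 ≤ N) (ht : 0 < t) (ht' : t ≤ 1 / 4) :
    ‖nrm N t (y - c)‖ ≤ ‖nrm N t (y' - c)‖ + dist y y' / t := by
  have e : nrm N t (y - c) = nrm N t (y' - c) + nrm N t (y - y') := by
    funext i
    fin_cases i <;> simp [nrm] <;> ring
  rw [e]
  exact (norm_add_le _ _).trans (add_le_add_right (nrm_le hN ht ht' dist_nonneg fun i =>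
    (Rd.abs_le_dist y y' i).trans (le_mul_of_one_le_right dist_nonneg (Rd.one_le_wd hN i))) _)

variable {Bp : Set (Fin 3 → ℤ)} {c : (Fin 3 → ℤ) → E3} {β : (Fin 3 → ℤ) → ℝ}

theorem mag_mono {g : E3 → E3} {X Y : Set E3} (h : X ⊆ Y) :
    mag N t Bp c β g X ≤ mag N t Bp c β g Y :=
  add_le_add_right (biSup_mono h) 1

/-- the two point estimate for the map which opens the holes -/
theorem two_pt {Φ : E3 → E3} {C₀ : ℝ≥0} (hN : 1 ≤ N) (ht : 0 < t) (ht' : t ≤ 1 / 4)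
    (hβ : ∀ z ∈ Bp, 0 < β z) {u v : E3} {D : ℝ}
    (H : lipc (Φ ∘ id) (segment ℝ u v) ≤
      C₀ * mag N t Bp c β id (segment ℝ u v) * lipc (vst N t ∘ id) (segment ℝ u v))
    (h1 : dist u v ≤ D)
    (h2 : ∀ z ∈ Bp, ∀ y ∈ segment ℝ u v, y ∈ lbox N 0 z →
      dist u v ≤ D * max ‖nrm N t (y - c z)‖ (β z)) :
    dist (Φ u) (Φ v) ≤ C₀ * (N / t) * (2 * D) := by
  have hD : 0 ≤ D := dist_nonneg.trans h1
  have k : mag N t Bp c β id (segment ℝ u v) * edist u v ≤ ENNReal.ofReal (2 * D) := by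
    rw [mag, add_mul, one_mul, two_mul, ENNReal.ofReal_add hD hD, edist_dist]
    refine add_le_add (ENNReal.ofReal_le_ofReal h1) ?_
    simp only [ENNReal.iSup_mul]
    refine iSup₂_le fun y hy => iSup₂_le fun z hz => ?_
    rw [kern]
    split_ifs with h
    · have h3 := hβ z hz
      have h4 : 0 < max ‖nrm N t (id y - c z)‖ (β z) := h3.trans_le (le_max_right _ _)
      rw [← ENNReal.ofReal_mul (by positivity)]
      refine ENNReal.ofReal_le_ofReal ?_
      rw [one_div, inv_mul_le_iff₀ h4, mul_comm]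
      exact h2 z hz y hy h.1
    · simp
  have h3 := (edist_le_lipc (g := Φ ∘ id) (left_mem_segment ℝ u v) (right_mem_segment ℝ u v)).trans
    (mul_le_mul_left (H.trans (mul_le_mul_right (lipc_vst hN ht ht' _) _)) _)
  rw [mul_right_comm (C₀ : ℝ≥0∞), mul_assoc] at h3
  have h4 := h3.trans (mul_le_mul_right k _)
  rw [← ENNReal.ofReal_coe_nnreal, ← ENNReal.ofReal_mul C₀.coe_nonneg,
    ← ENNReal.ofReal_mul (by positivity), edist_le_ofReal (by positivity)] at h4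
  exact h4

theorem W_le {Ω : Set E3} (S : Src Ω) {p : ℝ} (hp : 0 ≤ p) {g h : E3 → E3} {φ : S.Q.ι}
    {D : ℝ≥0∞} (H : ∀ e, S.Q.dim e = 1 → S.Q.cell e ⊆ S.Q.cell φ →
      lipc h (S.Q.cell e) ≤ D * lipc g (S.Q.cell e)) : S.W p h φ ≤ D ^ p * S.W p g φ := by
  have h1 : S.A h φ ≤ D * S.A g φ := by
    rw [Src.A, Src.A, ← ENNReal.tsum_mul_left]
    refine ENNReal.tsum_le_tsum fun e => ?_
    split_ifs with he
    exacts [H e he.1 he.2, zero_le]
  rw [Src.W, Src.W, mul_left_comm, ← ENNReal.mul_rpow_of_nonneg _ _ hp]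
  exact mul_le_mul_right (ENNReal.rpow_le_rpow h1 hp) _

theorem tot_mul {ι : Type} (A : Set ι) (a : ι → ℝ≥0∞) (k : ℝ≥0∞) :
    tot A (fun i => k * a i) = k * tot A a := by
  rw [tot, tot, ← ENNReal.tsum_mul_left]
  exact tsum_congr fun i => indicator_const_mul A a k i

end Zo

open Zo

theorem zone_of {p : ℝ} (h1 : 1 ≤ p) (hR : ROUND p) (hH : HOLE p) (hC : CENT p) : ZONE p := by
  have hp : 0 ≤ p := zero_le_one.trans h1
  obtain ⟨κ, c₀, κ0, κ1, c1, hR⟩ := hR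
  obtain ⟨C₀, C0, hH⟩ := hH κ κ0 κ1
  obtain ⟨Cc, hC⟩ := hC
  refine ⟨c₀, c1, fun θ θ0 θ1 => ?_⟩
  obtain ⟨C, CM, C1, hR⟩ := hR θ θ0 θ1
  refine ⟨C * C₀ + (C * C₀) ^ p * Cc, CM, fun N t hN ht ht' => ?_⟩
  obtain ⟨C₁, hH⟩ := hH N t hN ht ht'
  have Nt : 0 < N / t := div_pos (by exact_mod_cast hN) ht
  obtain ⟨L, hL⟩ : ∃ L : ℝ≥0, (L : ℝ) = C₀ * (N / t) * 2 := ⟨⟨_, by positivity⟩, rfl⟩
  have L0 : (0 : ℝ) < L := by
    have : (0 : ℝ) < C₀ := one_pos.trans_le C0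
    rw [hL]
    positivity
  refine ⟨C * L + C₁ * C, fun ϑ ϑ0 ϑ1 => ?_⟩
  obtain ⟨K, K1, hR⟩ := hR ϑ ϑ0 ϑ1
  have K0 : (0 : ℝ) < K := one_pos.trans_le K1
  refine ⟨4 * L * K, ?_⟩
  intro Ω Λ S g B X β' δ β₀ η 𝓢 ψ a ι _ m hΩ hΛ hB hη δ0 δ1 β0 β1 hβ hz hM
  obtain ⟨o, ho⟩ : ∃ o : ℝ, o = δ / (((4 * L * K : ℝ≥0) : ℝ) + 1) := ⟨_, rfl⟩
  have o0 : 0 < o := by rw [ho]; positivity
  have o1 : o ≤ δ := ho ▸ div_le_self δ0.le (le_add_of_nonneg_left (NNReal.coe_nonneg _))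
  have o2 : L * (2 * o) + L * (2 * o) ≤ δ / K := by
    have := (eq_div_iff (by positivity)).1 ho
    push_cast at this
    rw [le_div_iff₀ K0]
    linarith
  rw [mul_div_right_comm, ← ho] at hz
  obtain ⟨c, hc, hsum⟩ := hC S g N t B X β' (o * t) m hN ht ht' hB (by positivity)
    (by nlinarith) (fun z c => ⟨β0.trans_le (hβ z c).1, (hβ z c).2⟩) hz
  set β : (Fin 3 → ℤ) → ℝ := fun z => β' z (c z) with hβ'
  have βp : ∀ z ∈ nbr 1 B, 0 < β z := fun z _ => β0.trans_le (hβ z _).1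
  obtain ⟨Φ, f1, f2, f3, f4, f5, f6⟩ := hH (nbr 1 B) c β (Rd.Ro.nbr_finite hB)
    fun z h => ⟨(hc z h).1, βp z h, (hβ z _).2⟩
  have fm : ∀ z, MapsTo Φ.toFun (lbox N 0 z) (lbox N 0 z) :=
    fun z => mapsTo_iff_image_subset.2 (f2 z).le
  have fb : ∀ z y, Φ.toFun y ∈ lbox N 0 z → y ∈ lbox N 0 z := fun z y hy => by
    obtain ⟨u, hu, e⟩ := (f2 z).ge hy
    exact Φ.injOn (mem_univ u) (mem_univ y) e ▸ hu
  have him : Φ.toFun '' Λ = Λ := by
    refine Subset.antisymm ?_ fun y hy => ?_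
    · rintro _ ⟨y, hy, rfl⟩
      by_cases h : y ∈ ⋃ z ∈ nbr 1 B, lbox N 0 z
      · obtain ⟨z, h, h'⟩ := mem_iUnion₂.1 h
        exact (hz z h).1 (fm z h')
      · rwa [f1 y fun h' => h (interior_subset h')]
    · by_cases h : y ∈ ⋃ z ∈ nbr 1 B, lbox N 0 z
      · obtain ⟨z, h, h'⟩ := mem_iUnion₂.1 h
        exact image_mono (hz z h).1 ((f2 z).ge h')
      · exact ⟨y, hy, f1 y fun h' => h (interior_subset h')⟩
  let G := g.trans ((Φ.restr (IsOpen.conicalSet hΛ) (subset_univ _)).cast rfl him)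
  have tp := fun (u v : E3) (D : ℝ) => two_pt (c := c) (D := D) hN ht ht' βp
    (f6 id (segment ℝ u v) (convex_segment u v) (segment_eq_image_lineMap ℝ u v ▸
      isCompact_Icc.image AffineMap.lineMap_continuous) continuousOn_id).1
  have hK : (K : ℝ) * (δ / K) = δ := mul_div_cancel₀ δ K0.ne'
  obtain ⟨h, Ψ, r0, r1, r2, r3, r4, r5⟩ := hR S G N B (fun _ => δ / K) η
    {φ | Marked S G.toFun θ φ (ψ φ) (a φ)} ψ a hΩ hΛ hN hB hη
    (fun z h => ⟨(hz z h).1, by positivity, by linarith, by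
      rintro i ⟨_, ⟨x₀, hx₀, rfl⟩, hx₀'⟩
      have k0 := fb z _ hx₀'
      have key : ∀ y ∈ S.Q.cell i, dist (G.toFun x₀) (G.toFun y) ≤ L * (2 * o) := fun y hy => by
        have k1 := (hz z h).2.1 _ (hc z h) i
          ⟨_, mem_image_of_mem _ hx₀, lbox_mono (by norm_num) k0⟩ x₀ hx₀ y hy
        have k2 : dist (g.toFun x₀) (g.toFun y) ≤ o := by
          refine k1.trans ((mul_le_mul_of_nonneg_left (max_le (nrm_box hN ht ht' k0 (hc z h).1)
            ((hβ z _).2.trans (one_div_le_one_div_of_le ht (by linarith)))) (by positivity)).trans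
            (le_of_eq ?_))
          field_simp
        refine (tp _ _ (2 * o) (by linarith) fun z' h' u hu hu' => ?_).trans (le_of_eq ?_)
        · have k3 : dist (g.toFun x₀) u ≤ dist (g.toFun x₀) (g.toFun y) := by
            linarith [dist_add_dist_of_mem_segment hu, dist_nonneg (x := u) (y := g.toFun y)]
          have k4 := (hz z' h').2.1 _ (hc z' h') i ⟨_, mem_image_of_mem _ hx₀, by
            simpa using lbox_dist (δ := 1) hu' (by linarith)⟩ x₀ hx₀ y hy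
          have k5 : max ‖nrm N t (g.toFun x₀ - c z')‖ (β z') ≤
              max ‖nrm N t (u - c z')‖ (β z') + dist (g.toFun x₀) (g.toFun y) / t :=
            max_le ((nrm_lip (y' := u) _ hN ht ht').trans (add_le_add (le_max_left _ _)
              (div_le_div_of_nonneg_right k3 ht.le)))
              (le_add_of_le_of_nonneg (le_max_right _ _) (by positivity))
          have k6 := k4.trans (mul_le_mul_of_nonneg_left k5 (by positivity))
          have k7 : 0 ≤ max ‖nrm N t (u - c z')‖ (β z') := le_max_of_le_left (norm_nonneg _)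
          rw [mul_add, mul_assoc o t (_ / t), mul_div_cancel₀ _ ht.ne'] at k6
          nlinarith [dist_nonneg (x := g.toFun x₀) (y := g.toFun y), mul_nonneg o0.le k7]
        · rw [← mul_assoc, ← hL]
      exact fun x hx y hy => (dist_triangle_left _ _ _).trans
        ((add_le_add (key x hx) (key y hy)).trans o2)⟩)
    fun _ h => h
  have near : ∀ x ∈ Ω, dist (h.toFun x) (Ψ (G.toFun x)) ≤ δ := fun x hx => by
    obtain ⟨z, hz⟩ := exists_lbox hN (G.toFun x)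
    exact hK ▸ r2 x hx z (δ / K) hz (by positivity) fun _ _ _ => le_rfl
  have sub : ∀ i, S.Q.cell i ⊆ Ω := fun i => (S.Q.cell_subset_carrier i).trans S.carrier.le
  have f7 := fun i => f6 g.toFun _ (S.cvx i).1 (S.Q.isCompact_cell i) (g.cont.mono (sub i))
  have miss : ∀ φ, φ ∉ hit S g.toFun (cavs N t B c β) → ∀ w, S.Q.cell w ⊆ S.Q.cell φ →
      Miss N κ (nbr 1 B) G.toFun (S.Q.cell w) := fun φ hφ w hw z hz => by
    rw [Set.disjoint_left]
    rintro _ ⟨x, hx, rfl⟩ hx'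
    exact hφ ⟨_, mem_image_of_mem _ (hw hx), z, hz, f4 z hz _ hx'⟩
  have lw : ∀ φ w, S.Q.cell w ⊆ S.Q.cell φ → lipc G.toFun (S.Q.cell w) ≤
      C₀ * mag N t (nbr 1 B) c β g.toFun (S.Q.cell φ) * lipc (vst N t ∘ g.toFun) (S.Q.cell w) :=
    fun φ w hw => (f7 w).1.trans (by gcongr; exact mag_mono hw)
  have C1' : (1 : ℝ≥0∞) ≤ C := by exact_mod_cast C1
  have Cp : (C : ℝ≥0∞) ≤ (C : ℝ≥0∞) ^ p := ENNReal.le_rpow_self_of_one_le C1' h1
  have Wk : ∀ φ, CM (S.M φ) * S.W p G.toFun φ ≤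
      (C * (C₀ * mag N t (nbr 1 B) c β g.toFun (S.Q.cell φ))) ^ p *
        (CM (S.M φ) * S.W p (vst N t ∘ g.toFun) φ) := fun φ => by
    rw [mul_left_comm]
    exact mul_le_mul_right (W_le S hp fun e _ he => (lw φ e he).trans
      (mul_le_mul_left (le_mul_of_one_le_left' C1') _)) _
  have sh := Ln.sharpS_of S (g := g.toFun) (h := h.toFun) (Φ := Φ.toFun) (Ψ := Ψ) (D := δ)
    (Γ := fun i : {z // z ∈ B ∨ z - Pi.single 2 1 ∈ B} => Ln.Gam N t c i) Subtype.val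
    (fun i y hy => Ln.gam_shr ht.le κ0.le (by linarith) (fun z h => (hc z h).1) fm f5
      (mem_nbr i.2).1 (mem_nbr i.2).2 hy) r0.lat (fun x hx _ _ => near x hx)
    (fun i => (r5 i i.2).1) fun i => (r5 i i.2).2
  refine ⟨h, c, fun φ => C * (C₀ * mag N t (nbr 1 B) c β g.toFun (S.Q.cell φ)),
    ⟨fun x hx hx' => ?_, fun x hx z hz => ?_, fun x hx y hy => ?_, fun x hx y hy z k1 k2 => ?_⟩,
    fun z h => (hc z h).2, fun z h => (hc z h).1, fun φ hφ w hw hw' => ?_, fun φ hφ hd => ?_,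
    fun φ hφ hd hh => ?_, fun φ => ?_, fun φ hφ => ?_, fun i => ?_,
    fun z hz φ _ x hx hx' => sh.near x (sub φ hx) ⟨z, hz⟩ hx',
    fun z hz w _ x y hw hxy hi => sh.wire w x y hw hxy ⟨z, hz⟩ hi,
    fun z hz φ hφ hi => sh.face φ (hM φ hφ.2) ⟨z, hz⟩ hi⟩
  · have e : G.toFun x = g.toFun x := f1 _ hx'
    rw [r1 x hx (e ▸ hx'), e]
  · simpa using lbox_dist (r0.keep z (fm z hz)) (near x hx)
  · have d0 : 0 ≤ dist (g.toFun x) (g.toFun y) := dist_nonneg
    have k1 := tp (g.toFun x) (g.toFun y) (dist (g.toFun x) (g.toFun y) / β₀)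
      ((le_div_iff₀ β0).2 (by nlinarith)) fun z _ _ _ _ => by
        rw [div_mul_eq_mul_div, le_div_iff₀ β0]
        exact mul_le_mul_of_nonneg_left ((hβ z _).1.trans (le_max_right _ _)) d0
    rw [← mul_assoc, ← hL] at k1
    have k2 := (r0.lip.dist_le_mul (G.toFun x) (G.toFun y)).trans
      (mul_le_mul_of_nonneg_left k1 C.2)
    have k3 := dist_triangle4_right (h.toFun x) (h.toFun y) (Ψ (G.toFun x)) (Ψ (G.toFun y))
    have k4 : (0 : ℝ) ≤ C₁ * C / β₀ * dist (g.toFun x) (g.toFun y) := by positivity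
    have k5 : ((C * L + C₁ * C : ℝ≥0) : ℝ) / β₀ * dist (g.toFun x) (g.toFun y) =
        C * (L * (dist (g.toFun x) (g.toFun y) / β₀)) +
          C₁ * C / β₀ * dist (g.toFun x) (g.toFun y) := by
      push_cast
      ring
    linarith [near x hx, near y hy]
  · have k3 : ∀ u ∈ Ω, h.toFun u ∈ lbox N (2 * δ) z → Ψ (G.toFun u) ∈ interior (lbox N 0 z) :=
      fun u hu k => lbox_interior δ0 (by
        have := lbox_dist k ((dist_comm _ _).trans_le (near u hu))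
        rwa [show 2 * δ - δ = δ by ring] at this)
    have k4 := r0.inv z _ _ (k3 x hx k1) (k3 y hy k2)
    have k5 := f3.dist_le_mul (G.toFun x) (G.toFun y)
    rw [show Φ.invFun (G.toFun x) = g.toFun x from Φ.left_inv (mem_univ _),
      show Φ.invFun (G.toFun y) = g.toFun y from Φ.left_inv (mem_univ _)] at k5
    have k6 := dist_triangle4_left (h.toFun x) (h.toFun y) (Ψ (G.toFun x)) (Ψ (G.toFun y))
    have k7 : dist (Ψ (G.toFun x)) (Ψ (G.toFun y)) ≤ dist (h.toFun x) (h.toFun y) + 2 * δ := by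
      linarith [near x hx, near y hy]
    refine k5.trans ((mul_le_mul_of_nonneg_left (k4.trans
      (mul_le_mul_of_nonneg_left k7 C.2)) C₁.2).trans ?_)
    rw [← mul_assoc]
    exact mul_le_mul_of_nonneg_right (NNReal.coe_le_coe.2 (le_add_self : C₁ * C ≤ _))
      (by positivity)
  · refine (r3 w hw (miss φ hφ w hw')).trans (add_le_add_left ?_ _)
    rw [mul_assoc]
    exact mul_le_mul_right (lw φ w hw') _
  · refine (r4 φ hd (miss φ hφ φ Subset.rfl)).1.trans (add_le_add_left ?_ _)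
    rw [mul_add]
    refine add_le_add ?_ (Wk φ)
    rw [ENNReal.mul_rpow_of_nonneg _ _ hp, mul_assoc]
    exact mul_le_mul' Cp (f7 φ).2
  · obtain ⟨_, ⟨x, hx, rfl⟩, hx'⟩ := hh
    obtain ⟨z, hz, hx'⟩ := mem_iUnion₂.1 hx'
    exact ((r4 φ hd (miss φ hφ φ Subset.rfl)).2
      ⟨z, hz, _, mem_image_of_mem _ hx, fm z hx'⟩).trans (add_le_add_left (Wk φ) _)
  · exact one_le_mul C1' (one_le_mul (by exact_mod_cast C0) le_self_add)
  · have e : mag N t (nbr 1 B) c β g.toFun (S.Q.cell φ) ≤ 1 := by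
      refine (add_le_add_right (iSup₂_le fun x hx => iSup₂_le fun z hz => ?_) 1).trans
        (add_zero 1).le
      rw [kern, if_neg fun h => hφ ⟨_, mem_image_of_mem _ hx, z, hz, h.1, by linarith [h.2]⟩]
    refine (mul_le_mul_right (mul_le_of_le_one_right' e) _).trans ?_
    exact_mod_cast le_self_add
  · have e : (fun φ => m i φ * (C * (C₀ * mag N t (nbr 1 B) c β g.toFun (S.Q.cell φ))) ^ p) =
        fun φ => (((C * C₀) ^ p : ℝ≥0) : ℝ≥0∞) *
          (m i φ * mag N t (nbr 1 B) c β g.toFun (S.Q.cell φ) ^ p) := by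
      funext φ
      rw [← mul_assoc (C : ℝ≥0∞), ENNReal.mul_rpow_of_nonneg _ _ hp,
        ENNReal.coe_rpow_of_nonneg _ hp, ENNReal.coe_mul, mul_left_comm]
    rw [e, tot_mul]
    refine (mul_le_mul_right (hsum i) _).trans ?_
    rw [← mul_assoc, ← mul_assoc, mul_left_comm]
    gcongr
    · exact le_self_add
    · exact_mod_cast le_add_self

end P073.Zn
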