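import Vale.Agent.P073Y.Zn.Batch
import Vale.Agent.P073Y.Zn.Plan
import Vale.Agent.P073Y.Zn.T1
import Vale.Agent.P073Y.Zn.Modl
import Vale.Agent.P073Y.Zn.Fitw
import Vale.Agent.P073Y.Zn.Tyz
import Vale.Agent.P073Y.Zn.St1
import Vale.Agent.P073Y.Zn.St2
import Vale.Agent.P073Y.Zn.Cl
import Vale.Agent.P073Y.Zn.Dyn1
import Vale.Agent.P073Y.Zn.Dyn2
import Vale.Agent.P073Y.Zn.Cent
import Vale.Agent.P073Y.Zn.Ncong
import Vale.Agent.P073Y.Zn.Zone
import Vale.Agent.P073Y.Zn.Za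
import Vale.Agent.P073Y.Zn.Layer
import Vale.Agent.P073Y.Zn.Cubes
import Vale.Agent.P073Y.An2.Hole
import Vale.Agent.P073Y.An2.Choose
import Vale.Agent.P073Y.Rd.All
import Vale.Agent.P073Y.St.All

/-!
# The two batches from the normalisation in one box
-/

namespace P073.Zn

open P073.Top

theorem plan (k : Cst) : PLAN k :=
  plan_of (st1_of shls (tyz nullt) stdz fit1 excl) (st2_of stdz modl nullt fitw) (st3_of stdz)
    (og_of gauge3) cl (dyn1_of invb) (dyn2_of (fitc invb) fitt) dyn3 k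

theorem layer {p : ℝ} (h1 : 1 ≤ p) (hR : ROUND p) (hH : HOLE p) (hC : CHOOSE p) :
    ∃ k : Cst, 1 ≤ k.c₀ ∧ LAYER p k := by
  have hp : 0 < p := one_pos.trans_le h1
  obtain ⟨k, hk, hZ⟩ := za_of h1 (zone_of h1 hR hH (cent_of hp hC)) (ncong hp) nrm_ok
  exact ⟨k, hk, layer_of hp hZ (ncong hp)⟩

theorem batch_of {p : ℝ} (h1 : 1 ≤ p) (hR : ROUND p) (hH : HOLE p) (hC : CHOOSE p) : BATCH p := by
  have hp : 0 < p := one_pos.trans_le h1
  obtain ⟨k, hk, hL⟩ := layer h1 hR hH hC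
  exact batch_of_plan hk hL (cubes_ok hp) (plan k) (ncong hp) nrm_ok

theorem layer' {p : ℝ} (h1 : 1 ≤ p) (h3 : p < 3) : ∃ k : Cst, 1 ≤ k.c₀ ∧ LAYER p k :=
  have hp : 0 < p := one_pos.trans_le h1
  layer h1 (Rd.round_of hp (St.stage h1)) (An2.hole hp.le) (An2.choose hp.le h3)

theorem batch {p : ℝ} (h1 : 1 ≤ p) (h3 : p < 3) : BATCH p :=
  have hp : 0 < p := one_pos.trans_le h1
  batch_of h1 (Rd.round_of hp (St.stage h1)) (An2.hole hp.le) (An2.choose hp.le h3)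

end P073.Zn
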