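import Vale.Agent.P073Y.Zn.Bas

/-!
# The two batches from layers, free cubes and the plan
-/

open Set Metric Topology Filter MeasureTheory
open scoped NNReal ENNReal

namespace P073.Zn

open P073.Top

variable {Ω : Set E3}

theorem Cand.mono {S : Src Ω} {w₀ : E3} {σ : ℝ} {Y Y' : Set E3} {w : S.Q.ι → ℝ≥0∞}
    (h : Cand S w₀ σ Y w) (hY : Y' ⊆ Y) : Cand S w₀ σ Y' w :=
  ⟨h.pos, fun q hq n hn hs => h.sub q hq n hn (hs.trans hY),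
    fun φ h1 h2 => h.wt φ h1 (h2.trans (inter_subset_inter_left _ hY))⟩

theorem cond_refl : Cond (ContinuousAffineEquiv.refl ℝ E3) 1 :=
  ⟨1, 1, LipschitzWith.id, LipschitzWith.id, (one_mul _).le⟩

theorem exists_nrm (hN : NRM) (S : Src Ω) : Nonempty (Nrm S (ContinuousAffineEquiv.refl ℝ E3)) :=
  let ⟨n, _⟩ := hN S (.refl ℝ E3) ∅ (fun _ => 1) (fun _ => 1) (a := 1) (b := 1) (L := 1)
    LipschitzWith.id LipschitzWith.id (one_mul _).le fun _ h => absurd h (notMem_empty _)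
  ⟨n⟩

theorem ZD.Std.ca {Z : ZD} (h : Z.Std) (k : Cst) (M₀ : ℝ≥0) :
    Z.ca k M₀ = k.Ca M₀ (1 / 1000) 1 (1 / 4) 1 := by
  rw [ZD.ca, h.N, h.t, h.θ, h.L]

/-- the accounting over disjoint families with the same constant -/
theorem acc {ι I : Type} {El : Set ι} {H : I → Set ι} {K : Set ι} (a : ι → ℝ≥0∞) (C : ℝ≥0∞)
    (hd : ∀ i j, i ≠ j → Disjoint (H i) (H j)) :
    tot (El \ K) a + ∑' i, C * tot (El ∩ H i) a ≤ (1 + C) * tot El a := by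
  rw [add_mul, one_mul, ENNReal.tsum_mul_left]
  exact add_le_add (tot_subset sdiff_subset a) (mul_le_mul_right (tsum_tot_le
    (fun _ => inter_subset_left) (fun i j h => (hd i j h).mono inter_subset_right
      inter_subset_right) a) _)

/-- the choice of the tolerances -/
theorem exists_eta {η : ℝ≥0∞} (hη : 0 < η) (a b : ℝ≥0) : ∃ η' : ℝ≥0∞, 0 < η' ∧ η' ≤ η ∧
    a * (b * η' + η') ≤ η := by
  obtain ⟨c, c0, hc⟩ := ENNReal.exists_nnreal_pos_mul_lt (a := (a * (b + 1) + 1 : ℝ≥0))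
    ENNReal.coe_ne_top hη.ne'
  refine ⟨c, ENNReal.coe_pos.2 c0, le_trans ?_ hc.le, le_trans ?_ hc.le⟩
  · exact le_mul_of_one_le_right' (by exact_mod_cast le_add_self)
  · push_cast
    calc (a : ℝ≥0∞) * (b * c + c) = c * (a * (b + 1)) := by ring
      _ ≤ _ := mul_le_mul_right le_self_add _

theorem batch_of_plan {p : ℝ} {k : Cst} (hk : 1 ≤ k.c₀) (hL : LAYER p k) (hC : CUBES p)
    (hP : PLAN k) (hG : NCONG p) (hN : NRM) : BATCH p := by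
  classical
  obtain ⟨Cc, hC⟩ := hC
  obtain ⟨κ, κ0, hP⟩ := hP
  set Cs : ℝ≥0 → ℝ≥0 := fun M₀ => k.Ca M₀ (1 / 1000) 1 (1 / 4) 1 with hCs
  refine ⟨k.c₀, k.Cz, k.CM, fun M₀ => (1 + Cc) * (1 + Cs M₀) * (1 + Cs M₀),
    fun M₀ θ N t L => (1 + Cc) * (1 + Cs M₀) * k.Ca M₀ θ N t L, κ, hk, κ0, ?_⟩
  intro Ω Λ Ω₀ f f' ε J _ Y hΩ hΛ hb hf hε hc hs hK hY
  obtain ⟨l, v, Z₁, s₁, s₀, s1, s0, ty, std₁, hP⟩ := hP Y hΩ hΛ hb hf hε hc hs hK hY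
  refine ⟨l, v, fun j => (Z₁ (.inl j)).T, fun j => (Z₁ (.inl j)).B, s₁, s₀, s1, s0,
    fun j => ⟨(ty j).1, (ty j).2.1, (ty j).2.2.1⟩, ?_⟩
  intro s b θ e a1 a2 a3 a4 a5 a6
  obtain ⟨o, O, σ₀, δ₁, r₁, lev, nn, o1, o2, o3, o4, δe, σ1, hP⟩ := hP s b θ e a1 a2 a3 a4 a5 a6
  refine ⟨o, O, σ₀, o1, o2, o3, o4, fun P hco => ?_⟩
  obtain ⟨Z₂, δ₂, r₂, std₂, hP⟩ := hP P hco
  intro S g M₀ w₀ σ ρ w Nr ν n η 𝓢 ψ a ι _ m hη happ hnr hfar hσ hρ hcand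
  obtain ⟨R₁, d1, d2, d3, d4, hP⟩ := hP S g happ
  obtain ⟨n₀⟩ := exists_nrm hN S
  obtain ⟨η', e0, e1, e2⟩ := exists_eta hη (1 + Cc) (1 + Cs M₀)
  obtain ⟨η₁, e3, e4⟩ := ENNReal.exists_pos_sum_of_countable' e0.ne' (J ⊕ ℕ)
  obtain ⟨η₂, e5, e6⟩ := ENNReal.exists_pos_sum_of_countable' e0.ne' ℕ
  set El : Set S.Q.ι := {φ | S.Q.dim φ = 2 ∧ ∀ j, φ ∉ Nr j} with hEl
  set Ct : Set S.Q.ι := {φ | S.Q.cell φ ⊆ cubes P (s / 2)} with hCt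
  have nrb : ∀ j, ∀ φ ∈ Nr j, ∀ u ∈ S.Q.cell φ, u ∈ thickening s₁ (Y j).K ∩ Ω :=
    fun j φ hφ u hu => ⟨(hnr j).2.1 φ hφ hu, cell_sub φ hu⟩
  have nrd : ∀ j, ∀ φ ∈ Nr j, ∀ {x r}, Spot f ε (⋃ j, thickening s₁ (Y j).K) (deepc P s θ) x r →
      Disjoint (S.Q.cell φ) (closedBall x r) := fun j φ hφ x r h =>
    (h.disj.mono_right fun u hu => Or.inl (mem_iUnion.2 ⟨j, (nrb j φ hφ u hu).1⟩)).symm
  obtain ⟨h₁, x₁, L₁, c₁, dj₁, lf₁, N₁, A₁⟩ := hL S g Z₁ δ₁ r₁ M₀ w El Ct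
    (Sum.elim Nr fun _ => ∅) (Sum.elim ν fun _ => .refl ℝ E3)
    (fun i => match i with | .inl j => n j | .inr _ => n₀) η₁ (Sum.elim 𝓢 fun _ => ∅)
    (Sum.elim ψ fun _ _ => 0) (Sum.elim a fun _ _ => 0) (Sum.elim m fun _ _ _ => 0) hΩ hΛ R₁
    (fun i => match i with
      | .inl j => ⟨e3 _, (ty j).2.2.2.2.2.2.2 ▸ (hnr j).1, fun φ hφ => by
          obtain ⟨u, hu⟩ := S.Q.cell_nonempty φ
          obtain ⟨z, z1, z2⟩ := d1 j u (nrb j φ hφ u hu)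
          refine mem_hit.2 ⟨u, hu, mem_biUnion (sub_nbr 1 _ (z1 (sub_nbr 1 _ rfl))) ?_⟩
          rwa [(ty j).2.2.2.1],
        fun φ hφ z hz x hx => nrd j φ hφ (d3 _ z hz x hx).1,
        fun φ hφ => (ty j).2.2.2.2.2.1 ▸ (hnr j).2.2 φ hφ⟩
      | .inr i => ⟨e3 _, (std₁ i).L ▸ cond_refl, empty_subset _,
        fun _ h => absurd h (notMem_empty _), fun _ h => absurd h (notMem_empty _)⟩)
    (fun φ hφ => ⟨hφ.1, fun i => match i with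
      | .inl j => hφ.2 j
      | .inr _ => notMem_empty _, hfar φ hφ.1 hφ.2⟩)
  obtain ⟨R₂, f1, f2, f3, f4, f5⟩ := hP h₁ L₁
  set El₁ := El \ junk S x₁ fun b => r₁ b.1.1 b.1.2 with hEl₁
  set Ct₁ := Ct ∪ ⋃ i, hit S g.toFun (Z₁ i).core with hCt₁
  obtain ⟨h₂, x₂, L₂, c₂, dj₂, lf₂, -, A₂⟩ := hL S h₁ Z₂ δ₂ r₂ M₀ w El₁ Ct₁ (fun _ => ∅)
    (fun _ => .refl ℝ E3) (fun _ => n₀) η₂ (fun _ => ∅) (fun _ _ => 0) (fun _ _ => 0)
    (ι := Unit) (fun _ _ _ => 0) hΩ hΛ R₂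
    (fun i => ⟨e5 _, (std₂ i).L ▸ cond_refl, empty_subset _,
      fun _ h => absurd h (notMem_empty _), fun _ h => absurd h (notMem_empty _)⟩)
    (fun φ hφ => ⟨hφ.1.1, fun _ => notMem_empty _, hfar φ hφ.1.1 hφ.1.2⟩)
  set El₂ := El₁ \ junk S x₂ fun b => r₂ b.1.1 b.1.2 with hEl₂
  have g1 := fun b : Idx Z₁ => d3 _ _ b.2 _ (c₁ b)
  have g2 := fun b : Idx Z₂ => f2 _ _ b.2 _ (c₂ b)
  have hσ₂ : ∀ b : Idx Z₂, ∃ τ, Cand S w₀ τ (closedBall (x₂ b) (r₂ b.1.1 b.1.2)) w ∧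
      100 * τ ≤ r₂ b.1.1 b.1.2 := fun b => by
    rcases (g2 b).2 with ⟨k', q1, q2⟩ | ⟨q, q1, q2, q3⟩
    · refine ⟨σ k', (hσ k').2.mono fun u hu => ⟨(q1 hu).1, fun h => h.elim
        (fun h => disjoint_left.1 (g2 b).1.disj hu (Or.inl h)) (q1 hu).2⟩, ?_⟩
      linarith [(hσ k').1]
    · exact ⟨ρ, (hcand q q1).mono fun u hu => ⟨q2 hu,
        fun h => disjoint_left.1 (g2 b).1.disj hu (Or.inr h)⟩, by linarith⟩
  choose τ τ1 τ2 using hσ₂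
  have hs₁ : ∀ b : Idx Z₁, 100 * (nn b.1.1 + 1) * σ (lev b.1.1) ≤ r₁ b.1.1 b.1.2 := fun b =>
    (mul_le_mul_of_nonneg_left (hσ _).1 (by positivity)).trans (σ1 _ _)
  obtain ⟨I, y, r, F1, F2, F3, F4⟩ := hC S h₂.toFun w₀ w x₁ (fun b => r₁ b.1.1 b.1.2)
    (fun b => σ (lev b.1.1)) x₂ (fun b => r₂ b.1.1 b.1.2) τ (fun b => nn b.1.1) El₂
    ⟨fun b => (R₁.fit _ _ b.2 _ (c₁ b)).1, fun b => (hσ _).2.mono fun u hu =>
      ⟨((g1 b).2 hu).1, fun h => h.elim (fun h => disjoint_left.1 (g1 b).1.disj hu (Or.inl h))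
        ((g1 b).2 hu).2⟩, fun b => by
      have := (hσ (lev b.1.1)).2.pos
      nlinarith [hs₁ b, mul_nonneg (Nat.cast_nonneg (α := ℝ) (nn b.1.1)) this.le], dj₁, lf₁⟩
    ⟨fun b => (R₂.fit _ _ b.2 _ (c₂ b)).1, τ1, τ2, dj₂, lf₂⟩
    (fun b => by
      obtain ⟨F, q1, q2⟩ := f4 _ _ b.2 _ (c₁ b)
      exact ⟨(encard_le_encard fun b' hb' => (q2 b' _ (c₂ b') hb').1).trans q1, hs₁ b,
        fun b' hb' => (q2 b' _ (c₂ b') hb').2⟩)
    (fun φ hφ hb => by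
      have h0 : φ ∈ El := ⟨hφ, fun j hj => by
        obtain ⟨u, hu⟩ := S.Q.cell_nonempty φ
        rcases hb with ⟨b, hb⟩ | ⟨b, hb⟩
        · exact disjoint_left.1 (nrd j φ hj (g1 b).1) hu (hb hu)
        · exact disjoint_left.1 (nrd j φ hj (g2 b).1) hu (hb hu)⟩
      by_cases q1 : φ ∈ junk S x₁ fun b => r₁ b.1.1 b.1.2
      · exact Or.inr (Or.inl q1)
      by_cases q2 : φ ∈ junk S x₂ fun b => r₂ b.1.1 b.1.2
      · exact Or.inr (Or.inr q2)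
      exact Or.inl ⟨⟨h0, q1⟩, q2⟩)
  have spot : ∀ i, Spot f ε (⋃ j, thickening s₁ (Y j).K) (deepc P s θ) (y i) (r i) := fun i => by
    rcases F2 i with ⟨b, hb⟩ | ⟨b, hb⟩
    · exact ⟨(g1 b).1.disj.mono_left hb, fun u hu u' hu' => (g1 b).1.osc u (hb hu) u' (hb hu')⟩
    · exact ⟨(g2 b).1.disj.mono_left hb, fun u hu u' hu' => (g2 b).1.osc u (hb hu) u' (hb hu')⟩
  refine ⟨h₂, I, y, r, f5 h₂ L₂, fun u hu => ?_, F1, fun i => ⟨(spot i).disj, (spot i).osc⟩, ?_,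
    fun j => ⟨fun φ hφ u hu => d1 j u (nrb j φ hφ u hu), ?_⟩⟩
  · obtain ⟨q, q1, q2⟩ := mem_iUnion₂.1 (hu (mem_closedBall_self (by positivity)))
    have u0 : u ∈ Ω := hs ((hco.sub q q1).1 (closedBall_subset_closedBall (by linarith) q2))
    have u1 := L₁.off u u0 (d4 u hu).1
    rw [L₂.off u u0 (by rw [u1]; exact (d4 u hu).2), u1]
  · set X := tot El₂ fun φ => w φ * S.E p h₂.toFun φ with hX
    set D := tot El fun φ => w φ * dd S p g.toFun Ct φ with hD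
    set G := fun j => tot {φ | S.Q.dim φ = 2 ∧ (∀ j, φ ∉ Nr j) ∧
      (S.Q.cell φ ∩ (Y j).G).Nonempty} fun φ => w φ * S.W p g.toFun φ with hG'
    have q1 : tot {φ | S.Q.dim φ = 2 ∧ (∀ j, φ ∉ Nr j) ∧
        ∀ k, Disjoint (S.Q.cell φ) (ball (y k) (r k))} (fun φ => w φ * S.E p h₂.toFun φ) ≤ X := by
      refine tot_subset (fun φ hφ => ?_) _
      have : φ ∉ junk S x₁ (fun b => r₁ b.1.1 b.1.2) ∪ junk S x₂ fun b => r₂ b.1.1 b.1.2 :=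
        fun h => by
          obtain ⟨i, hi⟩ := F3 φ h
          obtain ⟨u, hu⟩ := S.Q.cell_nonempty φ
          exact disjoint_left.1 (hφ.2.2 i) hu (hi hu)
      exact ⟨⟨⟨hφ.1, hφ.2.1⟩, fun h => this (Or.inl h)⟩, fun h => this (Or.inr h)⟩
    have q2 : X ≤ (1 + Cs M₀) * tot El₁ (fun φ => w φ * dd S p h₁.toFun Ct₁ φ) + η' := by
      refine le_trans (tot_le fun φ _ => mul_le_mul_right ?_ _) (A₂.trans ?_)
      · rw [dd_of_mem]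
        · exact le_add_self
        · rcases f3 φ with ⟨i, hi⟩ | ⟨i, hi⟩ | hi
          · exact Or.inl (Or.inr (mem_iUnion.2 ⟨i, hi⟩))
          · exact Or.inr (mem_iUnion.2 ⟨i, hi⟩)
          · exact Or.inl (Or.inl hi)
      · simp only [fun i => (std₂ i).ca k M₀]
        rw [ENNReal.tsum_add, ← add_assoc]
        exact add_le_add (acc _ _ R₂.one) e6.le
    have q3 : tot El₁ (fun φ => w φ * dd S p h₁.toFun Ct₁ φ) ≤ (1 + Cs M₀) * D +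
        ∑ j, k.Ca M₀ (Y j).θ (Y j).N (Y j).t (Y j).L * G j + η' := by
      refine A₁.trans ?_
      rw [ENNReal.tsum_add, ← add_assoc, ENNReal.summable.tsum_sum ENNReal.summable,
        add_comm (∑' j : J, _), ← add_assoc, tsum_fintype (β := J)]
      simp only [fun i => (std₁ i).ca k M₀]
      refine add_le_add (add_le_add (acc _ _ fun i j h => R₁.one _ _ fun h' =>
        h (Sum.inr_injective h')) (Finset.sum_le_sum fun j _ => ?_)) e4.le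
      obtain ⟨-, -, -, t1, t2, t3, -, t4⟩ := ty j
      rw [ZD.ca, t1, t2, t3, t4]
      refine mul_le_mul_right (tot_mono (fun φ hφ => ?_) fun φ hφ => ?_) _
      · obtain ⟨u, u1, u2⟩ := mem_hit.1 hφ.2
        exact ⟨hφ.1.1, hφ.1.2, u, u1, d2 j u (cell_sub φ u1) u2⟩
      · obtain ⟨u, u1, u2⟩ := mem_hit.1 hφ.2
        rw [dd_of_notMem fun h => ?_]
        obtain ⟨q, q1, q2⟩ := mem_iUnion₂.1 (h u1)
        exact disjoint_left.1 (hco.sub q q1).2 (closedBall_subset_closedBall (by linarith) q2)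
          (mem_iUnion.2 ⟨j, d2 j u (cell_sub φ u1) u2⟩)
    simp only [pot_eq_dd]
    calc _ ≤ X + Cc * X := add_le_add q1 F4
      _ = (1 + Cc) * X := by rw [add_mul, one_mul]
      _ ≤ (1 + Cc) * ((1 + Cs M₀) * ((1 + Cs M₀) * D +
          ∑ j, k.Ca M₀ (Y j).θ (Y j).N (Y j).t (Y j).L * G j + η') + η') :=
        mul_le_mul_right (q2.trans (add_le_add (mul_le_mul_right q3 _) le_rfl)) _
      _ = (1 + Cc) * (1 + Cs M₀) * (1 + Cs M₀) * D + (1 + Cc) * (1 + Cs M₀) *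
          ∑ j, k.Ca M₀ (Y j).θ (Y j).N (Y j).t (Y j).L * G j +
          (1 + Cc) * ((1 + Cs M₀) * η' + η') := by ring
      _ ≤ _ := by
        push_cast at e2 ⊢
        rw [Finset.mul_sum]
        simp only [← mul_assoc]
        exact add_le_add le_rfl e2
  · obtain ⟨c, kk, hn⟩ := N₁ (.inl j)
    refine ⟨c, kk, ?_⟩
    have := hG hn (fun φ hφ => ((hnr j).2.2 φ hφ).cell) Subset.rfl
      (h' := (Z₁ (.inl j)).T ∘ h₂.toFun ∘ (ν j).symm) (fun φ hφ => ?_) (δe j) le_rfl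
      (((ENNReal.le_tsum _).trans e4.le).trans e1)
    · obtain ⟨-, -, -, t1, t2, t3, t4, -⟩ := ty j
      rwa [t1, t2, t3, t4] at this
    · rintro _ ⟨u, hu, rfl⟩
      have u1 := nrb j φ hφ u hu
      show (Z₁ (.inl j)).T (h₂.toFun ((ν j).symm (ν j u))) =
        (Z₁ (.inl j)).T (h₁.toFun ((ν j).symm (ν j u)))
      rw [(ν j).symm_apply_apply, L₂.off u u1.2 (f1 j u u1)]

end P073.Zn
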