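import Vale.Agent.P073Y.Zn.Bas

/-!
# One zone in ambient coordinates
-/

open Set Metric Topology Filter MeasureTheory
open scoped NNReal ENNReal

namespace P073.Zn

open P073.Top

namespace Za

theorem lipAt_post {P f : E3 → E3} {X : Set E3} {K : ℝ≥0} (hP : LipschitzWith K P) (x : E3) :
    lipAt (P ∘ f) X x ≤ K * lipAt f X x := by
  by_cases hM : K = 0
  · refine (Cone.lipAt_le (c := 0) (eventually_nhdsWithin_of_forall fun y _ => ?_)).trans bot_le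
    have := hP (f y) (f x)
    rwa [hM, ENNReal.coe_zero, zero_mul, ← zero_mul (edist y x)] at this
  rw [← add_zero (K * lipAt f X x)]
  refine Cone.le_of_forall_gt_aff (by exact_mod_cast hM) ENNReal.coe_ne_top fun c hc =>
    Cone.lipAt_le ?_
  filter_upwards [Cone.ev_of_lipAt_lt hc] with y h1
  rw [add_zero, mul_assoc]
  exact (hP _ _).trans (mul_le_mul_right h1 _)

theorem edist_le {g : E3 → E3} {X : Set E3} {y y' : E3} (hy : y ∈ X) (hy' : y' ∈ X) :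
    edist (g y) (g y') ≤ lipc g X * edist y y' := by
  rcases eq_or_ne y y' with rfl | h
  · simp
  exact (ENNReal.div_le_iff (edist_pos.2 h).ne' (edist_ne_top _ _)).1
    (le_iSup₂_of_le y hy (le_iSup₂_of_le y' hy' le_rfl))

theorem lipc_conj {P f φ : E3 → E3} {K a : ℝ≥0} (hP : LipschitzWith K P)
    (ha : LipschitzWith a φ) {X Y : Set E3} (hm : MapsTo φ X Y) :
    lipc (P ∘ f ∘ φ) X ≤ (K * a : ℝ≥0) * lipc f Y := by
  refine iSup₂_le fun x hx => iSup₂_le fun y hy => ENNReal.div_le_of_le_mul ?_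
  calc _ ≤ K * (lipc f Y * (a * edist x y)) := (hP _ _).trans (mul_le_mul_right
        ((edist_le (hm hx) (hm hy)).trans (mul_le_mul_right (ha x y) _)) _)
    _ = _ := by push_cast; ring

theorem en_conj {p : ℝ} (hp : 0 < p) {P f φ ψ : E3 → E3} {K a b : ℝ≥0} (hP : LipschitzWith K P)
    (ha : LipschitzWith a φ) (hb : LipschitzWith b ψ) {X Y : Set E3} (hX : MeasurableSet X)
    (hY : MeasurableSet Y) (hm : MapsTo φ X Y) (hm' : MapsTo ψ Y X) (e : ∀ x, ψ (φ x) = x)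
    (e' : ∀ y, φ (ψ y) = y) :
    En 2 p (P ∘ f ∘ φ) X ≤ ((K * a : ℝ≥0) : ℝ≥0∞) ^ p * (b : ℝ≥0∞) ^ 2 * En 2 p f Y := by
  have h1 : En 2 p (P ∘ f ∘ φ) X ≤ (K : ℝ≥0∞) ^ p * En 2 p (f ∘ φ) X := by
    unfold En
    rw [← lintegral_const_mul' _ _ (ENNReal.rpow_ne_top_of_nonneg hp.le ENNReal.coe_ne_top)]
    refine setLIntegral_mono' hX fun x _ => ?_
    rw [← ENNReal.mul_rpow_of_nonneg _ _ hp.le]
    exact ENNReal.rpow_le_rpow (lipAt_post hP x) hp.le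
  refine h1.trans ((mul_le_mul_right (EN.en_comp_le hp hY hm hm' (fun x _ => e x)
    (fun y _ => e' y) ha.lipschitzOnWith hb.lipschitzOnWith) _).trans_eq ?_)
  rw [ENNReal.coe_mul, ENNReal.mul_rpow_of_nonneg _ _ hp.le]
  ring

theorem lip_vst {N : ℕ} {t : ℝ} (hN : 1 ≤ N) (ht : 0 < t) (ht' : t ≤ 1 / 4) :
    LipschitzWith (N / t).toNNReal (vst N t) := by
  have hN' : (1 : ℝ) ≤ N := by exact_mod_cast hN
  have h1 : 1 ≤ N / t := (one_le_div ht).2 (by linarith)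
  refine .of_dist_le_mul fun u v => ?_
  rw [Real.coe_toNNReal _ (by linarith)]
  refine (dist_pi_le_iff (by positivity)).2 fun i => ?_
  have h2 := fun i => (dist_le_pi_dist u v i).trans (le_mul_of_one_le_left dist_nonneg h1)
  fin_cases i
  · exact h2 0
  · exact h2 1
  · show dist (N / t * u 2) (N / t * v 2) ≤ _
    rw [Real.dist_eq, ← mul_sub, abs_mul, abs_of_nonneg (by linarith)]
    exact mul_le_mul_of_nonneg_left (dist_le_pi_dist u v 2) (by linarith)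

/-- one normalised family instead of finitely many -/
theorem sum_le {κ ι : Type} [Fintype ι] {A B : Set κ} (hA : A ⊆ B) {m : ι → κ → ℝ≥0∞}
    {k : κ → ℝ≥0∞} {c c' : ℝ≥0∞} (hc : c ≤ c') (h0 : c' ≠ 0)
    (h : tot A (fun φ => (∑ i, m i φ / tot B (m i)) * k φ) ≤
      c * tot B fun φ => ∑ i, m i φ / tot B (m i)) (i : ι) :
    tot A (fun φ => m i φ * k φ) ≤ (Fintype.card ι + 1) * c' * tot B (m i) := by
  by_cases e0 : tot B (m i) = 0
  · refine (tot_le (b := fun _ => 0) fun φ hφ => ?_).trans ((tot_zero A).le.trans zero_le)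
    rw [nonpos_iff_eq_zero.1 ((le_tot (hA hφ) (m i)).trans e0.le), zero_mul]
  by_cases e1 : tot B (m i) = ⊤
  · rw [e1, ENNReal.mul_top (mul_ne_zero (by simp) h0)]
    exact le_top
  have h1 : (tot B fun φ => ∑ i, m i φ / tot B (m i)) ≤ Fintype.card ι + 1 := by
    rw [tot_sum]
    refine (Finset.sum_le_card_nsmul _ _ 1 fun j _ => ?_).trans (by simp)
    simp only [div_eq_mul_inv]
    rw [tot_mul', ← div_eq_mul_inv]
    exact ENNReal.div_self_le_one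
  calc _ ≤ tot A fun φ => tot B (m i) * ((∑ i, m i φ / tot B (m i)) * k φ) := tot_le fun φ _ => by
        rw [← mul_assoc]
        refine mul_le_mul_left ((ENNReal.mul_div_cancel e0 e1).ge.trans (mul_le_mul_right ?_ _)) _
        exact Finset.single_le_sum (f := fun i => m i φ / tot B (m i)) (fun _ _ => zero_le)
          (Finset.mem_univ i)
    _ ≤ tot B (m i) * (c' * (Fintype.card ι + 1)) := by
        rw [tot_mul]
        exact mul_le_mul_right (h.trans (mul_le_mul' hc h1)) _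
    _ = _ := by ring

variable {Ω : Set E3} {S : Src Ω} {ν : E3 ≃ᴬ[ℝ] E3}

theorem hit_src (n : Nrm S ν) (T g : E3 → E3) (Y : Set E3) :
    hit n.src (T ∘ g ∘ ν.symm) Y = hit S g (T ⁻¹' Y) := by
  ext φ
  refine mem_hit.trans (Iff.trans ?_ (mem_hit (S := S)).symm)
  constructor
  · rintro ⟨_, ⟨x, hx, rfl⟩, h⟩
    exact ⟨x, hx, by simpa [affH, ConHomeo.ofAffine] using h⟩
  · rintro ⟨x, hx, h⟩
    exact ⟨ν x, ⟨x, hx, rfl⟩, by simpa using h⟩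

/-- the wires of a cell -/
def wr (S : Src Ω) (φ : S.Q.ι) : Set S.Q.ι := {e | S.Q.dim e = 1 ∧ S.Q.cell e ⊆ S.Q.cell φ}

theorem wr_finite (φ : S.Q.ι) : (wr S φ).Finite :=
  (finite_meet S (S.Q.isCompact_cell φ) (cell_sub φ)).subset fun e he =>
    (S.Q.cell_nonempty e).mono (subset_inter Subset.rfl he.2)

theorem A_eq (g : E3 → E3) (φ : S.Q.ι) :
    S.A g φ = tot (wr S φ) fun e => lipc g (S.Q.cell e) := tsum_congr fun e => by
  by_cases he : e ∈ wr S φ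
  · exact (if_pos he).trans (indicator_of_mem he fun e => lipc g (S.Q.cell e)).symm
  · exact (if_neg he).trans (indicator_of_notMem he _).symm

theorem wr_src (n : Nrm S ν) (φ : S.Q.ι) : wr n.src φ = wr S φ :=
  Set.ext fun _ => and_congr_right fun _ => image_subset_image_iff ν.injective

/-- the constant of the far faces -/
noncomputable def cf (p : ℝ) (U L M : ℝ≥0) : ℝ≥0∞ :=
  2 ^ (p - 1) * (U : ℝ≥0∞) ^ p + (U : ℝ≥0∞) ^ p * (L : ℝ≥0∞) ^ 2 * (1 + M)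

/-- the error on a far face -/
noncomputable def er (S : Src Ω) (p : ℝ) (c b : ℝ≥0) (φ : S.Q.ι) : ℝ≥0∞ :=
  2 ^ (p - 1) * (S.r φ : ℝ≥0∞) ^ 2 * (tot (wr S φ) fun _ => (c : ℝ≥0∞)) ^ p +
    (c : ℝ≥0∞) ^ p * (b : ℝ≥0∞) ^ 2

theorem cf_ne {p : ℝ} (h1 : 1 ≤ p) (U L M : ℝ≥0) : cf p U L M ≠ ⊤ := by
  have h2 : 0 ≤ p - 1 := by linarith
  have h3 : 0 ≤ p := by linarith
  unfold cf
  finiteness

theorem er_ne {p : ℝ} (h1 : 1 ≤ p) (c b : ℝ≥0) (φ : S.Q.ι) : er S p c b φ ≠ ⊤ := by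
  have h2 : 0 ≤ p - 1 := by linarith
  have h3 : 0 ≤ p := by linarith
  have h4 : (tot (wr S φ) fun _ => (c : ℝ≥0∞)) ≠ ⊤ :=
    tot_ne_top (wr_finite φ) fun _ _ => ENNReal.coe_ne_top
  unfold er
  finiteness

/-- the estimate on a far face -/
theorem far {p : ℝ} (h1 : 1 ≤ p) (n : Nrm S ν) {P R g h : E3 → E3} {a b a' b' U L M : ℝ≥0}
    (ha : LipschitzWith a ν) (hb : LipschitzWith b ν.symm) (ha' : LipschitzWith a' P)
    (hb' : LipschitzWith b' R) (hL : a * b ≤ L) (hU : b' * a * (a' * b) ≤ U) {φ : S.Q.ι}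
    (hr : n.r φ = a * S.r φ) {k η : ℝ≥0∞} (hη : η ≤ 1) {Ct Co : Set S.Q.ι}
    (hw : ∀ e, S.Q.dim e = 1 → n.src.Q.cell e ⊆ n.src.Q.cell φ →
      lipc h (n.src.Q.cell e) ≤ k * lipc (P ∘ g ∘ ν.symm) (n.src.Q.cell e) + η)
    (hf : n.src.E p h φ ≤ k ^ p * (n.src.E p (P ∘ g ∘ ν.symm) φ +
      M * n.src.W p (P ∘ g ∘ ν.symm) φ) + η)
    (hd : φ ∈ Co → n.src.E p h φ ≤ k ^ p * (M * n.src.W p (P ∘ g ∘ ν.symm) φ) + η) :
    dd S p (R ∘ h ∘ ν) (Ct ∪ Co) φ ≤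
      cf p U L M * (dd S p g Ct φ * k ^ p) + er S p (b' * a) b φ * η := by
  have hp : 0 < p := one_pos.trans_le h1
  have m1 : ∀ e, MapsTo ν (S.Q.cell e) (n.src.Q.cell e) := fun e => mapsTo_image _ _
  have m2 : ∀ e, MapsTo ν.symm (n.src.Q.cell e) (S.Q.cell e) := by
    rintro e _ ⟨x, hx, rfl⟩
    exact (ν.symm_apply_apply x).symm ▸ hx
  obtain ⟨c, hc⟩ : ∃ c : ℝ≥0, b' * a = c := ⟨_, rfl⟩
  obtain ⟨d, hd'⟩ : ∃ d : ℝ≥0, a' * b = d := ⟨_, rfl⟩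
  have l1 : ∀ e, lipc (R ∘ h ∘ ν) (S.Q.cell e) ≤ c * lipc h (n.src.Q.cell e) := fun e =>
    hc ▸ lipc_conj hb' ha (m1 e)
  have l2 : ∀ e, lipc (P ∘ g ∘ ν.symm) (n.src.Q.cell e) ≤ d * lipc g (S.Q.cell e) := fun e =>
    hd' ▸ lipc_conj ha' hb (m2 e)
  have q1 := (S.Q.isClosed_cell φ).measurableSet
  have q2 := (n.src.Q.isClosed_cell φ).measurableSet
  have e1 : S.E p (R ∘ h ∘ ν) φ ≤ (c : ℝ≥0∞) ^ p * (b : ℝ≥0∞) ^ 2 * n.src.E p h φ :=
    hc ▸ en_conj hp hb' ha hb q1 q2 (m1 φ) (m2 φ) ν.symm_apply_apply ν.apply_symm_apply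
  have e2 : n.src.E p (P ∘ g ∘ ν.symm) φ ≤ (d : ℝ≥0∞) ^ p * (a : ℝ≥0∞) ^ 2 * S.E p g φ :=
    hd' ▸ en_conj hp ha' hb ha q2 q1 (m2 φ) (m1 φ) ν.apply_symm_apply ν.symm_apply_apply
  have e3 : n.src.W p (P ∘ g ∘ ν.symm) φ ≤ (d : ℝ≥0∞) ^ p * (a : ℝ≥0∞) ^ 2 * S.W p g φ := by
    have : n.src.A (P ∘ g ∘ ν.symm) φ ≤ d * S.A g φ := by
      rw [A_eq, ← tot_mul]
      exact (A_eq (S := n.src) _ φ).trans_le (tot_mono (wr_src n φ).le fun e _ => l2 e)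
    calc _ ≤ ((n.r φ : ℝ≥0) : ℝ≥0∞) ^ 2 * (d * S.A g φ) ^ p :=
          mul_le_mul_right (ENNReal.rpow_le_rpow this hp.le) _
      _ = _ := by
          rw [hr, Src.W, ENNReal.mul_rpow_of_nonneg _ _ hp.le]
          push_cast
          ring
  rw [hc, hd'] at hU
  have hU' : (c : ℝ≥0∞) * d ≤ U := by exact_mod_cast hU
  have hL' : (a : ℝ≥0∞) * b ≤ L := by exact_mod_cast hL
  have u : (c : ℝ≥0∞) ^ p * (b : ℝ≥0∞) ^ 2 * ((d : ℝ≥0∞) ^ p * (a : ℝ≥0∞) ^ 2) ≤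
      (U : ℝ≥0∞) ^ p * (L : ℝ≥0∞) ^ 2 :=
    calc _ = ((c : ℝ≥0∞) * d) ^ p * ((a : ℝ≥0∞) * b) ^ 2 := by
          rw [ENNReal.mul_rpow_of_nonneg _ _ hp.le]; ring
      _ ≤ _ := by gcongr
  have w1 : S.A (R ∘ h ∘ ν) φ ≤ U * k * S.A g φ + (tot (wr S φ) fun _ => (c : ℝ≥0∞)) * η := by
    rw [A_eq, A_eq, ← tot_mul, ← tot_mul', ← tot_add]
    refine tot_le fun e he => (l1 e).trans ?_
    calc _ ≤ c * (k * (d * lipc g (S.Q.cell e)) + η) := mul_le_mul_right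
          ((hw e he.1 (image_mono he.2)).trans (by gcongr; exact l2 e)) _
      _ = c * d * k * lipc g (S.Q.cell e) + c * η := by ring
      _ ≤ _ := by gcongr
  have w2 : S.W p (R ∘ h ∘ ν) φ ≤ 2 ^ (p - 1) * (U : ℝ≥0∞) ^ p * (S.W p g φ * k ^ p) +
      2 ^ (p - 1) * (S.r φ : ℝ≥0∞) ^ 2 * (tot (wr S φ) fun _ => (c : ℝ≥0∞)) ^ p * η := by
    have h2 := (ENNReal.rpow_le_rpow w1 hp.le).trans
      (ENNReal.rpow_add_le_mul_rpow_add_rpow _ _ h1)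
    simp only [ENNReal.mul_rpow_of_nonneg _ _ hp.le] at h2
    have h3 : η ^ p ≤ η := ENNReal.rpow_le_self_of_le_one hη h1
    refine (mul_le_mul_right (h2.trans (mul_le_mul_right (add_le_add_right
      (mul_le_mul_right h3 _) _) _)) _).trans_eq ?_
    rw [Src.W]
    ring
  have e4 : (Ct ∪ Co).indicator (S.E p (R ∘ h ∘ ν)) φ ≤ (U : ℝ≥0∞) ^ p * (L : ℝ≥0∞) ^ 2 * (1 + M) *
      (dd S p g Ct φ * k ^ p) + (c : ℝ≥0∞) ^ p * (b : ℝ≥0∞) ^ 2 * η := by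
    have key : ∀ x y : ℝ≥0∞, x ≤ (d : ℝ≥0∞) ^ p * (a : ℝ≥0∞) ^ 2 * y → y ≤ dd S p g Ct φ →
        n.src.E p h φ ≤ k ^ p * (x + M * n.src.W p (P ∘ g ∘ ν.symm) φ) + η →
        S.E p (R ∘ h ∘ ν) φ ≤ (U : ℝ≥0∞) ^ p * (L : ℝ≥0∞) ^ 2 * (1 + M) *
          (dd S p g Ct φ * k ^ p) + (c : ℝ≥0∞) ^ p * (b : ℝ≥0∞) ^ 2 * η := fun x y hx hy hE => by
      have h2 : S.W p g φ ≤ dd S p g Ct φ := le_self_add
      calc _ ≤ (c : ℝ≥0∞) ^ p * (b : ℝ≥0∞) ^ 2 * (k ^ p * ((d : ℝ≥0∞) ^ p * (a : ℝ≥0∞) ^ 2 *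
              dd S p g Ct φ + M * ((d : ℝ≥0∞) ^ p * (a : ℝ≥0∞) ^ 2 * dd S p g Ct φ)) + η) := by
            refine e1.trans (mul_le_mul_right (hE.trans ?_) _)
            gcongr
            · exact hx.trans (by gcongr)
            · exact e3.trans (by gcongr)
        _ = (c : ℝ≥0∞) ^ p * (b : ℝ≥0∞) ^ 2 * ((d : ℝ≥0∞) ^ p * (a : ℝ≥0∞) ^ 2) * (1 + M) *
              (dd S p g Ct φ * k ^ p) + (c : ℝ≥0∞) ^ p * (b : ℝ≥0∞) ^ 2 * η := by ring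
        _ ≤ _ := by gcongr
    by_cases k1 : φ ∈ Ct
    · rw [indicator_of_mem (mem_union_left Co k1)]
      exact key _ _ e2 (by rw [dd_of_mem k1]; exact le_add_self) hf
    by_cases k2 : φ ∈ Co
    · rw [indicator_of_mem (mem_union_right Ct k2)]
      exact key 0 0 zero_le zero_le (by rw [zero_add]; exact hd k2)
    · rw [indicator_of_notMem (fun o => o.elim k1 k2 : φ ∉ Ct ∪ Co)]
      exact zero_le
  have h2 : S.W p g φ ≤ dd S p g Ct φ := le_self_add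
  rw [hc]
  refine (add_le_add (w2.trans (add_le_add_left
    (mul_le_mul_right (mul_le_mul_left h2 _) _) _)) e4).trans_eq ?_
  rw [cf, er]
  ring

theorem W_src {n n' : Nrm S ν} {φ : S.Q.ι} (e : n'.r φ = n.r φ) (p : ℝ) (g : E3 → E3) :
    n'.src.W p g φ = n.src.W p g φ :=
  congrArg (fun r : ℝ≥0 => (r : ℝ≥0∞) ^ 2 * n.src.A g φ ^ p) e

theorem geo_comp {N : ℕ} {B : Set (Fin 3 → ℤ)} {C : ℝ≥0} {δ β₀ : ℝ} {X Y : Set E3}
    {g h φ : E3 → E3} (H : Geo N B C δ β₀ Y g h) (hm : MapsTo φ X Y) :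
    Geo N B C δ β₀ X (g ∘ φ) (h ∘ φ) :=
  ⟨fun _ hx => H.off _ (hm hx), fun _ hx => H.keep _ (hm hx),
    fun _ hx _ hy => H.fwd _ (hm hx) _ (hm hy), fun _ hx _ hy => H.inv _ (hm hx) _ (hm hy)⟩

end Za

open Za

theorem za_of {p : ℝ} (h1 : 1 ≤ p) (hZ : ZONE p) (hN : NCONG p) (hR : NRM) :
    ∃ k : Cst, 1 ≤ k.c₀ ∧ ZA p k := by
  have hp : 0 ≤ p := zero_le_one.trans h1
  obtain ⟨c₀, c1, hZ⟩ := hZ
  choose! C CM hZ using hZ
  choose! Ci hZ using hZ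
  choose! K hZ using hZ
  obtain ⟨Ca, hCa⟩ : ∃ Ca : ℝ≥0 → ℝ → ℕ → ℝ → ℝ≥0 → ℝ≥0, ∀ M θ N t L, (Ca M θ N t L : ℝ≥0∞) =
      cf p (((N : ℝ) / t).toNNReal * (L * L)) L (CM θ (M * L)) * (3 * C θ + (C θ : ℝ≥0∞) ^ p) :=
    ⟨fun _ _ _ _ _ => ENNReal.toNNReal _, fun _ _ _ _ _ =>
      ENNReal.coe_toNNReal (ENNReal.mul_ne_top (cf_ne h1 _ _ _) (by finiteness))⟩
  refine ⟨⟨c₀, fun θ => 3 * C θ + 1, CM, Ci, fun θ ϑ N t => K θ N t ϑ, Ca⟩, c1, ?_⟩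
  intro Ω Λ S g Z δ M₀ w El Ct Nr ν n η 𝓢 ψ a' ι _ m hΩ hΛ δ0 δ1 hη hs hO ⟨a, b, ha, hb, hL⟩ hM hE
  obtain ⟨aT, bT, haT, hbT, hT⟩ := Z.cond
  obtain ⟨n', e1, e2⟩ := hR S ν Nr n.r n.M ha hb hL
    fun c _ => ⟨n.r_pos c, n.M_ge c, n.chart c⟩
  obtain ⟨F, hF⟩ : ∃ F, F = El ∩ hit S g.toFun Z.supp := ⟨_, rfl⟩
  have F1 : F.Finite := hF ▸ (hit_finite S g (Z.T.toHomeomorph.isCompact_preimage.2
    ((nbr_finite Z.fin 1).isCompact_biUnion fun z _ => isCompact_lbox _ _ z)) hs).inter_of_right _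
  obtain ⟨D, hD⟩ : ∃ D, D = tot F fun φ => w φ * er S p (bT * a) b φ := ⟨_, rfl⟩
  have D1 : D ≠ ⊤ := hD ▸ tot_ne_top F1 fun φ hφ =>
    ENNReal.mul_ne_top (hE φ (hF ▸ hφ).1).2.2.2 (er_ne h1 _ _ φ)
  obtain ⟨η', η0, η1, η2, η3⟩ : ∃ η' : ℝ≥0∞, 0 < η' ∧ η' ≤ η ∧ η' ≤ 1 ∧ D * η' ≤ η :=
    ⟨min η (min 1 (η / D)), lt_min hη (lt_min one_pos (ENNReal.div_pos hη.ne' D1)),
      min_le_left _ _, (min_le_right _ _).trans (min_le_left _ _), (mul_le_mul_right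
        ((min_le_right _ _).trans (min_le_right _ _)) D).trans ENNReal.mul_div_le⟩
  let i1 := ConHomeo.ofAffine ν (IsOpen.conicalSet hΩ)
  let i2 := ConHomeo.ofAffine Z.T (IsOpen.conicalSet hΛ)
  obtain ⟨h', c, kk, hG, hc, H⟩ := hZ Z.θ Z.θ_pos Z.θ_le Z.N Z.t Z.N_pos Z.t_pos Z.t_le Z.ϑ
    Z.ϑ_pos Z.ϑ_le n'.src ((i1.symm.trans g).trans i2) Z.B Z.X Z.β δ Z.β₀ η' 𝓢 ψ a'
    (fun o : Bool => cond o (F.indicator fun φ => w φ * dd S p g.toFun Ct φ)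
      fun φ => ∑ i, m i φ / tot (hit S g.toFun Z.supp) (m i))
    (ν.toHomeomorph.isOpenMap _ hΩ) (Z.T.toHomeomorph.isOpenMap _ hΛ) Z.fin η0 δ0 δ1 Z.β₀_pos
    Z.β₀_le Z.β_mem
    (fun z hz => ⟨fun y hy => ⟨Z.T.symm y, hs (by
        simpa [Zone.supp] using ⟨z, hz, hy⟩), Z.T.apply_symm_apply y⟩, by
      rintro c hc φ hφ _ ⟨x, hx, rfl⟩ _ ⟨y, hy, rfl⟩
      have := hO z hz c hc φ (by
        have k : φ ∈ hit S g.toFun _ := (hit_src n' Z.T g.toFun _).subset hφ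
        rwa [← hit_comp] at k) x hx y hy
      simpa [i1, i2, affH, ConHomeo.ofAffine, ZD.o] using this, Z.vol z hz⟩)
    (fun φ hφ => ⟨(hM φ hφ).dim, (hM φ hφ).inj, (hM φ hφ).cell, (hM φ hφ).pos, (hM φ hφ).side⟩)
  have g1 : ((i1.symm.trans g).trans i2).toFun = Z.T ∘ g.toFun ∘ ν.symm := rfl
  rw [g1] at hG H
  have t1 : ENNReal.ofReal Z.t ≤ 1 := ENNReal.ofReal_le_one.2 (by linarith [Z.t_le])
  have s1 : hit S g.toFun (Z.T ⁻¹' slabs Z.N Z.t Z.B c) ⊆ hit S g.toFun Z.supp :=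
    hit_mono fun y ⟨z, hz, h, _⟩ => mem_biUnion hz h
  have S1 := H.sum true
  have S2 := H.sum false
  have K1 := H.k_le
  rw [hit_src] at K1
  rw [hit_src, hit_src] at S1 S2
  refine ⟨(i1.trans h').trans i2.symm, c, kk, ?_, fun z hz => ⟨H.cen z hz, hc z hz⟩, ?_, ?_⟩
  · have := geo_comp hG (mapsTo_image ν Ω)
    convert this using 1
    · rfl
    all_goals
      funext x
      simp [i1, i2, ConHomeo.ofAffine]
  · have H2 := hN (S := n'.src) (h' := Z.T ∘ (Z.T.symm ∘ h'.toFun ∘ ν) ∘ ν.symm) (C' := 3 * C Z.θ + 1)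
      (Nr' := Nr \ hit S g.toFun (Z.cav c)) H (fun φ hφ => (hM φ hφ).cell)
      (fun φ hφ o => hφ.2 ((hit_src n' _ _ _).subset o)) (fun φ _ x _ => by simp) le_rfl
      (by nlinarith [zero_le (a := C Z.θ)]) η1
    refine ⟨H2.cen, H2.wire, fun φ hφ h2 => ?_, fun φ hφ h2 h3 => ?_, H2.one_le, H2.k_le,
      fun i => ?_, H2.lat, H2.shE, H2.shF⟩
    · have := H2.face φ hφ h2
      rw [W_src (e1 φ hφ.1).1, show n'.src.M φ = n.src.M φ from (e1 φ hφ.1).2] at this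
      exact this
    · have := H2.deep φ hφ h2 h3
      rw [W_src (e1 φ hφ.1).1, show n'.src.M φ = n.src.M φ from (e1 φ hφ.1).2] at this
      exact this
    · rw [hit_src, hit_src, mul_assoc (_ + 1 : ℝ≥0∞)]
      refine sum_le s1 ?_ (mul_ne_zero (by simp) (by simpa using Z.t_pos)) S2 i
      refine mul_le_mul_left ?_ _
      simp only [Fintype.card_bool]
      push_cast
      exact le_self_add.trans' (by norm_num)
  · rw [← hF]
    have k1 : tot F (fun φ => w φ * dd S p g.toFun Ct φ * kk φ ^ p) ≤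
        (3 * C Z.θ + (C Z.θ : ℝ≥0∞) ^ p) * tot F fun φ => w φ * dd S p g.toFun Ct φ := by
      rw [tot_split F (hit S g.toFun (Z.T ⁻¹' slabs Z.N Z.t Z.B c)), add_mul]
      refine add_le_add ((tot_mono inter_subset_right fun φ hφ => ?_).trans (S1.trans ?_)) ?_
      · exact mul_le_mul_left (indicator_of_mem hφ.1 fun φ => w φ * dd S p g.toFun Ct φ).ge _
      · refine mul_le_mul' ((mul_le_of_le_one_right zero_le t1).trans (by norm_num))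
          ((tot_indicator _ _ _).trans_le (tot_subset inter_subset_right _))
      · rw [← tot_mul]
        refine tot_mono sdiff_subset fun φ hφ => ?_
        rw [mul_comm]
        exact mul_le_mul_left (ENNReal.rpow_le_rpow (K1 φ hφ.2) hp) _
    calc _ ≤ tot F fun φ => cf p (((Z.N : ℝ) / Z.t).toNNReal * (Z.L * Z.L)) Z.L
          (CM Z.θ (M₀ * Z.L)) * (w φ * dd S p g.toFun Ct φ * kk φ ^ p) +
          w φ * er S p (bT * a) b φ * η' := tot_mono sdiff_subset fun φ hφ => by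
          obtain ⟨d2, f1, f2, -⟩ := hE φ (hF ▸ hφ.1).1
          have f3 : φ ∈ (hit n'.src (Z.T ∘ g.toFun ∘ ν.symm)
              (cavs Z.N Z.t Z.B c fun z => Z.β z (c z)))ᶜ :=
            fun o => hφ.2 ((hit_src n' _ _ _).subset o)
          have f4 : n'.src.M φ = M₀ * Z.L := f2 ▸ (e2 φ f1).2
          refine (mul_le_mul_right (far h1 n' (P := vst Z.N Z.t ∘ Z.T) (h := h'.toFun) ha hb
            ((lip_vst Z.N_pos Z.t_pos Z.t_le).comp haT) hbT hL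
            (U := ((Z.N : ℝ) / Z.t).toNNReal * (Z.L * Z.L)) ?_ (e2 φ f1).1 η2 (H.wire φ f3)
            (f4 ▸ H.face φ f3 d2) fun o => f4 ▸ H.deep φ f3 d2
              ((hit_src n' _ _ _).symm.subset o)) _).trans_eq (by ring)
          calc _ = ((Z.N : ℝ) / Z.t).toNNReal * (a * b * (aT * bT)) := by ring
            _ ≤ _ := by gcongr
      _ ≤ _ := by
          rw [tot_add, tot_mul, tot_mul', ← hD]
          refine add_le_add ((mul_le_mul_right k1 _).trans_eq ?_) η3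
          rw [← mul_assoc, ← hCa]
          rfl

end P073.Zn
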