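import Vale.Agent.P073Y.Zn.Sk

/-!
# The plan: tools and stages
-/

open Set Metric Topology Filter MeasureTheory
open scoped NNReal ENNReal

namespace P073.Zn

open P073.Top

variable {Ω : Set E3}

/-! ### tools -/

/-- the dyadic distances -/
noncomputable def dk (d₀ : ℝ) (k : ℕ) : ℝ := d₀ * 2⁻¹ ^ k

/-- the shells in the target -/
def shl (Λ : Set E3) (d₀ : ℝ) (k : ℕ) (a b : ℝ) : Set E3 :=
  {y | a * dk d₀ k ≤ infDist y Λᶜ ∧ (k ≠ 0 → infDist y Λᶜ ≤ b * dk d₀ k)}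

/-- on the cells with an image meeting `R` the map `g` is close to `f` -/
def Apx (S : Src Ω) (f g : E3 → E3) (R : Set E3) (o : ℝ) : Prop :=
  ∀ c, ((g '' S.Q.cell c ∩ R).Nonempty ∨ (f '' S.Q.cell c ∩ R).Nonempty) →
    ∀ x ∈ S.Q.cell c, ∀ y ∈ S.Q.cell c, dist (g x) (f y) ≤ o

/-- the boxes with margin two have diameter at most `ε` -/
def Zone.Tiny (Z : Zone) (ε : ℝ) : Prop :=
  ∀ z y y', Z.T y ∈ lbox Z.N (-2) z → Z.T y' ∈ lbox Z.N (-2) z → dist y y' ≤ ε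

/-- moduli of `h` with respect to `g` over the region `R`, away from `Pl` for the inverse -/
structure Mod (Ω : Set E3) (g h : E3 → E3) (R Pl : Set E3) (γ L ξ : ℝ) : Prop where
  fwd : ∀ x ∈ Ω, ∀ y ∈ Ω, h x ∈ R → dist (g y) (g x) ≤ γ →
    dist (h y) (h x) ≤ L * dist (g y) (g x) + ξ
  inv : ∀ d, ξ ≤ d → d ≤ γ → ∀ x ∈ Ω, ∀ y ∈ Ω, h x ∈ R → h x ∉ thickening d Pl →
    dist (h y) (h x) ≤ d / 2 → dist (g y) (g x) ≤ L * (dist (h y) (h x) + ξ)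

/-- the unit boxes at scale `l` which meet `A` -/
def bx (l : ℝ) (A : Set E3) : Set (Fin 3 → ℤ) := {z | ∃ y ∈ A, l⁻¹ • y ∈ lbox 1 0 z}

/-- calculus of shells -/
structure SHL (Λ : Set E3) (d₀ : ℝ) : Prop where
  move : ∀ {k a b c y y'}, y ∈ shl Λ d₀ k a b → dist y' y ≤ c * dk d₀ k →
    y' ∈ shl Λ d₀ k (a - c) (b + c)
  mono : ∀ {k a b a' b'}, a' ≤ a → b ≤ b' → shl Λ d₀ k a b ⊆ shl Λ d₀ k a' b'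
  sub : ∀ {k a b}, 0 < a → shl Λ d₀ k a b ⊆ Λ
  cpt : ∀ {k a b}, 0 < a → IsCompact (shl Λ d₀ k a b)
  disj : ∀ {k k' a b a' b'}, k + 2 ≤ k' → 0 ≤ b' → b' < 4 * a →
    Disjoint (shl Λ d₀ k a b) (shl Λ d₀ k' a' b')
  disj₀ : ∀ {k' a b a' b'}, k' ≠ 0 → 0 ≤ b' → b' < 2 * a →
    Disjoint (shl Λ d₀ 0 a b) (shl Λ d₀ k' a' b')
  cover : ∀ y ∈ Λ, ∃ k, y ∈ shl Λ d₀ k (1 / 2) 1
  lf : ∀ a b, LFIn (fun k => shl Λ d₀ k a b) Λ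

/-- the shells have these properties -/
def SHLS : Prop := ∀ {Λ : Set E3} {d₀ : ℝ}, IsOpen Λ → Bornology.IsBounded Λ → 0 < d₀ → SHL Λ d₀

/-- the image of a ball contains a ball -/
def INVB : Prop := ∀ {Ω Λ : Set E3} {f f' : E3 → E3} {u : E3} {r r' : ℝ}, IsOpen Λ →
  HomeoOn f f' Ω Λ → 0 < r → closedBall u r ⊆ Ω → (∀ v ∈ sphere u r, r' ≤ dist (f v) (f u)) →
  ball (f u) r' ⊆ f '' ball u r

/-- a gauge which forces closeness over a locally finite family of regions -/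
def GAUGE3 : Prop := ∀ {Ω Λ : Set E3} {f : E3 → E3} (R : ℕ → Set E3) (o : ℕ → ℝ) (a : ℝ),
  ContinuousOn f Ω → MapsTo f Ω Λ → LFIn R Λ → (∀ k, 0 < o k) → 0 < a →
  ∃ γ : E3 → ℝ, Gauge γ Ω ∧ (∀ y, γ y ≤ a) ∧ ∀ (C : Set E3) (g : E3 → E3), C ⊆ Ω →
    (∀ x ∈ C, ∀ y ∈ C, dist (g x) (f y) ≤ γ y) → ∀ k,
    ((g '' C ∩ R k).Nonempty ∨ (f '' C ∩ R k).Nonempty) →
    ∀ x ∈ C, ∀ y ∈ C, dist (g x) (f y) ≤ o k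

/-- the moduli after a layer -/
def MODL : Prop := ∀ (k : Cst) {Λ : Set E3} {I : Type} (Z : I → ZD) (R R' : ℕ → Set E3)
  (γ' : ℕ → ℝ), LFIn (fun i => (Z i).supp) Λ → (∀ i, (Z i).supp ⊆ Λ) →
  (∀ i j, i ≠ j → Disjoint ((Z i).marg 1) (Z j).supp) →
  (∀ n, 0 < γ' n ∧ cthickening (γ' n) (R n) ⊆ R' n ∧ IsCompact (R' n) ∧ R' n ⊆ Λ) →
  LFIn R' Λ → ∃ (γ L : ℕ → ℝ) (Pl : ℕ → Set E3),
    (∀ n, 0 < γ n ∧ 1 ≤ L n ∧ IsCompact (Pl n) ∧ volume (Pl n) = 0) ∧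
    ∀ ξ : ℕ → ℝ, (∀ n, 0 < ξ n) → ∃ δ₀ : I → ℝ, (∀ i, 0 < δ₀ i) ∧
      ∀ δ : I → ℝ, (∀ i, 0 < δ i ∧ δ i ≤ δ₀ i) → ∀ {Ω : Set E3} (g h : E3 → E3),
        Lay k Ω Z δ g h → ∀ n, Mod Ω g h (R n) (Pl n) (γ n) (L n) (ξ n)

/-- balls and cavities from the moduli of continuity -/
def FITW : Prop := ∀ {Ω Λ Kc : Set E3} {f f' : E3 → E3} (T : E3 ≃ᴬ[ℝ] E3) (N : ℕ)
  (t γ L μ d : ℝ), IsOpen Ω → HomeoOn f f' Ω Λ → IsCompact Kc → Kc ⊆ Ω → 1 ≤ N → 0 < t →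
  t ≤ 1 / 4 → 1 ≤ L → 0 < μ → 0 < d → d ≤ γ →
  ∃ r₀ : ℝ, 0 < r₀ ∧ ∀ r, 0 < r → r ≤ r₀ → ∃ β : ℝ, 0 < β ∧ β ≤ 1 / 4 ∧ ∀ o' : ℝ, 0 < o' →
  ∃ o : ℝ, 0 < o ∧ ∀ (S : Src Ω) (g h : E3 → E3) (Z : ZD) (z : Fin 3 → ℤ) (R R' Pl : Set E3)
    (ξ : ℝ), Z.T = T → Z.N = N → Z.t = t → (∀ c, Z.β z c = β) → 0 ≤ ξ → ξ ≤ o →
    Mod Ω g h R' Pl γ L ξ → Apx S f g R o → (∀ y, T y ∉ Z.X → y ∉ thickening d Pl) →
    (∀ x ∈ Ω, T (h x) ∈ lbox N (-1) z → h x ∈ R' ∧ x ∈ Kc ∧ closedBall (f x) μ ⊆ R) →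
    S.Osc (T ∘ h) (lbox N (-1) z) o' ∧ Fit Ω h Z r z

/-- the same for the first batch -/
def FIT1 : Prop := ∀ {Ω Λ : Set E3} {f f' : E3 → E3} (Z : Zone), IsOpen Ω → HomeoOn f f' Ω Λ →
  Z.marg 2 ⊆ Λ → ∃ r₀ : ℝ, 0 < r₀ ∧ ∀ r, 0 < r → r ≤ r₀ → ∃ β : ℝ, 0 < β ∧ β ≤ 1 / 4 ∧
  ∀ o' : ℝ, 0 < o' → ∃ o : ℝ, 0 < o ∧ ∀ (S : Src Ω) (g : E3 → E3) (Z' : ZD), Z'.toZone = Z →
    (∀ z c, Z'.β z c = β) → Apx S f g (Z.marg 2) o → ∀ z ∈ nbr 1 Z.B,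
    S.Osc (Z.T ∘ g) (lbox Z.N (-1) z) o' ∧ Fit Ω g Z' r z

/-- balls and cavities near the cores -/
def FITC : Prop := ∀ {Ω Λ : Set E3} {f f' : E3 → E3} (S : Src Ω) (g : E3 → E3) (Z : ZD)
  (z : Fin 3 → ℤ) (q u₀ : E3) (s b l a o' : ℝ), IsOpen Λ → HomeoOn f f' Ω Λ → 1 ≤ b → 0 < l →
  100 * b * l ≤ s → 0 ≤ a → 10000 * b ^ 2 * a ≤ l → 2 * a ≤ o' * l →
  (∀ y, Z.T y = l⁻¹ • y) → Z.N = 1 → Z.t = 1 / 4 → (∀ c, Z.β z c = 1 / (1000 * b ^ 2)) →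
  closedBall q (3 * s / 2) ⊆ Ω →
  (∀ x ∈ closedBall q (3 * s / 2), ∀ y ∈ closedBall q (3 * s / 2),
    dist (f x) (f y) ≤ b * dist x y + a ∧ dist x y ≤ b * dist (f x) (f y) + a) →
  (∀ c, ∀ x ∈ S.Q.cell c, ∀ y ∈ S.Q.cell c, dist (g x) (f y) ≤ a) →
  u₀ ∈ closedBall q (3 * s / 4) → Z.T (f u₀) ∈ lbox 1 (-3) z →
  S.Osc (Z.T ∘ g) (lbox 1 (-1) z) o' ∧ Fit Ω g Z (l / (100 * b)) z ∧
    ∀ x ∈ Ctr Ω g Z z, closedBall x (l / (100 * b)) ⊆ closedBall q (3 * s / 2)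

/-- transfer to a map which agrees near the box -/
def FITT : Prop := ∀ {Ω : Set E3} (S : Src Ω) (g h : E3 → E3) (Z : ZD) (z : Fin 3 → ℤ)
  (r o' : ℝ), o' ≤ 1 →
  (∀ x ∈ Ω, (Z.T (g x) ∈ lbox Z.N (-2) z ∨ Z.T (h x) ∈ lbox Z.N (-2) z) → h x = g x) →
  S.Osc (Z.T ∘ g) (lbox Z.N (-1) z) o' → Fit Ω g Z r z →
  S.Osc (Z.T ∘ h) (lbox Z.N (-1) z) o' ∧ Fit Ω h Z r z ∧ Ctr Ω h Z z = Ctr Ω g Z z

/-- thin neighbourhoods of a compact set with null image leave room for the centres -/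
def NULLT : Prop := ∀ {K : Set E3} {F : E3 → E3} {r : ℝ}, IsCompact K → 0 < r →
  ContinuousOn F (cthickening r K) → volume (F '' K) = 0 → ∃ s : ℝ, 0 < s ∧ s ≤ r ∧
  ∀ (N : ℕ) (z : Fin 3 → ℤ), 1 ≤ N →
    2 * volume (F '' cthickening s K ∩ mid N z) ≤ volume (mid N z)

/-- the zone of a type -/
def TYZ : Prop := ∀ {Ω Λ : Set E3} {f f' : E3 → E3} (Y : TyZ Ω f) (V : Set E3) (ε : ℝ),
  IsOpen Ω → HomeoOn f f' Ω Λ → IsOpen V → f '' Y.K ⊆ V → 0 < ε →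
  ∃ (Z : Zone) (l : ℝ) (v : E3) (s : ℝ), 0 < l ∧ 0 < s ∧ (∀ y, Z.T y = l⁻¹ • Y.Bm y - v) ∧
    Cond Z.T Y.L ∧ Z.N = Y.N ∧ Z.t = Y.t ∧
    Y.N * volume {x ∈ Y.K | Z.T (f x) ∈ strips Y.N} ≤ 10 * volume Y.K ∧
    Z.marg 2 ⊆ V ∧ Z.Tiny ε ∧ cthickening s Y.K ⊆ Ω ∧
    (∀ z, 2 * volume (Z.T '' (f '' cthickening s Y.K) ∩ mid Z.N z) ≤ volume (mid Z.N z)) ∧
    ∀ u ∈ cthickening s Y.K, ∀ y, dist (Z.T y) (Z.T (f u)) ≤ 1 / 20 →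
      ∃ z, nbr 1 {z} ⊆ Z.B ∧ Z.T y ∈ lbox Z.N 0 z

/-- points near the image of `x` and off the image of the thick neighbourhood -/
def EXCL : Prop := ∀ {Ω Λ K : Set E3} {f f' : E3 → E3} {s : ℝ}, IsOpen Λ → HomeoOn f f' Ω Λ →
  IsCompact K → 0 < s → cthickening (4 * s) K ⊆ Ω → ∃ o : ℝ, 0 < o ∧ ∀ x y,
  dist y (f x) ≤ o → y ∉ f '' cthickening (4 * s) K → Disjoint (closedBall x s) (thickening s K)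

/-- the standard zone over a bounded set -/
def STDZ : Prop := ∀ (A : Set E3) (l : ℝ), Bornology.IsBounded A → 0 < l → ∃ Z : Zone,
  (∀ y, Z.T y = l⁻¹ • y) ∧ Cond Z.T 1 ∧ Z.N = 1 ∧ Z.t = 1 / 4 ∧ Z.B = bx l A ∧ A ⊆ Z.core ∧
  Z.Tiny (5 * l) ∧ ∀ y ∈ Z.marg 2, ∃ y' ∈ A, dist y y' ≤ 4 * l

/-! ### the stages -/

/-- the level of a zone of the first batch -/
def lev {J : Type} : J ⊕ ℕ → ℕ
  | .inl _ => 0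
  | .inr m => 2 * m + 1

/-- the given data -/
structure Base (J : Type) where
  /-- source -/
  Ω : Set E3
  /-- target -/
  Λ : Set E3
  /-- the compact set which carries types and cores -/
  Ω₀ : Set E3
  /-- the homeomorphism -/
  f : E3 → E3
  /-- its inverse -/
  f' : E3 → E3
  /-- the tolerance -/
  ε : ℝ
  /-- the types -/
  Y : J → TyZ Ω f
  fin : Finite J
  opn : IsOpen Ω
  opn' : IsOpen Λ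
  bdd : Bornology.IsBounded Λ
  hom : HomeoOn f f' Ω Λ
  ε_pos : 0 < ε
  cpt : IsCompact Ω₀
  sub : Ω₀ ⊆ Ω
  K_sub : ∀ j, (Y j).K ⊆ Ω₀
  G_disj : ∀ j j', j ≠ j' → Disjoint (Y j).G (Y j').G

variable {J : Type}

/-- what a layer needs at the box `z` -/
structure Good (k : Cst) (S : Src Ω) (g : E3 → E3) (Z : ZD) (δ r : ℝ) (z : Fin 3 → ℤ) :
    Prop where
  go : GO S (Z.T ∘ g) Z.N Z.t Z.X (Z.β z) (Z.o k δ) z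
  osc : S.Osc (Z.T ∘ g) (lbox Z.N (-1) z) 1
  fit : Fit Ω g Z r z

/-- the first stage: the zones of the first batch -/
structure St1 (k : Cst) (B : Base J) where
  /-- the distance scale -/
  d₀ : ℝ
  /-- the zones -/
  Z : J ⊕ ℕ → ZD
  /-- the radii -/
  r : J ⊕ ℕ → ℝ
  /-- width of the near sets -/
  s₁ : ℝ
  /-- bound for the size of the cores -/
  s₀ : ℝ
  d_pos : 0 < d₀
  sh : SHL B.Λ d₀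
  far : ∀ x ∈ B.Ω₀, B.f x ∈ shl B.Λ d₀ 0 2 0
  s₁_pos : 0 < s₁
  s₀_pos : 0 < s₀
  s₀_d : s₀ ≤ d₀ / 1000
  s₀_ε : s₀ ≤ B.ε / 100
  r_pos : ∀ i, 0 < r i
  ty : ∀ j, (∃ (l : ℝ) (v : E3), 0 < l ∧ ∀ y, (Z (.inl j)).T y = l⁻¹ • (B.Y j).Bm y - v) ∧
    (B.Y j).N * volume {x ∈ (B.Y j).K | (Z (.inl j)).T (B.f x) ∈ strips (B.Y j).N} ≤
      10 * volume (B.Y j).K ∧
    (Z (.inl j)).N = (B.Y j).N ∧ (Z (.inl j)).t = (B.Y j).t ∧ (Z (.inl j)).θ = (B.Y j).θ ∧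
    (Z (.inl j)).ϑ = (B.Y j).ϑ ∧ (Z (.inl j)).L = (B.Y j).L
  std : ∀ m, (Z (.inr m)).Std
  marg : ∀ i, (Z i).marg 2 ⊆ shl B.Λ d₀ (lev i) (49 / 100) (101 / 100)
  tiny : ∀ i, (Z i).Tiny (min (B.ε / 10) (dk d₀ (lev i) / 200))
  margG : ∀ j, (Z (.inl j)).marg 2 ⊆ B.f '' (B.Y j).G
  disj : ∀ i j, i ≠ j → Disjoint ((Z i).marg 2) ((Z j).marg 2)
  lf : LFIn (fun i => (Z i).marg 2) B.Λ
  cover : ∀ m, shl B.Λ d₀ (2 * m + 1) (1 / 2) 1 ⊆ (Z (.inr m)).core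
  fit : ∀ i δ, 0 < δ → ∃ o : ℝ, 0 < o ∧ ∀ (S : Src B.Ω) (g : E3 → E3),
    Apx S B.f g ((Z i).marg 2) o → ∀ z ∈ nbr 1 (Z i).B, Good k S g (Z i) δ (r i) z
  near : ∀ j, ∃ o : ℝ, 0 < o ∧ ∀ u ∈ thickening s₁ (B.Y j).K, ∀ y, dist y (B.f u) ≤ o →
    ∃ z, nbr 1 {z} ⊆ (Z (.inl j)).B ∧ (Z (.inl j)).T y ∈ lbox (Z (.inl j)).N 0 z
  excl : ∀ j, ∃ o : ℝ, 0 < o ∧ ∀ x y, dist y (B.f x) ≤ o → (Z (.inl j)).T y ∉ (Z (.inl j)).X →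
    Disjoint (closedBall x (r (.inl j))) (thickening s₁ (B.Y j).K)
  sep : ∀ u ∈ B.Ω₀, (∀ j, u ∉ (B.Y j).G) → ∀ y, dist y (B.f u) ≤ s₀ → ∀ i, y ∉ (Z i).marg 2
  lipT : ∀ j y y', dist y y' ≤ s₀ → dist ((Z (.inl j)).T y) ((Z (.inl j)).T y') ≤ 1 / 2

/-- existence of the first stage -/
def ST1 : Prop := ∀ (k : Cst) {J : Type} (B : Base J), Nonempty (St1 k B)

variable {k : Cst} {B : Base J}

/-- the second stage: all parameters which do not depend on the cores -/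
structure St2 (A : St1 k B) (s b θ e : ℝ) where
  /-- the scales of the second batch -/
  l : ℕ → ℝ
  /-- the excluded sets -/
  X : ℕ → Set E3
  /-- the cavities away from the cores -/
  β : ℕ → ℝ
  /-- the radii away from the cores -/
  r : ℕ → ℝ
  /-- the errors of the first batch -/
  δ : J ⊕ ℕ → ℝ
  /-- the closeness over the shells -/
  o : ℕ → ℝ
  /-- the lattice steps -/
  σ₀ : ℕ → ℝ
  /-- the numbers of neighbours -/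
  n : J ⊕ ℕ → ℕ
  s_pos : 0 < s
  s_le : s ≤ A.s₀
  b_ge : 1 ≤ b
  θ_pos : 0 < θ
  θ_le : θ ≤ 1
  l_pos : ∀ m, 0 < l m
  l_d : ∀ m, l m ≤ dk A.d₀ (2 * m) / 1000
  l_ε : ∀ m, l m ≤ B.ε / 100
  l_zero : l 0 = θ * s / (100 * b)
  vol : ∀ m z, 2 * volume (X m ∩ mid 1 z) ≤ volume (mid 1 z)
  β_mem : ∀ m, 0 < β m ∧ β m ≤ 1 / 4
  δ_mem : ∀ i, 0 < δ i ∧ δ i ≤ 1 / 100
  δ_e : ∀ j, δ (.inl j) ≤ e
  o_pos : ∀ n, 0 < o n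
  o_d : ∀ n, o n ≤ dk A.d₀ n / 1000
  o_ε : ∀ n, o n ≤ B.ε / 100
  o_s : o 0 ≤ A.s₀
  σ_pos : ∀ n, 0 < σ₀ n
  σ₁ : ∀ i, 100 * (n i + 1) * σ₀ (lev i) ≤ A.r i
  σ₂ : ∀ m, 100 * σ₀ (2 * m) ≤ r m
  cnt : ∀ i, {a : ℕ × (Fin 3 → ℤ) | 2 * a.1 ≤ lev i + 1 ∧
    a.2 ∈ nbr 1 (bx (l a.1) (shl B.Λ A.d₀ (2 * a.1) (47 / 100) (103 / 100)))}.encard ≤ n i
  rad : ∀ i m, 2 * m ≤ lev i + 1 → lev i ≤ 2 * m + 1 → 100 * n i * r m ≤ A.r i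
  fit₁ : ∀ i (S : Src B.Ω) (g : E3 → E3), Apx S B.f g ((A.Z i).marg 2) (o (lev i)) →
    ∀ z ∈ nbr 1 (A.Z i).B, Good k S g (A.Z i) (δ i) (A.r i) z
  near : ∀ j, ∀ u ∈ thickening A.s₁ (B.Y j).K, ∀ y, dist y (B.f u) ≤ o 0 →
    ∃ z, nbr 1 {z} ⊆ (A.Z (.inl j)).B ∧ (A.Z (.inl j)).T y ∈ lbox (A.Z (.inl j)).N 0 z
  excl : ∀ j x y, dist y (B.f x) ≤ o 0 → (A.Z (.inl j)).T y ∉ (A.Z (.inl j)).X →
    Disjoint (closedBall x (A.r (.inl j))) (thickening A.s₁ (B.Y j).K)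
  fit₂ : ∀ m (Z : ZD) (z : Fin 3 → ℤ), (∀ y, Z.T y = (l m)⁻¹ • y) → Z.Std → Z.X = X m →
    (∀ c, Z.β z c = β m) → ∀ (S : Src B.Ω) (g h : E3 → E3) (R : Set E3),
    Lay k B.Ω A.Z δ g h → Apx S B.f g R (o (2 * m)) →
    (∀ x ∈ B.Ω, Z.T (h x) ∈ lbox 1 (-1) z → h x ∈ shl B.Λ A.d₀ (2 * m) (46 / 100) (104 / 100) ∧
      B.f x ∈ shl B.Λ A.d₀ (2 * m) (4 / 10) (11 / 10) ∧ closedBall (B.f x) (l m / 4) ⊆ R) →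
    Good k S h Z (1 / 100) (r m) z

/-- existence of the second stage -/
def ST2 : Prop := ∀ {k : Cst} {J : Type} {B : Base J} (A : St1 k B) (s b θ e : ℝ), 0 < s →
  s ≤ A.s₀ → 1 ≤ b → 0 < θ → θ ≤ 1 → 0 < e → Nonempty (St2 A s b θ e)

variable {A : St1 k B} {s b θ e : ℝ}

/-- the points well inside the treated boxes of a zone -/
def Zone.In (Z : Zone) : Set E3 := {y | ball (Z.T y) (1 / 4) ⊆ ⋃ z ∈ Z.B, lbox Z.N 0 z}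

/-- the sets covered by the second batch -/
def St2.cov (A₂ : St2 A s b θ e) (P : Set E3) (m : ℕ) : Set E3 :=
  shl B.Λ A.d₀ (2 * m) (47 / 100) (103 / 100) \ ((⋃ j, (A.Z (.inl j)).In) ∪
    {y | closedBall y (A₂.l 0) ⊆ B.f '' cubes P (s / 2)})

/-- the boxes near the cores -/
def St2.NC (A₂ : St2 A s b θ e) (P : Set E3) (m : ℕ) (z : Fin 3 → ℤ) : Prop :=
  m = 0 ∧ ∃ u ∈ cubes P (3 * s / 4), (A₂.l 0)⁻¹ • B.f u ∈ lbox 1 (-3) z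

/-- the third stage: the zones of the second batch -/
structure St3 (A₂ : St2 A s b θ e) (P : Set E3) (κ : ℝ) where
  /-- the zones -/
  Z : ℕ → ZD
  /-- the radii -/
  r : ℕ → (Fin 3 → ℤ) → ℝ
  cores : Cores B.Ω₀ B.f (⋃ j, (B.Y j).G) P s b κ
  κ_pos : 0 < κ
  κ₁ : 10000 * b ^ 2 * (κ * s) ≤ A₂.l 0
  κ₂ : 2 * (κ * s) ≤ (Z 0).o k (1 / 100) * (1 / (1000 * b ^ 2)) * A₂.l 0
  T_eq : ∀ m y, (Z m).T y = (A₂.l m)⁻¹ • y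
  std : ∀ m, (Z m).Std
  B_eq : ∀ m, (Z m).B = bx (A₂.l m) (A₂.cov P m)
  X_eq : ∀ m, (Z m).X = A₂.X m
  core : ∀ m, A₂.cov P m ⊆ (Z m).core
  tiny : ∀ m, (Z m).Tiny (5 * A₂.l m)
  marg : ∀ m, ∀ y ∈ (Z m).marg 2, ∃ y' ∈ A₂.cov P m, dist y y' ≤ 4 * A₂.l m
  nc : ∀ m z, A₂.NC P m z →
    (∀ c, (Z m).β z c = 1 / (1000 * b ^ 2)) ∧ r m z = A₂.l 0 / (100 * b)
  wild : ∀ m z, ¬ A₂.NC P m z → (∀ c, (Z m).β z c = A₂.β m) ∧ r m z = A₂.r m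

/-- the closeness of `g` to `f` -/
structure App (A₂ : St2 A s b θ e) (P : Set E3) (κ : ℝ) (S : Src B.Ω) (g : E3 → E3) : Prop where
  all : ∀ c, ∀ x ∈ S.Q.cell c, ∀ y ∈ S.Q.cell c, dist (g x) (B.f y) ≤ κ * s
  shell : ∀ n c, Disjoint (S.Q.cell c) (cubes P (3 * s / 4)) →
    ((g '' S.Q.cell c ∩ shl B.Λ A.d₀ n (3 / 10) (13 / 10)).Nonempty ∨
      (B.f '' S.Q.cell c ∩ shl B.Λ A.d₀ n (3 / 10) (13 / 10)).Nonempty) →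
    ∀ x ∈ S.Q.cell c, ∀ y ∈ S.Q.cell c, dist (g x) (B.f y) ≤ A₂.o n

/-- the open shells in the source -/
def St1.O (A : St1 k B) (n : ℕ) : Set E3 :=
  {x ∈ B.Ω | 35 / 100 * dk A.d₀ n < infDist (B.f x) B.Λᶜ ∧
    (n ≠ 0 → infDist (B.f x) B.Λᶜ < 12 / 10 * dk A.d₀ n)}

/-- the near sets -/
def St1.Th (A : St1 k B) : Set E3 := ⋃ j, thickening A.s₁ (B.Y j).K

/-- the constant for the cores -/
noncomputable def kap (k : Cst) (b θ : ℝ) : ℝ :=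
  θ * (1 / 100 * (1 / 4) / (k.K (1 / 1000) (1 / 1000) 1 (1 / 4) + 1)) / (1000000 * b ^ 3)

/-- existence of the third stage -/
def ST3 : Prop := ∀ {k : Cst} {J : Type} {B : Base J} {A : St1 k B} {s b θ e : ℝ}
  (A₂ : St2 A s b θ e) (P : Set E3), Cores B.Ω₀ B.f (⋃ j, (B.Y j).G) P s b (kap k b θ) →
  Nonempty (St3 A₂ P (kap k b θ))

/-- the open shells and the gauge -/
def OG : Prop := ∀ {k : Cst} {J : Type} {B : Base J} {A : St1 k B} {s b θ e : ℝ}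
  (A₂ : St2 A s b θ e) (κ : ℝ), 0 < κ → (∀ n, IsOpen (A.O n) ∧ A.O n ⊆ B.Ω) ∧ LFIn A.O B.Ω ∧
  (∀ n n', n + 2 ≤ n' → Disjoint (A.O n) (A.O n')) ∧ ∃ o : E3 → ℝ, Gauge o B.Ω ∧
  ∀ (P : Set E3) (S : Src B.Ω) (g : E3 → E3),
    (∀ c, ∀ x ∈ S.Q.cell c, ∀ y ∈ S.Q.cell c, dist (g x) (B.f y) ≤ o y ∨
      ((S.Q.cell c ∩ cubes P (3 * s / 4)).Nonempty ∧ dist (g x) (B.f y) ≤ κ * s)) →
    App A₂ P κ S g

variable {A₂ : St2 A s b θ e} {P : Set E3} {κ : ℝ}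

/-- elementary consequences of the closeness -/
structure Cl (A₃ : St3 A₂ P κ) (S : Src B.Ω) (g : E3 → E3) : Prop where
  app : App A₂ P κ S g
  close : ∀ n, ∀ u ∈ B.Ω, (g u ∈ shl B.Λ A.d₀ n (4 / 10) (12 / 10) ∨
    B.f u ∈ shl B.Λ A.d₀ n (4 / 10) (12 / 10)) → dist (g u) (B.f u) ≤ dk A.d₀ n / 1000
  closeε : ∀ u ∈ B.Ω, dist (g u) (B.f u) ≤ B.ε / 100
  apx : ∀ n (R : Set E3), R ⊆ shl B.Λ A.d₀ n (3 / 10) (13 / 10) →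
    (∀ v ∈ cubes P (3 * s / 4), ∀ y ∈ R, 2 * (κ * s) < dist y (B.f v)) →
    Apx S B.f g R (A₂.o n)
  sep : ∀ u ∈ cubes P (3 * s / 2), ∀ y, dist y (B.f u) ≤ A.s₀ → ∀ i, y ∉ (A.Z i).marg 2
  apx₁ : ∀ i, Apx S B.f g ((A.Z i).marg 2) (A₂.o (lev i))
  near : ∀ j, ∀ u ∈ thickening A.s₁ (B.Y j).K ∩ B.Ω, ∃ z, nbr 1 {z} ⊆ (A.Z (.inl j)).B ∧
    (A.Z (.inl j)).T (g u) ∈ lbox (A.Z (.inl j)).N 0 z
  move : ∀ h, Lay k B.Ω A.Z A₂.δ g h → ∀ x ∈ B.Ω, dist (h x) (g x) ≤ B.ε / 10 ∧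
    ∀ n, (h x ∈ shl B.Λ A.d₀ n (4 / 10) (11 / 10) ∨ g x ∈ shl B.Λ A.d₀ n (4 / 10) (11 / 10)) →
      dist (h x) (g x) ≤ dk A.d₀ n / 100
  same : ∀ h, Lay k B.Ω A.Z A₂.δ g h → ∀ u ∈ cubes P (3 * s / 2), ∀ x ∈ B.Ω,
    (dist (h x) (B.f u) ≤ A.s₀ ∨ dist (g x) (B.f u) ≤ A.s₀) → h x = g x
  marg₂ : ∀ m, (A₃.Z m).marg 2 ⊆ shl B.Λ A.d₀ (2 * m) (46 / 100) (104 / 100)

/-- these consequences hold -/
def CL : Prop := ∀ {k : Cst} {J : Type} {B : Base J} {A : St1 k B} {s b θ e : ℝ}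
  {A₂ : St2 A s b θ e} {P : Set E3} {κ : ℝ} (A₃ : St3 A₂ P κ) (S : Src B.Ω) (g : E3 → E3),
  App A₂ P κ S g → Cl A₃ S g

/-- the first batch -/
def DYN1 : Prop := ∀ {k : Cst} {J : Type} {B : Base J} {A : St1 k B} {s b θ e : ℝ}
  {A₂ : St2 A s b θ e} {P : Set E3} {κ : ℝ} (A₃ : St3 A₂ P κ) (S : Src B.Ω) (g : E3 → E3),
  Cl A₃ S g → Rdy k S B.Λ A.Z A₂.δ (fun i _ => A.r i) g ∧
    (∀ j, ∀ u ∈ B.Ω, g u ∈ (A.Z (.inl j)).supp → u ∈ (B.Y j).G) ∧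
    (∀ i, ∀ z ∈ nbr 1 (A.Z i).B, ∀ x ∈ Ctr B.Ω g (A.Z i) z,
      Spot B.f B.ε A.Th (deepc P s θ) x (A.r i) ∧
      closedBall x (A.r i) ⊆ A.O (lev i) \ cubes P (3 * s / 4)) ∧
    ∀ u ∈ deepc P s θ, (∀ i, g u ∉ (A.Z i).supp) ∧ ∀ m, g u ∉ (A₃.Z m).supp

/-- the boxes of the second batch -/
def DYN2 : Prop := ∀ {k : Cst} {J : Type} {B : Base J} {A : St1 k B} {s b θ e : ℝ}
  {A₂ : St2 A s b θ e} {P : Set E3} {κ : ℝ} (A₃ : St3 A₂ P κ) (S : Src B.Ω) (g h : E3 → E3),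
  Cl A₃ S g → Lay k B.Ω A.Z A₂.δ g h → ∀ m, ∀ z ∈ nbr 1 (A₃.Z m).B,
    Good k S h (A₃.Z m) (1 / 100) (A₃.r m z) z ∧ ∀ x ∈ Ctr B.Ω h (A₃.Z m) z,
      closedBall x (A₃.r m z) ⊆ A.O (2 * m) ∧
      (∀ u ∈ closedBall x (A₃.r m z), ∀ u' ∈ closedBall x (A₃.r m z),
        dist (B.f u) (B.f u') ≤ B.ε) ∧
      (¬ A₂.NC P m z → Disjoint (closedBall x (A₃.r m z)) (cubes P (3 * s / 4))) ∧
      (A₂.NC P m z → ∃ q ∈ P, closedBall x (A₃.r m z) ⊆ closedBall q (3 * s / 2))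

/-- near sets, covering and the final distance -/
def DYN3 : Prop := ∀ {k : Cst} {J : Type} {B : Base J} {A : St1 k B} {s b θ e : ℝ}
  {A₂ : St2 A s b θ e} {P : Set E3} {κ : ℝ} (A₃ : St3 A₂ P κ) (S : Src B.Ω) (g h : E3 → E3),
  Cl A₃ S g → Lay k B.Ω A.Z A₂.δ g h → MapsTo g B.Ω B.Λ →
    (∀ j, ∀ u ∈ thickening A.s₁ (B.Y j).K ∩ B.Ω, ∀ m, h u ∉ (A₃.Z m).supp) ∧
    (∀ c, (∃ i, c ∈ hit S g (A.Z i).core) ∨ (∃ m, c ∈ hit S h (A₃.Z m).core) ∨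
      S.Q.cell c ⊆ cubes P (s / 2)) ∧
    (∀ m m', m ≠ m' → Disjoint ((A₃.Z m).marg 2) ((A₃.Z m').marg 2)) ∧
    (∀ m, (A₃.Z m).supp ⊆ B.Λ) ∧ LFIn (fun m => (A₃.Z m).supp) B.Λ ∧
    ∀ h', Lay k B.Ω A₃.Z (fun _ => 1 / 100) h h' → ∀ u ∈ B.Ω, dist (h' u) (B.f u) ≤ B.ε

end P073.Zn
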