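import Vale.Agent.P073Y.Top.Defs
import Vale.Agent.P073Z.RCX2

/-!
# Zones, batches and free cubes: definitions and the top statement
-/

open Set Metric Topology Filter MeasureTheory
open scoped NNReal ENNReal

namespace P073.Zn

open P073.Bd (Chart)
open P073.Top

/-- the sum over a set of indices -/
noncomputable def tot {ι : Type} (A : Set ι) (a : ι → ℝ≥0∞) : ℝ≥0∞ := ∑' i, A.indicator a i

variable {Ω : Set E3}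

/-! ### normalised source coordinates -/

/-- scales and chart constants in the coordinates `ν` -/
structure Nrm (S : Src Ω) (ν : E3 ≃ᴬ[ℝ] E3) where
  /-- the scales -/
  r : S.Q.ι → ℝ≥0
  /-- the chart constants -/
  M : S.Q.ι → ℝ≥0
  r_pos : ∀ c, 0 < r c
  M_ge : ∀ c, 1 ≤ M c
  chart : ∀ c, 2 ≤ S.Q.dim c →
    Chart (S.Q.dim c) (ν '' S.Q.cell c) (ν '' S.Q.bd c) (M c / r c) (M c * r c)

/-- the affine map as a PL homeomorphism of the space -/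
noncomputable def affH (ν : E3 ≃ᴬ[ℝ] E3) : ConHomeo (univ : Set E3) (ν '' univ) :=
  ConHomeo.ofAffine ν (IsOpen.conicalSet isOpen_univ)

theorem cvx_image {Q : RCx E3} (h : Q.Cvx) (ν : E3 ≃ᴬ[ℝ] E3) :
    (Q.image (affH ν) (subset_univ _)).Cvx := fun i => by
  obtain ⟨h1, h2, h3⟩ := h i
  refine ⟨h1.affine_image ν.toAffineEquiv.toAffineMap, ?_, ?_⟩
  · show ν '' Q.bd i = intrinsicFrontier ℝ (ν '' Q.cell i)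
    rw [h2]
    exact (ν.intrinsicFrontier_image _).symm
  · show Q.dim i = Module.finrank ℝ (vectorSpan ℝ (ν.toAffineEquiv.toAffineMap '' Q.cell i))
    rw [h3, ← AffineMap.map_vectorSpan]
    exact (LinearEquiv.finrank_map_eq ν.toAffineEquiv.linear _).symm

/-- the source complex in the coordinates `ν`; it has the same index type -/
noncomputable def Nrm.src {S : Src Ω} {ν : E3 ≃ᴬ[ℝ] E3} (n : Nrm S ν) : Src (ν '' Ω) where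
  Q := S.Q.image (affH ν) (subset_univ _)
  cvx := cvx_image S.cvx ν
  carrier := by rw [RCx.image_carrier, S.carrier]; rfl
  r := n.r
  M := n.M
  r_pos := n.r_pos
  M_ge := n.M_ge
  chart := n.chart

/-- the distortion of `ν` is at most `L` -/
def Cond (ν : E3 ≃ᴬ[ℝ] E3) (L : ℝ≥0) : Prop :=
  ∃ a b : ℝ≥0, LipschitzWith a ν ∧ LipschitzWith b ν.symm ∧ a * b ≤ L

/-! ### one lattice -/

/-- a finite set of lattice boxes in the target coordinates `T` -/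
structure Zone where
  /-- the normalised target coordinates -/
  T : E3 ≃ᴬ[ℝ] E3
  /-- the lateral size of the boxes -/
  N : ℕ
  /-- the half width of the slabs -/
  t : ℝ
  /-- the boxes -/
  B : Set (Fin 3 → ℤ)
  fin : B.Finite
  N_pos : 1 ≤ N
  t_pos : 0 < t
  t_le : t ≤ 1 / 4

/-- the region between two slabs, away from the lateral sides -/
def shp (N : ℕ) (t : ℝ) (c : (Fin 3 → ℤ) → E3) (z : Fin 3 → ℤ) : Set E3 :=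
  {y | (∀ i, i ≠ 2 → z i * wd N i + 1 / 2 ≤ y i ∧ y i ≤ (z i + 1) * wd N i - 1 / 2) ∧
    c (z - Pi.single 2 1) 2 + t ≤ y 2 ∧ y 2 ≤ c z 2 - t}

/-- the doubled slabs -/
def slabs (N : ℕ) (t : ℝ) (B : Set (Fin 3 → ℤ)) (c : (Fin 3 → ℤ) → E3) : Set E3 :=
  {y | ∃ z ∈ nbr 1 B, y ∈ lbox N 0 z ∧ |y 2 - c z 2| ≤ 2 * t}

/-- the cavities -/
def cavs (N : ℕ) (t : ℝ) (B : Set (Fin 3 → ℤ)) (c : (Fin 3 → ℤ) → E3)
    (β : (Fin 3 → ℤ) → ℝ) : Set E3 := {y | ∃ z ∈ nbr 1 B, ‖nrm N t (y - c z)‖ ≤ β z}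

/-- the lateral strips -/
def strips (N : ℕ) : Set E3 := {y | ∃ i : Fin 3, i ≠ 2 ∧ ∃ k : ℤ, |y i - k * N| ≤ 2}

/-- the cells whose images meet `Y` -/
def hit (S : Src Ω) (g : E3 → E3) (Y : Set E3) : Set S.Q.ι :=
  {c | (g '' S.Q.cell c ∩ Y).Nonempty}

/-- the result on the cells of `Nr`, in normalised coordinates -/
structure NearOut (p c₀ θ ϑ e : ℝ) (C : ℝ≥0) (CM : ℝ≥0 → ℝ≥0) (S : Src Ω) (N : ℕ) (t : ℝ)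
    (B : Set (Fin 3 → ℤ)) (g h : E3 → E3) (Nr : Set S.Q.ι) (η : ℝ≥0∞) (𝓢 : Set S.Q.ι)
    (ψ : S.Q.ι → (E2 →ᵃ[ℝ] E3)) (a : S.Q.ι → ℝ) {ι : Type} [Fintype ι]
    (m : ι → S.Q.ι → ℝ≥0∞) (c : (Fin 3 → ℤ) → E3) (k : S.Q.ι → ℝ≥0∞) : Prop where
  cen : ∀ z ∈ nbr 1 B, c z ∈ mid N z
  wire : ∀ φ ∈ Nr, ∀ w, S.Q.dim w = 1 → S.Q.cell w ⊆ S.Q.cell φ →
    lipc h (S.Q.cell w) ≤ k φ * lipc (vst N t ∘ g) (S.Q.cell w) + η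
  face : ∀ φ ∈ Nr, S.Q.dim φ = 2 → S.E p h φ ≤ k φ ^ p *
    (S.E p (vst N t ∘ g) φ + CM (S.M φ) * S.W p (vst N t ∘ g) φ) + η
  deep : ∀ φ ∈ Nr, S.Q.dim φ = 2 → φ ∈ hit S g (⋃ z ∈ B, lbox N 0 z) →
    S.E p h φ ≤ k φ ^ p * (CM (S.M φ) * S.W p (vst N t ∘ g) φ) + η
  one_le : ∀ φ, 1 ≤ k φ
  k_le : ∀ φ, φ ∉ hit S g (slabs N t B c) → k φ ≤ C
  sum : ∀ i, tot (hit S g (slabs N t B c)) (fun φ => m i φ * k φ ^ p) ≤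
    (Fintype.card ι + 1) * C * ENNReal.ofReal t *
      tot (hit S g (⋃ z ∈ nbr 1 B, lbox N 0 z)) (m i)
  lat : ∀ z, (z ∈ B ∨ z - Pi.single 2 1 ∈ B) → ∀ φ ∈ Nr, ∀ x ∈ S.Q.cell φ,
    g x ∈ shp N t c z → ∀ i, i ≠ 2 → |h x i - g x i| ≤ e
  shE : ∀ z, (z ∈ B ∨ z - Pi.single 2 1 ∈ B) → ∀ w ∈ Nr, ∀ x y, S.Q.dim w = 1 →
    S.Q.cell w = segment ℝ x y → g '' S.Q.cell w ⊆ shp N t c z →
      SharpE g h x y θ η ∧ Rise g h x y ϑ η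
  shF : ∀ z, (z ∈ B ∨ z - Pi.single 2 1 ∈ B) → ∀ φ ∈ Nr ∩ 𝓢,
    g '' S.Q.cell φ ⊆ shp N t c z → SharpF p h (ψ φ) (a φ) θ c₀ η

/-! ### the two batches -/

/-- the data of a type of rank at most two -/
structure TyZ (Ω : Set E3) (f : E3 → E3) where
  /-- the compact set -/
  K : Set E3
  /-- an open neighbourhood -/
  G : Set E3
  /-- the target frame -/
  Bm : E3 ≃L[ℝ] E3
  /-- the lateral size of the boxes -/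
  N : ℕ
  /-- the half width of the slabs -/
  t : ℝ
  /-- sharpness -/
  θ : ℝ
  /-- the buffer fraction -/
  ϑ : ℝ
  /-- the distortion of the frames -/
  L : ℝ≥0
  cpt : IsCompact K
  opn : IsOpen G
  sub : K ⊆ G
  subΩ : G ⊆ Ω
  null : volume (f '' K) = 0
  N_pos : 1 ≤ N
  t_pos : 0 < t
  t_le : t ≤ 1 / 4
  θ_pos : 0 < θ
  θ_le : θ ≤ 1 / 1000
  ϑ_pos : 0 < ϑ
  ϑ_le : ϑ ≤ θ
  cond : Cond Bm.toContinuousAffineEquiv L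

/-- the cores: cubes of side `s` on whose triples `f` is bi-Lipschitz at scales above `κ s` -/
structure Cores (Ω₀ : Set E3) (f : E3 → E3) (G : Set E3) (P : Set E3) (s b κ : ℝ) : Prop where
  fin : P.Finite
  sub : ∀ q ∈ P, closedBall q (3 * s / 2) ⊆ Ω₀ ∧ Disjoint (closedBall q (3 * s / 2)) G
  lip : ∀ q ∈ P, ∀ x ∈ closedBall q (3 * s / 2), ∀ y ∈ closedBall q (3 * s / 2),
    dist (f x) (f y) ≤ b * dist x y + κ * s ∧ dist x y ≤ b * dist (f x) (f y) + κ * s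

/-- the union of the cubes of radius `r` -/
def cubes (P : Set E3) (r : ℝ) : Set E3 := ⋃ q ∈ P, closedBall q r

/-- the deep part of the cores -/
def deepc (P : Set E3) (s θ : ℝ) : Set E3 := {x | closedBall x (θ * s) ⊆ cubes P (s / 2)}

/-- the lattice of step `σ` through `w` -/
def latt (w : E3) (σ : ℝ) : Set E3 := {q | ∀ i, ∃ k : ℤ, q i = w i + k * σ}

/-- the planes of this lattice -/
def plns (w : E3) (σ : ℝ) : Set E3 := {x | ∃ i, ∃ k : ℤ, x i = w i + k * σ}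

/-- the lattice cubes inside `Y` are subcomplexes and the faces on the lattice planes inside `Y`
have weight at least `σ` -/
structure Cand (S : Src Ω) (w₀ : E3) (σ : ℝ) (Y : Set E3) (w : S.Q.ι → ℝ≥0∞) : Prop where
  pos : 0 < σ
  sub : ∀ q ∈ latt w₀ σ, ∀ n : ℕ, 1 ≤ n → closedBall q (n * σ) ⊆ Y →
    S.Q.Sub (closedBall q (n * σ))
  wt : ∀ φ, S.Q.dim φ = 2 → S.Q.cell φ ⊆ Y ∩ plns w₀ σ → ENNReal.ofReal σ ≤ w φ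

open Classical in
/-- wire weight plus, on the cells inside `Y`, the energy -/
noncomputable def pot (S : Src Ω) (p : ℝ) (g : E3 → E3) (Y : Set E3) (φ : S.Q.ι) : ℝ≥0∞ :=
  S.W p g φ + if S.Q.cell φ ⊆ Y then S.E p g φ else 0

/-- the free cubes -/
structure Free (S : Src Ω) {κ : Type} (x : κ → E3) (r : κ → ℝ) : Prop where
  pos : ∀ k, 0 < r k
  sub : ∀ k, S.Q.Sub (closedBall (x k) (r k))
  disj : ∀ k l, k ≠ l → Disjoint (closedBall (x k) (r k)) (closedBall (x l) (r l))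
  lf : LFIn (fun k => closedBall (x k) (r k)) Ω

/-- the two batches -/
def BATCH (p : ℝ) : Prop := ∃ (c₀ : ℝ) (Cz : ℝ → ℝ≥0) (CM : ℝ → ℝ≥0 → ℝ≥0) (Cu : ℝ≥0 → ℝ≥0)
  (Ct : ℝ≥0 → ℝ → ℕ → ℝ → ℝ≥0 → ℝ≥0) (κ : ℝ → ℝ → ℝ), 1 ≤ c₀ ∧
  (∀ b θ, 1 ≤ b → 0 < θ → 0 < κ b θ) ∧
  ∀ {Ω Λ Ω₀ : Set E3} {f f' : E3 → E3} {ε : ℝ} {J : Type} [Fintype J] (Y : J → TyZ Ω f),
  IsOpen Ω → IsOpen Λ → Bornology.IsBounded Λ → HomeoOn f f' Ω Λ → 0 < ε →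
  IsCompact Ω₀ → Ω₀ ⊆ Ω → (∀ j, (Y j).K ⊆ Ω₀) →
  (∀ j j', j ≠ j' → Disjoint (Y j).G (Y j').G) →
  ∃ (l : J → ℝ) (v : J → E3) (T : J → (E3 ≃ᴬ[ℝ] E3)) (B : J → Set (Fin 3 → ℤ)) (s₁ s₀ : ℝ),
    0 < s₁ ∧ 0 < s₀ ∧
    (∀ j, 0 < l j ∧ (∀ y, T j y = (l j)⁻¹ • (Y j).Bm y - v j) ∧
      (Y j).N * volume {x ∈ (Y j).K | T j (f x) ∈ strips (Y j).N} ≤ 10 * volume (Y j).K) ∧
  ∀ (s b θ e : ℝ), 0 < s → s ≤ s₀ → 1 ≤ b → 0 < θ → θ ≤ 1 → 0 < e →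
  ∃ (o : E3 → ℝ) (O : ℕ → Set E3) (σ₀ : ℕ → ℝ), Gauge o Ω ∧
    (∀ n, IsOpen (O n) ∧ O n ⊆ Ω ∧ 0 < σ₀ n) ∧ LFIn O Ω ∧
    (∀ n n', n + 2 ≤ n' → Disjoint (O n) (O n')) ∧
  ∀ P : Set E3, Cores Ω₀ f (⋃ j, (Y j).G) P s b (κ b θ) →
  ∀ (S : Src Ω) (g : ConHomeo Ω Λ) (M₀ : ℝ≥0) (w₀ : E3) (σ : ℕ → ℝ) (ρ : ℝ)
    (w : S.Q.ι → ℝ≥0∞) (Nr : J → Set S.Q.ι) (ν : J → (E3 ≃ᴬ[ℝ] E3)) (n : ∀ j, Nrm S (ν j))
    (η : ℝ≥0∞) (𝓢 : J → Set S.Q.ι) (ψ : J → S.Q.ι → (E2 →ᵃ[ℝ] E3)) (a : J → S.Q.ι → ℝ)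
    {ι : Type} [Fintype ι] (m : J → ι → S.Q.ι → ℝ≥0∞), 0 < η →
    (∀ c, ∀ x ∈ S.Q.cell c, ∀ y ∈ S.Q.cell c, dist (g.toFun x) (f y) ≤ o y ∨
      ((S.Q.cell c ∩ cubes P (3 * s / 4)).Nonempty ∧ dist (g.toFun x) (f y) ≤ κ b θ * s)) →
    (∀ j, Cond (ν j) (Y j).L ∧ (∀ c ∈ Nr j, S.Q.cell c ⊆ thickening s₁ (Y j).K) ∧
      ∀ φ ∈ 𝓢 j, Marked (n j).src (T j ∘ g.toFun ∘ (ν j).symm) (Y j).θ φ (ψ j φ) (a j φ)) →
    (∀ φ, S.Q.dim φ = 2 → (∀ j, φ ∉ Nr j) → S.M φ = M₀ ∧ w φ ≠ ⊤) →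
    (∀ k, σ k ≤ σ₀ k ∧
      Cand S w₀ (σ k) (O k \ ((⋃ j, thickening s₁ (Y j).K) ∪ cubes P (3 * s / 4))) w) →
    ρ ≤ κ b θ * s → (∀ q ∈ P, Cand S w₀ ρ (closedBall q (3 * s / 2) \ deepc P s θ) w) →
  ∃ (h : ConHomeo Ω Λ) (I : Type) (x : I → E3) (r : I → ℝ),
    (∀ u ∈ Ω, dist (h.toFun u) (f u) ≤ ε) ∧ EqOn h.toFun g.toFun (deepc P s θ) ∧ Free S x r ∧
    (∀ k, Disjoint (closedBall (x k) (r k)) ((⋃ j, thickening s₁ (Y j).K) ∪ deepc P s θ) ∧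
      ∀ u ∈ closedBall (x k) (r k), ∀ u' ∈ closedBall (x k) (r k), dist (f u) (f u') ≤ ε) ∧
    (tot {φ | S.Q.dim φ = 2 ∧ (∀ j, φ ∉ Nr j) ∧ ∀ k, Disjoint (S.Q.cell φ) (ball (x k) (r k))}
        (fun φ => w φ * S.E p h.toFun φ) +
      ∑' k, ENNReal.ofReal (r k) * En 2 p h.toFun (sphere (x k) (r k)) ≤
      Cu M₀ * tot {φ | S.Q.dim φ = 2 ∧ ∀ j, φ ∉ Nr j}
        (fun φ => w φ * pot S p g.toFun (cubes P (s / 2)) φ) +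
      ∑ j, Ct M₀ (Y j).θ (Y j).N (Y j).t (Y j).L *
        tot {φ | S.Q.dim φ = 2 ∧ (∀ j, φ ∉ Nr j) ∧ (S.Q.cell φ ∩ (Y j).G).Nonempty}
          (fun φ => w φ * S.W p g.toFun φ) + η) ∧
    ∀ j, (∀ φ ∈ Nr j, ∀ u ∈ S.Q.cell φ, ∃ z, nbr 1 {z} ⊆ B j ∧
        T j (g.toFun u) ∈ lbox (Y j).N 0 z) ∧
      ∃ c k, NearOut p c₀ (Y j).θ (Y j).ϑ e (Cz (Y j).θ) (CM (Y j).θ) (n j).src (Y j).N (Y j).t
        (B j) (T j ∘ g.toFun ∘ (ν j).symm) (T j ∘ h.toFun ∘ (ν j).symm) (Nr j) η (𝓢 j) (ψ j)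
        (a j) (m j) c k

end P073.Zn
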