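import Vale.Agent.P073Y.Zn.Layer

/-!
# A layer of zones, without balls
-/

open Set Metric Topology Filter MeasureTheory
open scoped NNReal ENNReal

namespace P073.Zn

open P073.Top Ly

variable {Ω : Set E3}

/-- the hypotheses of a layer on the cells, without balls -/
structure Rdy0 (k : Cst) (S : Src Ω) (Λ : Set E3) {I : Type} (Z : I → ZD) (δ : I → ℝ)
    (g : E3 → E3) : Prop where
  δ_mem : ∀ i, 0 < δ i ∧ δ i ≤ 1 / 100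
  sub : ∀ i, (Z i).supp ⊆ Λ
  lf : LFIn (fun i => (Z i).supp) Λ
  one : ∀ i j, i ≠ j → Disjoint (hit S g (Z i).supp) (hit S g (Z j).supp)
  osc : ∀ i, ∀ z ∈ nbr 1 (Z i).B,
    GO S ((Z i).T ∘ g) (Z i).N (Z i).t (Z i).X ((Z i).β z) ((Z i).o k (δ i)) z

/-- the cells whose images lie in a doubled cavity -/
def dcav (S : Src Ω) (g : E3 → E3) {I : Type} (Z : I → ZD) (c : I → (Fin 3 → ℤ) → E3) :
    Set S.Q.ι := {φ | ∃ i, ∃ z ∈ nbr 1 (Z i).B, ∀ u ∈ S.Q.cell φ,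
      ‖nrm (Z i).N (Z i).t ((Z i).T (g u) - c i z)‖ ≤ 2 * (Z i).β z (c i z)}

/-- a layer without balls: the estimates hold off the doubled cavities -/
def LAYER0 (p : ℝ) (k : Cst) : Prop := ∀ {Ω Λ : Set E3} (S : Src Ω) (g : ConHomeo Ω Λ) {I : Type}
  (Z : I → ZD) (δ : I → ℝ) (M₀ : ℝ≥0) (w : S.Q.ι → ℝ≥0∞)
  (El Ct : Set S.Q.ι) (Nr : I → Set S.Q.ι) (ν : I → (E3 ≃ᴬ[ℝ] E3)) (n : ∀ i, Nrm S (ν i))
  (η : I → ℝ≥0∞) (𝓢 : I → Set S.Q.ι) (ψ : I → S.Q.ι → (E2 →ᵃ[ℝ] E3)) (a : I → S.Q.ι → ℝ)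
  {ι : Type} [Fintype ι] (m : I → ι → S.Q.ι → ℝ≥0∞),
  IsOpen Ω → IsOpen Λ → Rdy0 k S Λ Z δ g.toFun →
  (∀ i, 0 < η i ∧ Cond (ν i) (Z i).L ∧ Nr i ⊆ hit S g.toFun (Z i).supp ∧
    ∀ φ ∈ 𝓢 i, Marked (n i).src ((Z i).T ∘ g.toFun ∘ (ν i).symm) (Z i).θ φ (ψ i φ) (a i φ)) →
  (∀ φ ∈ El, S.Q.dim φ = 2 ∧ (∀ i, φ ∉ Nr i) ∧ S.M φ = M₀ ∧ w φ ≠ ⊤) →
  ∃ (h : ConHomeo Ω Λ) (c : I → (Fin 3 → ℤ) → E3), Lay k Ω Z δ g.toFun h.toFun ∧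
    (∀ i, ∀ z ∈ nbr 1 (Z i).B, c i z ∈ mid (Z i).N z ∧ c i z ∉ (Z i).X) ∧
    (∀ i, ∃ kk, (Z i).Near p k (δ i) (n i) g.toFun h.toFun (Nr i \ dcav S g.toFun Z c) (η i)
      (𝓢 i) (ψ i) (a i) (m i) (c i) kk) ∧
    tot (El \ dcav S g.toFun Z c)
        (fun φ => w φ * dd S p h.toFun (Ct ∪ ⋃ i, hit S g.toFun (Z i).core) φ) ≤
      tot (El \ ⋃ i, hit S g.toFun (Z i).supp) (fun φ => w φ * dd S p g.toFun Ct φ) +
      ∑' i, ((Z i).ca k M₀ *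
        tot (El ∩ hit S g.toFun (Z i).supp) (fun φ => w φ * dd S p g.toFun Ct φ) + η i)

/-- a cell whose image meets a cavity has its image in the doubled cavity -/
theorem two_of {k : Cst} {S : Src Ω} {Z : ZD} {δ : ℝ} {g : E3 → E3} {z : Fin 3 → ℤ} {c : E3}
    {φ : S.Q.ι} (hδ' : δ ≤ 1 / 100)
    (ho : GO S (Z.T ∘ g) Z.N Z.t Z.X (Z.β z) (Z.o k δ) z) (hc : c ∈ mid Z.N z ∧ c ∉ Z.X)
    {u₀ : E3} (hu₀ : u₀ ∈ S.Q.cell φ) (h : ‖nrm Z.N Z.t (Z.T (g u₀) - c)‖ ≤ Z.β z c) :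
    ∀ u ∈ S.Q.cell φ, ‖nrm Z.N Z.t (Z.T (g u) - c)‖ ≤ 2 * Z.β z c := by
  intro u hu
  have hβ : 0 < Z.β z c := Z.β₀_pos.trans_le (Z.β_mem z _).1
  have ht := Z.t_pos
  have h1 : dist (Z.T (g u₀)) (Z.T (g u)) ≤
      Z.o k δ * max ‖nrm Z.N Z.t (Z.T (g u₀) - c)‖ (Z.β z c) := ho _ hc φ ⟨_, ⟨u₀, hu₀, rfl⟩,
    cav_sub Z.N_pos ht Z.t_le (Z.β_mem z _).2 hc.1 h⟩ u₀ hu₀ u hu
  rw [max_eq_right h, dist_comm] at h1
  have h2 : Z.o k δ ≤ Z.t := by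
    rw [ZD.o, div_le_iff₀ (by positivity)]
    have := (k.K Z.θ Z.ϑ Z.N Z.t).2
    nlinarith [mul_nonneg ht.le this]
  have h3 : ‖nrm Z.N Z.t (Z.T (g u) - Z.T (g u₀))‖ ≤ Z.β z c := by
    refine (nrm_le Z.N_pos ht Z.t_le _).trans ?_
    rw [div_le_iff₀ ht, ← dist_eq_norm, mul_comm]
    exact h1.trans (mul_le_mul_of_nonneg_right h2 hβ.le)
  rw [← sub_add_sub_cancel _ (Z.T (g u₀)), nrm_add]
  linarith [norm_add_le (nrm Z.N Z.t (Z.T (g u) - Z.T (g u₀))) (nrm Z.N Z.t (Z.T (g u₀) - c))]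

theorem layer0_of {p : ℝ} {k : Cst} (hZ : ZA p k) (hN : NCONG p) : LAYER0 p k := by
  intro Ω Λ S g I Z δ M₀ w El Ct Nr ν n η 𝓢 ψ a ι _ m hΩ hΛ R H1 H2
  choose h c kk G1 G2 G3 G4 using fun i => hZ S g (Z i) (δ i) M₀ w El Ct (Nr i) (ν i) (n i) (η i)
    (𝓢 i) (ψ i) (a i) (m i) hΩ hΛ (R.δ_mem i).1 (R.δ_mem i).2 (H1 i).1 (R.sub i) (R.osc i)
    (H1 i).2.1 (H1 i).2.2.2 fun φ hφ => ⟨(H2 φ hφ).1, (H2 φ hφ).2.1 i, (H2 φ hφ).2.2⟩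
  have hd : ∀ i j, i ≠ j → Disjoint (Z i).supp (Z j).supp := fun i j hij =>
    disjoint_left.2 fun y h1 h2 => by
      have hy := R.sub i h1
      obtain ⟨φ, hφ⟩ := mem_iUnion.1 (S.carrier.symm.subset (g.mapsTo_inv hy))
      exact disjoint_left.1 (R.one i j hij) ⟨y, ⟨_, hφ, g.right_inv hy⟩, h1⟩
        ⟨y, ⟨_, hφ, g.right_inv hy⟩, h2⟩
  have he : ∀ i, ∀ x ∈ Ω, g.toFun x ∉ (Z i).supp → (h i).toFun x = g.toFun x := fun i x hx h1 =>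
    (Z i).T.injective ((G1 i).off x hx fun h2 => h1 (mem_preimage.2 (interior_subset h2)))
  obtain ⟨H, H0, Hi⟩ := Rd.par g h (fun i => (Z i).supp)
    (fun i y _ hy => (closed_supp (Z i).toZone).closure_subset hy) R.lf hd he
  have on : ∀ i, ∀ φ ∈ hit S g.toFun (Z i).supp, EqOn H.toFun (h i).toFun (S.Q.cell φ) :=
    fun i φ hφ u hu => Hi i u (cell_sub S φ hu) fun j hj h1 =>
      disjoint_left.1 (R.one i j hj.symm) hφ ⟨_, ⟨u, hu, rfl⟩, h1⟩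
  have jk : ∀ i, ∀ φ ∈ hit S g.toFun ((Z i).cav (c i)), φ ∈ dcav S g.toFun Z c := by
    rintro i φ ⟨_, ⟨u₀, hu₀, rfl⟩, z, hz, h1⟩
    exact ⟨i, z, hz, two_of (R.δ_mem i).2 (R.osc i z hz) (G2 i z hz) hu₀ h1⟩
  refine ⟨H, c, ⟨H0, fun i u hu => ?_, fun i => ?_⟩, G2, fun i => ⟨kk i, ?_⟩, ?_⟩
  · by_cases h1 : ∃ j, g.toFun u ∈ (Z j).supp
    · obtain ⟨j, hj⟩ := h1
      have h2 : H.toFun u ∈ (Z j).supp := by
        rw [Hi j u hu fun l hl h3 => disjoint_left.1 (hd l j hl) h3 hj]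
        exact (Rd.mem_iff g (h j) (he j) hu).2 hj
      by_cases hij : i = j
      · subst hij
        exact iff_of_true h2 hj
      · exact iff_of_false (fun h3 => disjoint_left.1 (hd i j hij) h3 h2)
          fun h3 => disjoint_left.1 (hd i j hij) h3 hj
    · rw [H0 u hu fun j hj => h1 ⟨j, hj⟩]
  · exact Geo.congr (G1 i) (sep_subset _ _) fun u hu => congrArg (Z i).T (Hi i u hu.1 hu.2)
  · refine hN (G3 i) (fun φ hφ => ((H1 i).2.2.2 φ hφ).cell)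
      (fun φ hφ => ⟨hφ.1, fun h1 => hφ.2 (jk i φ h1)⟩) (fun φ hφ => ?_) le_rfl le_rfl le_rfl
    rintro _ ⟨u, hu, rfl⟩
    show (Z i).T (H.toFun ((ν i).symm (ν i u))) = (Z i).T ((h i).toFun ((ν i).symm (ν i u)))
    rw [ContinuousAffineEquiv.symm_apply_apply, on i φ ((H1 i).2.2.1 hφ.1) hu]
  · refine (tot_le (A₀ := El \ ⋃ i, hit S g.toFun (Z i).supp)
      (F₀ := fun φ => w φ * dd S p g.toFun Ct φ)
      (B := fun i => (El ∩ hit S g.toFun (Z i).supp) \ hit S g.toFun ((Z i).cav (c i)))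
      (G := fun i φ => w φ * dd S p (h i).toFun (Ct ∪ hit S g.toFun (Z i).core) φ)
      fun φ hφ => ?_).trans (add_le_add le_rfl (ENNReal.tsum_le_tsum G4))
    have cs := fun j => hit_mono S g.toFun (core_sub (Z j).toZone)
    by_cases h1 : ∃ i, φ ∈ hit S g.toFun (Z i).supp
    · obtain ⟨i, hi⟩ := h1
      refine Or.inr ⟨i, ⟨⟨hφ.1, hi⟩, fun h2 => hφ.2 (jk i φ h2)⟩, ?_⟩
      refine congrArg (w φ * ·) (dd_congr S (on i φ hi)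
        (or_congr_right ⟨fun h2 => ?_, fun h2 => mem_iUnion.2 ⟨i, h2⟩⟩))
      obtain ⟨j, hj⟩ := mem_iUnion.1 h2
      by_cases hij : i = j
      · exact hij ▸ hj
      · exact absurd (cs j hj) (disjoint_left.1 (R.one i j hij) hi)
    · refine Or.inl ⟨⟨hφ.1, fun h2 => h1 (mem_iUnion.1 h2)⟩, ?_⟩
      refine congrArg (w φ * ·) (dd_congr S (fun u hu => H0 u (cell_sub S φ hu)
        fun j hj => h1 ⟨j, _, ⟨u, hu, rfl⟩, hj⟩) ⟨fun h2 => h2.resolve_right fun h3 => ?_, Or.inl⟩)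
      obtain ⟨j, hj⟩ := mem_iUnion.1 h3
      exact h1 ⟨j, cs j hj⟩

end P073.Zn
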