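import Vale.Agent.P073Y.Zn.Defs

/-!
# Zones, layers, free cubes and the plan: statements
-/

open Set Metric Topology Filter MeasureTheory
open scoped NNReal ENNReal

namespace P073.Zn

open P073.Bd (Chart)
open P073.Top

variable {Ω : Set E3}

/-! ### one zone in normalised coordinates -/

/-- the geometric control of a modification `h` of `g` on `X` -/
structure Geo (N : ℕ) (B : Set (Fin 3 → ℤ)) (C : ℝ≥0) (δ β₀ : ℝ) (X : Set E3)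
    (g h : E3 → E3) : Prop where
  off : ∀ x ∈ X, g x ∉ interior (⋃ z ∈ nbr 1 B, lbox N 0 z) → h x = g x
  keep : ∀ x ∈ X, ∀ z, g x ∈ lbox N 0 z → h x ∈ lbox N (-δ) z
  fwd : ∀ x ∈ X, ∀ y ∈ X, dist (h x) (h y) ≤ C / β₀ * dist (g x) (g y) + 2 * δ
  inv : ∀ x ∈ X, ∀ y ∈ X, ∀ z, h x ∈ lbox N (2 * δ) z → h y ∈ lbox N (2 * δ) z →
    dist (g x) (g y) ≤ C * (dist (h x) (h y) + 2 * δ)

/-- graded oscillation: the cells whose images come near the box `z` have images which are small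
compared with the distance to every admissible centre `c`, cut off at the size `β c` of the
cavity -/
def GO (S : Src Ω) (g : E3 → E3) (N : ℕ) (t : ℝ) (X : Set E3) (β : E3 → ℝ) (o : ℝ)
    (z : Fin 3 → ℤ) : Prop :=
  ∀ c ∈ mid N z \ X, ∀ φ, (g '' S.Q.cell φ ∩ lbox N (-1) z).Nonempty →
    ∀ x ∈ S.Q.cell φ, ∀ y ∈ S.Q.cell φ,
      dist (g x) (g y) ≤ o * max ‖nrm N t (g x - c)‖ (β c)

theorem GO.of_osc {S : Src Ω} {g : E3 → E3} {N : ℕ} {t : ℝ} {X : Set E3} {β : E3 → ℝ}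
    {o o' : ℝ} {z : Fin 3 → ℤ} (h : S.Osc g (lbox N (-1) z) o') (ho : 0 ≤ o)
    (hβ : ∀ c ∈ mid N z \ X, o' ≤ o * β c) : GO S g N t X β o z :=
  fun c hc φ hφ x hx y hy => (h φ hφ x hx y hy).trans
    ((hβ c hc).trans (mul_le_mul_of_nonneg_left (le_max_right _ _) ho))

/-- the choice of all centres -/
def CENT (p : ℝ) : Prop := ∃ C : ℝ≥0, ∀ {Ω Λ : Set E3} (S : Src Ω) (g : ConHomeo Ω Λ) (N : ℕ)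
  (t : ℝ) (B : Set (Fin 3 → ℤ)) (X : Set E3) (β : (Fin 3 → ℤ) → E3 → ℝ) (o : ℝ) {ι : Type}
  [Fintype ι] (m : ι → S.Q.ι → ℝ≥0∞), 1 ≤ N → 0 < t → t ≤ 1 / 4 → B.Finite → 0 ≤ o →
  o ≤ t / 100 → (∀ z c, 0 < β z c ∧ β z c ≤ 1 / 4) →
  (∀ z ∈ nbr 1 B, lbox N 0 z ⊆ Λ ∧ GO S g.toFun N t X (β z) o z ∧
    2 * volume (X ∩ mid N z) ≤ volume (mid N z)) →
  ∃ c : (Fin 3 → ℤ) → E3, (∀ z ∈ nbr 1 B, c z ∈ mid N z ∧ c z ∉ X) ∧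
    ∀ i, tot (hit S g.toFun (slabs N t B c)) (fun φ => m i φ *
        mag N t (nbr 1 B) c (fun z => β z (c z)) g.toFun (S.Q.cell φ) ^ p) ≤
      Fintype.card ι * C * ENNReal.ofReal t *
        tot (hit S g.toFun (⋃ z ∈ nbr 1 B, lbox N 0 z)) (m i)

/-- holes and a round -/
def ZONE (p : ℝ) : Prop := ∃ c₀ : ℝ, 1 ≤ c₀ ∧ ∀ θ : ℝ, 0 < θ → θ ≤ 1 / 1000 →
  ∃ (C : ℝ≥0) (CM : ℝ≥0 → ℝ≥0), ∀ (N : ℕ) (t : ℝ), 1 ≤ N → 0 < t → t ≤ 1 / 4 →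
  ∃ Ci : ℝ≥0, ∀ ϑ : ℝ, 0 < ϑ → ϑ ≤ θ → ∃ K : ℝ≥0,
  ∀ {Ω Λ : Set E3} (S : Src Ω) (g : ConHomeo Ω Λ) (B : Set (Fin 3 → ℤ)) (X : Set E3)
    (β : (Fin 3 → ℤ) → E3 → ℝ) (δ β₀ : ℝ) (η : ℝ≥0∞) (𝓢 : Set S.Q.ι)
    (ψ : S.Q.ι → (E2 →ᵃ[ℝ] E3)) (a : S.Q.ι → ℝ) {ι : Type} [Fintype ι]
    (m : ι → S.Q.ι → ℝ≥0∞),
  IsOpen Ω → IsOpen Λ → B.Finite → 0 < η → 0 < δ → δ ≤ 1 / 100 → 0 < β₀ → β₀ ≤ 1 / 4 →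
  (∀ z c, β₀ ≤ β z c ∧ β z c ≤ 1 / 4) →
  (∀ z ∈ nbr 1 B, lbox N 0 z ⊆ Λ ∧ GO S g.toFun N t X (β z) (δ * t / (K + 1)) z ∧
    2 * volume (X ∩ mid N z) ≤ volume (mid N z)) →
  (∀ φ ∈ 𝓢, Marked S g.toFun θ φ (ψ φ) (a φ)) →
  ∃ (h : ConHomeo Ω Λ) (c : (Fin 3 → ℤ) → E3) (k : S.Q.ι → ℝ≥0∞),
    Geo N B Ci δ β₀ Ω g.toFun h.toFun ∧ (∀ z ∈ nbr 1 B, c z ∉ X) ∧
    NearOut p c₀ θ ϑ δ C CM S N t B g.toFun h.toFun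
      (hit S g.toFun (cavs N t B c fun z => β z (c z)))ᶜ η 𝓢 ψ a m c k

/-- the near estimates depend only on the values on the near cells and are monotone -/
def NCONG (p : ℝ) : Prop := ∀ {Ω : Set E3} {c₀ θ ϑ e e' : ℝ} {C C' : ℝ≥0} {CM : ℝ≥0 → ℝ≥0}
  {S : Src Ω} {N : ℕ} {t : ℝ} {B : Set (Fin 3 → ℤ)} {g h h' : E3 → E3} {Nr Nr' : Set S.Q.ι}
  {η η' : ℝ≥0∞} {𝓢 : Set S.Q.ι} {ψ : S.Q.ι → (E2 →ᵃ[ℝ] E3)} {a : S.Q.ι → ℝ} {ι : Type}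
  [Fintype ι] {m : ι → S.Q.ι → ℝ≥0∞} {c : (Fin 3 → ℤ) → E3} {k : S.Q.ι → ℝ≥0∞},
  NearOut p c₀ θ ϑ e C CM S N t B g h Nr η 𝓢 ψ a m c k →
  (∀ φ ∈ 𝓢, S.Q.cell φ = ψ φ '' closedBall 0 1) → Nr' ⊆ Nr →
  (∀ φ ∈ Nr', EqOn h' h (S.Q.cell φ)) → e ≤ e' → C ≤ C' → η ≤ η' →
  NearOut p c₀ θ ϑ e' C' CM S N t B g h' Nr' η' 𝓢 ψ a m c k

/-- charts in the coordinates `ν` are needed only on a set of cells -/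
def NRM : Prop := ∀ {Ω : Set E3} (S : Src Ω) (ν : E3 ≃ᴬ[ℝ] E3) (A : Set S.Q.ι)
  (r M : S.Q.ι → ℝ≥0) {a b L : ℝ≥0}, LipschitzWith a ν → LipschitzWith b ν.symm → a * b ≤ L →
  (∀ c ∈ A, 0 < r c ∧ 1 ≤ M c ∧ (2 ≤ S.Q.dim c →
    Chart (S.Q.dim c) (ν '' S.Q.cell c) (ν '' S.Q.bd c) (M c / r c) (M c * r c))) →
  ∃ n : Nrm S ν, (∀ c ∈ A, n.r c = r c ∧ n.M c = M c) ∧
    ∀ c, c ∉ A → n.r c = a * S.r c ∧ n.M c = S.M c * L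

/-! ### one zone in ambient coordinates -/

/-- the constants -/
structure Cst where
  /-- constant of the sharp faces -/
  c₀ : ℝ
  /-- constant of the near estimates -/
  Cz : ℝ → ℝ≥0
  /-- constant of the faces -/
  CM : ℝ → ℝ≥0 → ℝ≥0
  /-- constant of the geometric control -/
  Ci : ℝ → ℕ → ℝ → ℝ≥0
  /-- ratio of error and oscillation -/
  K : ℝ → ℝ → ℕ → ℝ → ℝ≥0
  /-- constant of the far faces -/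
  Ca : ℝ≥0 → ℝ → ℕ → ℝ → ℝ≥0 → ℝ≥0

/-- a zone with its parameters -/
structure ZD extends Zone where
  /-- sharpness -/
  θ : ℝ
  /-- the buffer fraction -/
  ϑ : ℝ
  /-- distortion -/
  L : ℝ≥0
  /-- the set avoided by the centres, in the coordinates `T` -/
  X : Set E3
  /-- the sizes of the cavities, depending on the box and on the centre -/
  β : (Fin 3 → ℤ) → E3 → ℝ
  /-- a lower bound for them -/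
  β₀ : ℝ
  θ_pos : 0 < θ
  θ_le : θ ≤ 1 / 1000
  ϑ_pos : 0 < ϑ
  ϑ_le : ϑ ≤ θ
  cond : Cond T L
  β₀_pos : 0 < β₀
  β₀_le : β₀ ≤ 1 / 4
  β_mem : ∀ z c, β₀ ≤ β z c ∧ β z c ≤ 1 / 4
  vol : ∀ z ∈ nbr 1 B, 2 * volume (X ∩ mid N z) ≤ volume (mid N z)

/-- the boxes with a margin -/
def Zone.marg (Z : Zone) (a : ℝ) : Set E3 := Z.T ⁻¹' ⋃ z ∈ nbr 1 Z.B, lbox Z.N (-a) z

/-- the support -/
def Zone.supp (Z : Zone) : Set E3 := Z.T ⁻¹' ⋃ z ∈ nbr 1 Z.B, lbox Z.N 0 z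

/-- the treated boxes -/
def Zone.core (Z : Zone) : Set E3 := Z.T ⁻¹' ⋃ z ∈ Z.B, lbox Z.N 0 z

/-- the admissible ratio of oscillation and size of the cavity -/
noncomputable def ZD.o (Z : ZD) (k : Cst) (δ : ℝ) : ℝ := δ * Z.t / (k.K Z.θ Z.ϑ Z.N Z.t + 1)

/-- the cavities round the centres `c` -/
def ZD.cav (Z : ZD) (c : (Fin 3 → ℤ) → E3) : Set E3 :=
  Z.T ⁻¹' cavs Z.N Z.t Z.B c fun z => Z.β z (c z)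

/-- the constant of the geometric control -/
def ZD.ci (Z : ZD) (k : Cst) : ℝ≥0 := k.Ci Z.θ Z.N Z.t

/-- the constant of the far faces -/
def ZD.ca (Z : ZD) (k : Cst) (M₀ : ℝ≥0) : ℝ≥0 := k.Ca M₀ Z.θ Z.N Z.t Z.L

/-- wire weight plus, on the controlled cells, the energy -/
noncomputable def dd (S : Src Ω) (p : ℝ) (g : E3 → E3) (Ct : Set S.Q.ι) (φ : S.Q.ι) : ℝ≥0∞ :=
  S.W p g φ + Ct.indicator (S.E p g) φ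

/-- the near estimates of a zone -/
def ZD.Near (Z : ZD) (p : ℝ) (k : Cst) (e : ℝ) {S : Src Ω} {ν : E3 ≃ᴬ[ℝ] E3} (n : Nrm S ν)
    (g h : E3 → E3) (Nr : Set S.Q.ι) (η : ℝ≥0∞) (𝓢 : Set S.Q.ι)
    (ψ : S.Q.ι → (E2 →ᵃ[ℝ] E3)) (a : S.Q.ι → ℝ) {ι : Type} [Fintype ι]
    (m : ι → S.Q.ι → ℝ≥0∞) (c : (Fin 3 → ℤ) → E3) (kk : S.Q.ι → ℝ≥0∞) : Prop :=
  NearOut p k.c₀ Z.θ Z.ϑ e (k.Cz Z.θ) (k.CM Z.θ) n.src Z.N Z.t Z.B (Z.T ∘ g ∘ ν.symm)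
    (Z.T ∘ h ∘ ν.symm) Nr η 𝓢 ψ a m c kk

/-- one zone, for the constants `k` -/
def ZA (p : ℝ) (k : Cst) : Prop := ∀ {Ω Λ : Set E3} (S : Src Ω) (g : ConHomeo Ω Λ) (Z : ZD)
  (δ : ℝ) (M₀ : ℝ≥0) (w : S.Q.ι → ℝ≥0∞) (El Ct Nr : Set S.Q.ι) (ν : E3 ≃ᴬ[ℝ] E3) (n : Nrm S ν)
  (η : ℝ≥0∞) (𝓢 : Set S.Q.ι) (ψ : S.Q.ι → (E2 →ᵃ[ℝ] E3)) (a : S.Q.ι → ℝ) {ι : Type}
  [Fintype ι] (m : ι → S.Q.ι → ℝ≥0∞),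
  IsOpen Ω → IsOpen Λ → 0 < δ → δ ≤ 1 / 100 → 0 < η → Z.supp ⊆ Λ →
  (∀ z ∈ nbr 1 Z.B, GO S (Z.T ∘ g.toFun) Z.N Z.t Z.X (Z.β z) (Z.o k δ) z) → Cond ν Z.L →
  (∀ φ ∈ 𝓢, Marked n.src (Z.T ∘ g.toFun ∘ ν.symm) Z.θ φ (ψ φ) (a φ)) →
  (∀ φ ∈ El, S.Q.dim φ = 2 ∧ φ ∉ Nr ∧ S.M φ = M₀ ∧ w φ ≠ ⊤) →
  ∃ (h : ConHomeo Ω Λ) (c : (Fin 3 → ℤ) → E3) (kk : S.Q.ι → ℝ≥0∞),
    Geo Z.N Z.B (Z.ci k) δ Z.β₀ Ω (Z.T ∘ g.toFun) (Z.T ∘ h.toFun) ∧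
    (∀ z ∈ nbr 1 Z.B, c z ∈ mid Z.N z ∧ c z ∉ Z.X) ∧
    Z.Near p k δ n g.toFun h.toFun (Nr \ hit S g.toFun (Z.cav c)) η 𝓢 ψ a m c kk ∧
    tot ((El ∩ hit S g.toFun Z.supp) \ hit S g.toFun (Z.cav c))
        (fun φ => w φ * dd S p h.toFun (Ct ∪ hit S g.toFun Z.core) φ) ≤
      Z.ca k M₀ * tot (El ∩ hit S g.toFun Z.supp) (fun φ => w φ * dd S p g.toFun Ct φ) + η

/-! ### a layer of zones with disjoint supports -/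

/-- the possible centres of the ball of the box `z` -/
def Ctr (Ω : Set E3) (g : E3 → E3) (Z : ZD) (z : Fin 3 → ℤ) : Set E3 :=
  {x ∈ Ω | Z.T (g x) ∈ mid Z.N z ∧ Z.T (g x) ∉ Z.X}

/-- the ball of radius `r` fits into the box `z` and contains the doubled cavity in its half -/
def Fit (Ω : Set E3) (g : E3 → E3) (Z : ZD) (r : ℝ) (z : Fin 3 → ℤ) : Prop :=
  ∀ x ∈ Ctr Ω g Z z, closedBall x r ⊆ Ω ∧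
    (∀ u ∈ closedBall x r, Z.T (g u) ∈ interior (lbox Z.N 0 z)) ∧
    ∀ u ∈ Ω, ‖nrm Z.N Z.t (Z.T (g u) - Z.T (g x))‖ ≤ 2 * Z.β z (Z.T (g x)) →
      dist u x < r / 2

/-- the geometric control of a layer -/
structure Lay (k : Cst) (Ω : Set E3) {I : Type} (Z : I → ZD) (δ : I → ℝ) (g h : E3 → E3) :
    Prop where
  off : ∀ x ∈ Ω, (∀ i, g x ∉ (Z i).supp) → h x = g x
  mem : ∀ i, ∀ x ∈ Ω, h x ∈ (Z i).supp ↔ g x ∈ (Z i).supp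
  geo : ∀ i, Geo (Z i).N (Z i).B ((Z i).ci k) (δ i) (Z i).β₀
    {x ∈ Ω | ∀ j, j ≠ i → g x ∉ (Z j).supp} ((Z i).T ∘ g) ((Z i).T ∘ h)

/-- the hypotheses of a layer on the cells -/
structure Rdy (k : Cst) (S : Src Ω) (Λ : Set E3) {I : Type} (Z : I → ZD) (δ : I → ℝ)
    (r : I → (Fin 3 → ℤ) → ℝ) (g : E3 → E3) : Prop where
  δ_mem : ∀ i, 0 < δ i ∧ δ i ≤ 1 / 100
  sub : ∀ i, (Z i).supp ⊆ Λ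
  lf : LFIn (fun i => (Z i).supp) Λ
  one : ∀ i j, i ≠ j → Disjoint (hit S g (Z i).supp) (hit S g (Z j).supp)
  osc : ∀ i, ∀ z ∈ nbr 1 (Z i).B,
    GO S ((Z i).T ∘ g) (Z i).N (Z i).t (Z i).X ((Z i).β z) ((Z i).o k (δ i)) z
  fit : ∀ i, ∀ z ∈ nbr 1 (Z i).B, Fit Ω g (Z i) (r i z) z

/-- the boxes of a family of zones -/
def Idx {I : Type} (Z : I → ZD) : Type := {a : I × (Fin 3 → ℤ) // a.2 ∈ nbr 1 (Z a.1).B}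

/-- the cells inside the half balls -/
def junk (S : Src Ω) {A : Type} (x : A → E3) (r : A → ℝ) : Set S.Q.ι :=
  {φ | ∃ a, S.Q.cell φ ⊆ ball (x a) (r a / 2)}

/-- a layer, for the constants `k` -/
def LAYER (p : ℝ) (k : Cst) : Prop := ∀ {Ω Λ : Set E3} (S : Src Ω) (g : ConHomeo Ω Λ) {I : Type}
  (Z : I → ZD) (δ : I → ℝ) (r : I → (Fin 3 → ℤ) → ℝ) (M₀ : ℝ≥0) (w : S.Q.ι → ℝ≥0∞)
  (El Ct : Set S.Q.ι) (Nr : I → Set S.Q.ι) (ν : I → (E3 ≃ᴬ[ℝ] E3)) (n : ∀ i, Nrm S (ν i))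
  (η : I → ℝ≥0∞) (𝓢 : I → Set S.Q.ι) (ψ : I → S.Q.ι → (E2 →ᵃ[ℝ] E3)) (a : I → S.Q.ι → ℝ)
  {ι : Type} [Fintype ι] (m : I → ι → S.Q.ι → ℝ≥0∞),
  IsOpen Ω → IsOpen Λ → Rdy k S Λ Z δ r g.toFun →
  (∀ i, 0 < η i ∧ Cond (ν i) (Z i).L ∧ Nr i ⊆ hit S g.toFun (Z i).supp ∧
    (∀ φ ∈ Nr i, ∀ z ∈ nbr 1 (Z i).B, ∀ x ∈ Ctr Ω g.toFun (Z i) z,
      Disjoint (S.Q.cell φ) (closedBall x (r i z))) ∧
    ∀ φ ∈ 𝓢 i, Marked (n i).src ((Z i).T ∘ g.toFun ∘ (ν i).symm) (Z i).θ φ (ψ i φ) (a i φ)) →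
  (∀ φ ∈ El, S.Q.dim φ = 2 ∧ (∀ i, φ ∉ Nr i) ∧ S.M φ = M₀ ∧ w φ ≠ ⊤) →
  ∃ (h : ConHomeo Ω Λ) (x : Idx Z → E3), Lay k Ω Z δ g.toFun h.toFun ∧
    (∀ b, x b ∈ Ctr Ω g.toFun (Z b.1.1) b.1.2) ∧
    (∀ b b', b ≠ b' →
      Disjoint (closedBall (x b) (r b.1.1 b.1.2)) (closedBall (x b') (r b'.1.1 b'.1.2))) ∧
    LFIn (fun b => closedBall (x b) (r b.1.1 b.1.2)) Ω ∧
    (∀ i, ∃ c kk, (Z i).Near p k (δ i) (n i) g.toFun h.toFun (Nr i) (η i) (𝓢 i) (ψ i) (a i)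
      (m i) c kk) ∧
    tot (El \ junk S x fun b => r b.1.1 b.1.2)
        (fun φ => w φ * dd S p h.toFun (Ct ∪ ⋃ i, hit S g.toFun (Z i).core) φ) ≤
      tot (El \ ⋃ i, hit S g.toFun (Z i).supp) (fun φ => w φ * dd S p g.toFun Ct φ) +
      ∑' i, ((Z i).ca k M₀ *
        tot (El ∩ hit S g.toFun (Z i).supp) (fun φ => w φ * dd S p g.toFun Ct φ) + η i)

/-! ### the free cubes -/

/-- a family of balls with candidate cubes -/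
structure Bl (S : Src Ω) (w₀ : E3) (w : S.Q.ι → ℝ≥0∞) {A : Type} (x : A → E3) (r σ : A → ℝ) :
    Prop where
  sub : ∀ a, closedBall (x a) (r a) ⊆ Ω
  cand : ∀ a, Cand S w₀ (σ a) (closedBall (x a) (r a)) w
  small : ∀ a, 100 * σ a ≤ r a
  disj : ∀ a b, a ≠ b → Disjoint (closedBall (x a) (r a)) (closedBall (x b) (r b))
  lf : LFIn (fun a => closedBall (x a) (r a)) Ω

/-- the choice of the free cubes -/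
def CUBES (p : ℝ) : Prop := ∃ C : ℝ≥0, ∀ {Ω : Set E3} (S : Src Ω) (h : E3 → E3) (w₀ : E3)
  (w : S.Q.ι → ℝ≥0∞) {A A' : Type} (x : A → E3) (r σ : A → ℝ) (x' : A' → E3) (r' σ' : A' → ℝ)
  (n : A → ℕ) (El : Set S.Q.ι), Bl S w₀ w x r σ → Bl S w₀ w x' r' σ' →
  (∀ a, {b | (closedBall (x a) (r a) ∩ closedBall (x' b) (r' b)).Nonempty}.encard ≤ n a ∧
    100 * (n a + 1) * σ a ≤ r a ∧
    ∀ b, (closedBall (x a) (r a) ∩ closedBall (x' b) (r' b)).Nonempty →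
      100 * n a * r' b ≤ r a) →
  (∀ φ, S.Q.dim φ = 2 → ((∃ a, S.Q.cell φ ⊆ closedBall (x a) (r a)) ∨
    ∃ b, S.Q.cell φ ⊆ closedBall (x' b) (r' b)) → φ ∈ El ∪ (junk S x r ∪ junk S x' r')) →
  ∃ (I : Type) (y : I → E3) (s : I → ℝ), Free S y s ∧
    (∀ i, (∃ a, closedBall (y i) (s i) ⊆ closedBall (x a) (r a)) ∨
      ∃ b, closedBall (y i) (s i) ⊆ closedBall (x' b) (r' b)) ∧
    (∀ φ ∈ junk S x r ∪ junk S x' r', ∃ i, S.Q.cell φ ⊆ ball (y i) (s i)) ∧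
    ∑' i, ENNReal.ofReal (s i) * En 2 p h (sphere (y i) (s i)) ≤
      C * tot El (fun φ => w φ * S.E p h φ)

/-! ### the plan -/

/-- a zone with the standard parameters -/
structure ZD.Std (Z : ZD) : Prop where
  N : Z.N = 1
  t : Z.t = 1 / 4
  θ : Z.θ = 1 / 1000
  ϑ : Z.ϑ = 1 / 1000
  L : Z.L = 1

/-- a ball on which `f` oscillates little and which avoids the near sets and the deep cores -/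
structure Spot (f : E3 → E3) (ε : ℝ) (Th Dp : Set E3) (x : E3) (r : ℝ) : Prop where
  disj : Disjoint (closedBall x r) (Th ∪ Dp)
  osc : ∀ u ∈ closedBall x r, ∀ u' ∈ closedBall x r, dist (f u) (f u') ≤ ε

/-- the geometry of the two batches -/
def PLAN (k : Cst) : Prop := ∃ κ : ℝ → ℝ → ℝ, (∀ b θ, 1 ≤ b → 0 < θ → 0 < κ b θ) ∧
  ∀ {Ω Λ Ω₀ : Set E3} {f f' : E3 → E3} {ε : ℝ} {J : Type} [Fintype J] (Y : J → TyZ Ω f),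
  IsOpen Ω → IsOpen Λ → Bornology.IsBounded Λ → HomeoOn f f' Ω Λ → 0 < ε →
  IsCompact Ω₀ → Ω₀ ⊆ Ω → (∀ j, (Y j).K ⊆ Ω₀) →
  (∀ j j', j ≠ j' → Disjoint (Y j).G (Y j').G) →
  ∃ (l : J → ℝ) (v : J → E3) (Z₁ : J ⊕ ℕ → ZD) (s₁ s₀ : ℝ), 0 < s₁ ∧ 0 < s₀ ∧
    (∀ j, 0 < l j ∧ (∀ y, (Z₁ (.inl j)).T y = (l j)⁻¹ • (Y j).Bm y - v j) ∧
      (Y j).N * volume {x ∈ (Y j).K | (Z₁ (.inl j)).T (f x) ∈ strips (Y j).N} ≤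
        10 * volume (Y j).K ∧
      (Z₁ (.inl j)).N = (Y j).N ∧ (Z₁ (.inl j)).t = (Y j).t ∧ (Z₁ (.inl j)).θ = (Y j).θ ∧
      (Z₁ (.inl j)).ϑ = (Y j).ϑ ∧ (Z₁ (.inl j)).L = (Y j).L) ∧ (∀ i, (Z₁ (.inr i)).Std) ∧
  ∀ (s b θ e : ℝ), 0 < s → s ≤ s₀ → 1 ≤ b → 0 < θ → θ ≤ 1 → 0 < e →
  ∃ (o : E3 → ℝ) (O : ℕ → Set E3) (σ₀ : ℕ → ℝ) (δ₁ : J ⊕ ℕ → ℝ)
    (r₁ : J ⊕ ℕ → (Fin 3 → ℤ) → ℝ) (lev : J ⊕ ℕ → ℕ) (n : J ⊕ ℕ → ℕ), Gauge o Ω ∧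
    (∀ n, IsOpen (O n) ∧ O n ⊆ Ω ∧ 0 < σ₀ n) ∧ LFIn O Ω ∧
    (∀ n n', n + 2 ≤ n' → Disjoint (O n) (O n')) ∧ (∀ j, δ₁ (.inl j) ≤ e) ∧
    (∀ i z, 100 * (n i + 1) * σ₀ (lev i) ≤ r₁ i z) ∧
  ∀ P : Set E3, Cores Ω₀ f (⋃ j, (Y j).G) P s b (κ b θ) →
  ∃ (Z₂ : ℕ → ZD) (δ₂ : ℕ → ℝ) (r₂ : ℕ → (Fin 3 → ℤ) → ℝ), (∀ i, (Z₂ i).Std) ∧
  ∀ (S : Src Ω) (g : ConHomeo Ω Λ),
    (∀ c, ∀ x ∈ S.Q.cell c, ∀ y ∈ S.Q.cell c, dist (g.toFun x) (f y) ≤ o y ∨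
      ((S.Q.cell c ∩ cubes P (3 * s / 4)).Nonempty ∧ dist (g.toFun x) (f y) ≤ κ b θ * s)) →
    Rdy k S Λ Z₁ δ₁ r₁ g.toFun ∧
    (∀ j, ∀ u ∈ thickening s₁ (Y j).K ∩ Ω, ∃ z, nbr 1 {z} ⊆ (Z₁ (.inl j)).B ∧
      (Z₁ (.inl j)).T (g.toFun u) ∈ lbox (Y j).N 0 z) ∧
    (∀ j, ∀ u ∈ Ω, g.toFun u ∈ (Z₁ (.inl j)).supp → u ∈ (Y j).G) ∧
    (∀ i, ∀ z ∈ nbr 1 (Z₁ i).B, ∀ x ∈ Ctr Ω g.toFun (Z₁ i) z,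
      Spot f ε (⋃ j, thickening s₁ (Y j).K) (deepc P s θ) x (r₁ i z) ∧
      closedBall x (r₁ i z) ⊆ O (lev i) \ cubes P (3 * s / 4)) ∧
    (∀ u ∈ deepc P s θ, (∀ i, g.toFun u ∉ (Z₁ i).supp) ∧ ∀ i, g.toFun u ∉ (Z₂ i).supp) ∧
  ∀ h : ConHomeo Ω Λ, Lay k Ω Z₁ δ₁ g.toFun h.toFun →
    Rdy k S Λ Z₂ δ₂ r₂ h.toFun ∧
    (∀ j, ∀ u ∈ thickening s₁ (Y j).K ∩ Ω, ∀ i, h.toFun u ∉ (Z₂ i).supp) ∧
    (∀ i, ∀ z ∈ nbr 1 (Z₂ i).B, ∀ x ∈ Ctr Ω h.toFun (Z₂ i) z,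
      Spot f ε (⋃ j, thickening s₁ (Y j).K) (deepc P s θ) x (r₂ i z) ∧
      ((∃ k', closedBall x (r₂ i z) ⊆ O k' \ cubes P (3 * s / 4) ∧ 100 * σ₀ k' ≤ r₂ i z) ∨
        ∃ q ∈ P, closedBall x (r₂ i z) ⊆ closedBall q (3 * s / 2) ∧
          100 * (κ b θ * s) ≤ r₂ i z)) ∧
    (∀ c, (∃ i, c ∈ hit S g.toFun (Z₁ i).core) ∨ (∃ i, c ∈ hit S h.toFun (Z₂ i).core) ∨
      S.Q.cell c ⊆ cubes P (s / 2)) ∧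
    (∀ i, ∀ z ∈ nbr 1 (Z₁ i).B, ∀ x ∈ Ctr Ω g.toFun (Z₁ i) z, ∃ F : Set (Idx Z₂),
      F.encard ≤ n i ∧ ∀ a : Idx Z₂, ∀ x' ∈ Ctr Ω h.toFun (Z₂ a.1.1) a.1.2,
        (closedBall x (r₁ i z) ∩ closedBall x' (r₂ a.1.1 a.1.2)).Nonempty →
        a ∈ F ∧ 100 * n i * r₂ a.1.1 a.1.2 ≤ r₁ i z) ∧
    ∀ h' : ConHomeo Ω Λ, Lay k Ω Z₂ δ₂ h.toFun h'.toFun → ∀ u ∈ Ω, dist (h'.toFun u) (f u) ≤ ε

end P073.Zn
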